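import Vale.Agent.Lib.P123.Winding

open Complex Polynomial
open scoped ComplexConjugate InnerProductSpace

set_option linter.unusedSectionVars false

namespace Vale.Agent.Lib.P123

/-! ### Logarithm approximation on half discs -/

section LogApprox

lemma norm_log_add_sub_log_le {w : ℂ} (hw : w ≠ 0) (hre : 0 ≤ w.re) {e : ℝ} (he : 0 ≤ e) :
    ‖log (w + e) - log w‖ ≤ e / ‖w‖ := by
  have hnw : 0 < ‖w‖ := norm_pos_iff.2 hw
  have hlow : ∀ t : ℝ, 0 ≤ t → ‖w‖ ≤ ‖w + t‖ := by
    intro t ht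
    have h1 : ‖w‖ ^ 2 ≤ ‖w + t‖ ^ 2 := by
      rw [← Complex.normSq_eq_norm_sq, ← Complex.normSq_eq_norm_sq, Complex.normSq_apply,
        Complex.normSq_apply]
      simp only [Complex.add_re, Complex.ofReal_re, Complex.add_im, Complex.ofReal_im, add_zero]
      nlinarith
    exact le_of_sq_le_sq h1 (norm_nonneg _) 
  have hne : ∀ t : ℝ, 0 ≤ t → w + t ≠ 0 := by
    intro t ht h
    have := hlow t ht
    rw [h, norm_zero] at this
    linarith
  have hslit : ∀ t : ℝ, 0 ≤ t → w + t ∈ slitPlane := by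
    intro t ht
    apply Pgon.slit_of_re_nonneg (hne t ht)
    simp only [Complex.add_re, Complex.ofReal_re]
    linarith
  have hd : ∀ t ∈ Set.Icc (0 : ℝ) e, HasDerivWithinAt (fun x : ℝ => log (w + x)) (1 / (w + t))
      (Set.Icc 0 e) t := by
    intro t ht
    have h1 : HasDerivAt (fun x : ℝ => w + (x : ℂ)) 1 t := by
      simpa using (Complex.ofRealCLM.hasDerivAt (x := t)).const_add w
    have h2 := h1.clog_real (hslit t ht.1)
    exact h2.hasDerivWithinAt
  have hb : ∀ t ∈ Set.Icc (0 : ℝ) e, ‖(1 / (w + t) : ℂ)‖ ≤ 1 / ‖w‖ := by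
    intro t ht
    rw [norm_div, norm_one]
    exact one_div_le_one_div_of_le hnw (hlow t ht.1)
  have key := Convex.norm_image_sub_le_of_norm_hasDerivWithin_le hd hb (convex_Icc 0 e)
    (Set.left_mem_Icc.2 he) (Set.right_mem_Icc.2 he)
  simp only [Complex.ofReal_zero, add_zero] at key
  calc ‖log (w + e) - log w‖ ≤ 1 / ‖w‖ * ‖e - 0‖ := key
    _ = e / ‖w‖ := by
      rw [sub_zero, Real.norm_of_nonneg he]; ring

/-- `log (w + e)` is a uniform limit of polynomials on a half disc. -/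
lemma log_shift_approx {W e : ℝ} (hW : 0 ≤ W) (he : 0 < e) {δ : ℝ} (hδ : 0 < δ) :
    ∃ r : ℂ[X], ∀ w : ℂ, 0 ≤ w.re → ‖w‖ ≤ W → ‖log (w + e) - r.eval w‖ ≤ δ := by
  set A : ℝ := W + e with hA
  have hA0 : 0 < A := by positivity
  set ρ : ℝ := A ^ 2 / e + 1 with hρ
  have hρ0 : 0 < ρ := by positivity
  set q2 : ℝ := 1 - (2 * ρ * e - A ^ 2) / ρ ^ 2 with hq2
  have h2 : 0 < 2 * ρ * e - A ^ 2 := by
    have : ρ * e = A ^ 2 + e := by
      rw [hρ]; field_simp
    nlinarith
  have hq2lt : q2 < 1 := by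
    rw [hq2]
    have : 0 < (2 * ρ * e - A ^ 2) / ρ ^ 2 := by positivity
    linarith
  -- bound for the shifted variable
  have hy : ∀ w : ℂ, 0 ≤ w.re → ‖w‖ ≤ W → ‖(w + e - ρ) / ρ‖ ^ 2 ≤ q2 := by
    intro w hre hn
    have hx : ‖(w + e : ℂ)‖ ≤ A := by
      calc ‖(w + e : ℂ)‖ ≤ ‖w‖ + ‖(e : ℂ)‖ := norm_add_le _ _
        _ ≤ W + e := by
          rw [Complex.norm_real, Real.norm_of_nonneg he.le]; linarith
    have hxre : e ≤ (w + e : ℂ).re := by simp; linarith
    rw [norm_div, Complex.norm_real, Real.norm_of_nonneg hρ0.le, div_pow,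
      ← Complex.normSq_eq_norm_sq]
    have hns : Complex.normSq (w + e - ρ) =
        ‖(w + e : ℂ)‖ ^ 2 - 2 * ρ * (w + e : ℂ).re + ρ ^ 2 := by
      rw [← Complex.normSq_eq_norm_sq, Complex.normSq_apply, Complex.normSq_apply]
      simp only [Complex.add_re, Complex.ofReal_re, Complex.add_im, Complex.ofReal_im, add_zero,
        Complex.sub_re, Complex.sub_im, sub_zero]
      ring
    rw [hns, hq2]
    rw [div_le_iff₀ (by positivity)]
    have e1 : (1 - (2 * ρ * e - A ^ 2) / ρ ^ 2) * ρ ^ 2 = ρ ^ 2 - (2 * ρ * e - A ^ 2) := by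
      field_simp
    rw [e1]
    have h3 : ‖(w + e : ℂ)‖ ^ 2 ≤ A ^ 2 := by
      apply pow_le_pow_left₀ (norm_nonneg _) hx
    nlinarith
  -- choose q < 1 with q^2 = max q2 0
  set q : ℝ := Real.sqrt (max q2 0) with hq
  have hq0 : 0 ≤ q := Real.sqrt_nonneg _
  have hq1 : q < 1 := by
    rw [hq, Real.sqrt_lt' (by norm_num)]
    rw [one_pow]
    exact max_lt hq2lt (by norm_num)
  have hyq : ∀ w : ℂ, 0 ≤ w.re → ‖w‖ ≤ W → ‖(w + e - ρ) / ρ‖ ≤ q := by
    intro w hre hn
    rw [hq]
    apply Real.le_sqrt_of_sq_le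
    exact (hy w hre hn).trans (le_max_left _ _)
  -- choose n large
  have hlim : Filter.Tendsto (fun n : ℕ => q ^ (n + 1) * (1 - q)⁻¹) Filter.atTop (nhds (0 * (1 - q)⁻¹)) := by
    apply Filter.Tendsto.mul_const
    exact (tendsto_pow_atTop_nhds_zero_of_lt_one hq0 hq1).comp (Filter.tendsto_add_atTop_nat 1)
  rw [zero_mul] at hlim
  obtain ⟨n, hn⟩ := ((tendsto_order.1 hlim).2 δ hδ).exists
  -- the polynomial
  let y : ℂ[X] := C ((ρ : ℂ)⁻¹) * (X + C (e : ℂ) - C (ρ : ℂ))
  have hyeval : ∀ w : ℂ, y.eval w = (w + e - ρ) / ρ := by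
    intro w
    simp only [y, eval_mul, eval_C, eval_sub, eval_add, eval_X]
    rw [div_eq_inv_mul]
  let T : ℂ[X] := ∑ j ∈ Finset.range (n + 1), C ((-1 : ℂ) ^ (j + 1) / j) * y ^ j
  refine ⟨C ((Real.log ρ : ℝ) : ℂ) + T, ?_⟩
  intro w hre hnw
  have hyw := hyq w hre hnw
  have hyw1 : ‖(w + e - ρ) / ρ‖ < 1 := lt_of_le_of_lt hyw hq1
  have hTeval : T.eval w = logTaylor (n + 1) ((w + e - ρ) / ρ) := by
    simp only [T, Complex.logTaylor, eval_finsetSum, eval_mul, eval_C, eval_pow, hyeval]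
    apply Finset.sum_congr rfl
    intro j _
    ring
  have hρC : (ρ : ℂ) ≠ 0 := by exact_mod_cast hρ0.ne'
  have hlog : log (w + e) = (Real.log ρ : ℝ) + log (1 + (w + e - ρ) / ρ) := by
    have h1 : (w + e : ℂ) = (ρ : ℂ) * (1 + (w + e - ρ) / ρ) := by
      field_simp
      ring
    have hne : (1 + (w + e - ρ) / ρ : ℂ) ≠ 0 := by
      intro h
      have h0 : (w + e : ℂ) = 0 := by rw [h1, h, mul_zero]
      have : (w + e : ℂ).re = 0 := by rw [h0]; rfl
      simp at this
      linarith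
    conv_lhs => rw [h1]
    rw [Complex.log_ofReal_mul hρ0 hne]
  rw [eval_add, eval_C, hTeval, hlog]
  have h3 := Complex.norm_log_sub_logTaylor_le n hyw1
  set u := (w + e - ρ) / ρ with hu
  have e1 : ((Real.log ρ : ℝ) : ℂ) + log (1 + u) - (((Real.log ρ : ℝ) : ℂ) + logTaylor (n + 1) u) =
      log (1 + u) - logTaylor (n + 1) u := by ring
  rw [e1]
  refine h3.trans ?_
  have h4 : ‖u‖ ^ (n + 1) * (1 - ‖u‖)⁻¹ ≤ q ^ (n + 1) * (1 - q)⁻¹ := by
    apply mul_le_mul (pow_le_pow_left₀ (norm_nonneg _) hyw _)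
    · apply inv_anti₀ (by linarith) (by linarith)
    · apply inv_nonneg.2; linarith
    · positivity
  have h5 : ‖u‖ ^ (n + 1) * (1 - ‖u‖)⁻¹ / ((n : ℝ) + 1) ≤ ‖u‖ ^ (n + 1) * (1 - ‖u‖)⁻¹ := by
    apply div_le_self
    · have : 0 ≤ (1 - ‖u‖)⁻¹ := inv_nonneg.2 (by linarith)
      positivity
    · have : (0 : ℝ) ≤ n := Nat.cast_nonneg n
      linarith
  linarith [hn.le]

/-- `w log w` is a uniform limit of polynomials on a half disc. -/
lemma wlog_approx {W : ℝ} (hW : 0 ≤ W) {δ : ℝ} (hδ : 0 < δ) :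
    ∃ r : ℂ[X], ∀ w : ℂ, 0 ≤ w.re → ‖w‖ ≤ W → ‖w * log w - r.eval w‖ ≤ δ := by
  set e : ℝ := δ / 2 with he
  have he0 : 0 < e := by positivity
  obtain ⟨r, hr⟩ := log_shift_approx hW he0 (δ := δ / (2 * (W + 1))) (by positivity)
  refine ⟨X * r, ?_⟩
  intro w hre hn
  rw [eval_mul, eval_X]
  have h1 : ‖w * log w - w * log (w + e)‖ ≤ e := by
    by_cases hw : w = 0
    · simp [hw]; exact he0.le
    · rw [← mul_sub, norm_mul, norm_sub_rev]
      have := norm_log_add_sub_log_le hw hre he0.le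
      have hnw : 0 < ‖w‖ := norm_pos_iff.2 hw
      calc ‖w‖ * ‖log (w + e) - log w‖ ≤ ‖w‖ * (e / ‖w‖) := by gcongr
        _ = e := by field_simp
  have h2 : ‖w * log (w + e) - w * r.eval w‖ ≤ δ / 2 := by
    rw [← mul_sub, norm_mul]
    have := hr w hre hn
    calc ‖w‖ * ‖log (w + e) - r.eval w‖ ≤ W * (δ / (2 * (W + 1))) := by
          gcongr
      _ ≤ δ / 2 := by
          have : W / (W + 1) ≤ 1 := by
            rw [div_le_one (by positivity)]; linarith
          calc W * (δ / (2 * (W + 1))) = (δ / 2) * (W / (W + 1)) := by field_simp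
            _ ≤ (δ / 2) * 1 := by gcongr
            _ = δ / 2 := by ring
  have h3 : w * log w - w * r.eval w =
      (w * log w - w * log (w + e)) + (w * log (w + e) - w * r.eval w) := by ring
  rw [h3]
  calc _ ≤ ‖w * log w - w * log (w + e)‖ + ‖w * log (w + e) - w * r.eval w‖ := norm_add_le _ _
    _ ≤ e + δ / 2 := add_le_add h1 h2
    _ = δ := by rw [he]; ring

end LogApprox


/-! ### Divided differences -/

section Divided

/-- Divided differences of a polynomial: a function of two variables, polynomial in each. -/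
lemma exists_dd (q : ℂ[X]) : ∃ D : ℂ → ℂ → ℂ,
    (∀ τ z, q.eval τ - q.eval z = (τ - z) * D τ z) ∧
    (∀ z, ∃ r : ℂ[X], ∀ τ, D τ z = r.eval τ) ∧
    (∀ (a b : ℂ) (L : ℝ), ∃ R : ℂ[X], ∀ z,
      b * ∫ s in (0 : ℝ)..L, D (a + (s : ℂ) * b) z = R.eval z) := by
  induction q using Polynomial.induction_on' with
  | add p q hp hq =>
    obtain ⟨D1, h1, h2, h3⟩ := hp
    obtain ⟨D2, h4, h5, h6⟩ := hq
    refine ⟨fun τ z => D1 τ z + D2 τ z, ?_, ?_, ?_⟩
    · intro τ z
      rw [eval_add, eval_add, mul_add, ← h1, ← h4]; ring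
    · intro z
      obtain ⟨r1, hr1⟩ := h2 z
      obtain ⟨r2, hr2⟩ := h5 z
      exact ⟨r1 + r2, fun τ => by simp only [eval_add, hr1, hr2]⟩
    · intro a b L
      obtain ⟨R1, hR1⟩ := h3 a b L
      obtain ⟨R2, hR2⟩ := h6 a b L
      refine ⟨R1 + R2, fun z => ?_⟩
      have c1 : Continuous (fun s : ℝ => D1 (a + (s : ℂ) * b) z) := by
        obtain ⟨r1, hr1⟩ := h2 z
        simp_rw [hr1]
        exact r1.continuous.comp (by fun_prop)
      have c2 : Continuous (fun s : ℝ => D2 (a + (s : ℂ) * b) z) := by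
        obtain ⟨r2, hr2⟩ := h5 z
        simp_rw [hr2]
        exact r2.continuous.comp (by fun_prop)
      rw [intervalIntegral.integral_add (c1.intervalIntegrable _ _) (c2.intervalIntegrable _ _),
        mul_add, hR1, hR2, eval_add]
  | monomial n c =>
    refine ⟨fun τ z => c * ∑ i ∈ Finset.range n, τ ^ i * z ^ (n - 1 - i), ?_, ?_, ?_⟩
    · intro τ z
      simp only [eval_monomial]
      have := Commute.mul_geom_sum₂ (Commute.all τ z) n
      rw [mul_left_comm, this]
      ring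
    · intro z
      refine ⟨C c * ∑ i ∈ Finset.range n, C (z ^ (n - 1 - i)) * X ^ i, fun τ => ?_⟩
      simp only [eval_mul, eval_C, eval_finsetSum, eval_pow, eval_X]
      congr 1
      apply Finset.sum_congr rfl
      intro i _
      ring
    · intro a b L
      refine ⟨∑ i ∈ Finset.range n,
        C (b * c * ∫ s in (0 : ℝ)..L, (a + (s : ℂ) * b) ^ i) * X ^ (n - 1 - i), fun z => ?_⟩
      simp only [eval_finsetSum, eval_mul, eval_C, eval_pow, eval_X]
      rw [intervalIntegral.integral_const_mul, intervalIntegral.integral_finsetSum]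
      · rw [Finset.mul_sum, Finset.mul_sum]
        apply Finset.sum_congr rfl
        intro i _
        rw [intervalIntegral.integral_mul_const]
        ring
      · intro i _
        apply Continuous.intervalIntegrable
        fun_prop

end Divided


variable {N : ℕ} [NeZero N]

namespace Pgon

variable (P : Pgon N)

/-! ### The polynomial equal to `conj p` on a line -/

/-- the polynomial which coincides with `conj p` on the line of side `j` -/
noncomputable def qj (p : ℂ[X]) (j : ZMod N) : ℂ[X] :=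
  (p.map (starRingEnd ℂ)).comp (C (conj (P.t j) / P.t j) * (X - C (P.v j)) + C (conj (P.v j)))

lemma qj_tau (p : ℂ[X]) (j : ZMod N) (s : ℝ) :
    (P.qj p j).eval (P.tau j s) = conj (p.eval (P.tau j s)) := by
  have ht := P.t_ne_zero j
  have h1 : (C (conj (P.t j) / P.t j) * (X - C (P.v j)) + C (conj (P.v j)) : ℂ[X]).eval (P.tau j s)
      = conj (P.tau j s) := by
    simp only [eval_add, eval_mul, eval_C, eval_sub, eval_X, tau]
    simp only [map_add, map_mul, Complex.conj_ofReal]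
    field_simp
    ring
  rw [qj, eval_comp, h1, eval_map]
  exact Polynomial.eval₂_at_apply _ _

/-! ### Boundedness of the polygon -/

lemma exp_ne_one_of_mem {x : ℝ} (h0 : 0 < x) (h1 : x < 1) :
    exp (((2 * Real.pi * x : ℝ) : ℂ) * I) ≠ 1 := by
  intro h
  rw [Complex.exp_eq_one_iff] at h
  obtain ⟨n, hn⟩ := h
  have hpi := Real.pi_pos
  have hI : (I : ℂ) ≠ 0 := I_ne_zero
  have h2 : ((2 * Real.pi * x : ℝ) : ℂ) = ((n * (2 * Real.pi) : ℝ) : ℂ) := by
    have : ((2 * Real.pi * x : ℝ) : ℂ) * I = (((n : ℝ) * (2 * Real.pi) : ℝ) : ℂ) * I := by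
      rw [hn]; push_cast; ring
    exact mul_right_cancel₀ hI this
  have h3 : 2 * Real.pi * x = n * (2 * Real.pi) := by exact_mod_cast h2
  have h4 : x = n := by
    have : (2 * Real.pi) * x = (2 * Real.pi) * n := by rw [h3]; ring
    exact mul_left_cancel₀ (by positivity) this
  have h5 : (0 : ℝ) < n := h4 ▸ h0
  have h6 : (n : ℝ) < 1 := h4 ▸ h1
  have h7 : (0 : ℤ) < n := by exact_mod_cast h5
  have h8 : n < (1 : ℤ) := by exact_mod_cast h6
  omega

lemma sum_n_eq_zero : ∑ j : ZMod N, P.n j = 0 := by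
  set ω := exp (((2 * Real.pi / N : ℝ) : ℂ) * I) with hω
  have hN := P.N_pos
  have hω1 : ω ≠ 1 := by
    have := exp_ne_one_of_mem (x := 1 / N) (by positivity)
      (by rw [div_lt_one (by linarith)]; linarith)
    have e : 2 * Real.pi * (1 / (N : ℝ)) = 2 * Real.pi / N := by ring
    rwa [e] at this
  have h : ∑ j : ZMod N, P.n j = (∑ j : ZMod N, P.n j) * ω := by
    rw [Finset.sum_mul]
    simp_rw [hω, ← P.rot]
    exact (Equiv.sum_comp (Equiv.addRight (1 : ZMod N)) P.n).symm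
  have h' : (∑ j : ZMod N, P.n j) * (ω - 1) = 0 := by
    rw [mul_sub, ← h]; ring
  exact (mul_eq_zero.1 h').resolve_right (sub_ne_zero.2 hω1)

lemma sum_n_sq_eq_zero : ∑ j : ZMod N, (P.n j) ^ 2 = 0 := by
  set ω := exp (((2 * Real.pi / N : ℝ) : ℂ) * I) with hω
  have hN := P.N_pos
  have hω1 : ω ^ 2 ≠ 1 := by
    have := exp_ne_one_of_mem (x := 2 / N) (by positivity)
      (by rw [div_lt_one (by linarith)]; linarith)
    have e : (((2 * Real.pi * (2 / (N : ℝ)) : ℝ) : ℂ) * I) =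
        ((2 : ℕ) : ℂ) * (((2 * Real.pi / N : ℝ) : ℂ) * I) := by
      push_cast; ring
    rw [e, Complex.exp_nat_mul] at this
    exact this
  have h : ∑ j : ZMod N, (P.n j) ^ 2 = (∑ j : ZMod N, (P.n j) ^ 2) * ω ^ 2 := by
    rw [Finset.sum_mul]
    have : ∀ j, (P.n j) ^ 2 * ω ^ 2 = (P.n (j + 1)) ^ 2 := by
      intro j
      rw [P.rot j, mul_pow]
    simp_rw [this]
    exact (Equiv.sum_comp (Equiv.addRight (1 : ZMod N)) (fun j => (P.n j) ^ 2)).symm
  have h' : (∑ j : ZMod N, (P.n j) ^ 2) * (ω ^ 2 - 1) = 0 := by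
    rw [mul_sub, ← h]; ring
  exact (mul_eq_zero.1 h').resolve_right (sub_ne_zero.2 hω1)

/-- The closed polygon is bounded. -/
lemma Q_bounded : ∃ R : ℝ, 0 ≤ R ∧ ∀ z ∈ P.Q, ‖z‖ ≤ R := by
  set M : ℝ := ∑ j : ZMod N, ‖P.v j‖ with hM
  have hM0 : 0 ≤ M := Finset.sum_nonneg fun _ _ => norm_nonneg _
  have hN := P.N_pos
  have hNpos : (0 : ℝ) < N := by linarith
  refine ⟨2 * (N * M), by positivity, ?_⟩
  intro z hz
  set a : ZMod N → ℝ := fun k => (conj (P.n k) * z).re with ha
  have hup : ∀ k, a k ≤ M := by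
    intro k
    have h1 := hz k
    have h2 : P.dl k z = (conj (P.n k) * P.v k).re - a k := by
      simp only [dl, ha, ← Complex.sub_re]
      congr 1; ring
    have h3 : (conj (P.n k) * P.v k).re ≤ ‖P.v k‖ := by
      refine (Complex.re_le_norm _).trans ?_
      rw [norm_mul, Complex.norm_conj, P.n_norm, one_mul]
    have h4 : ‖P.v k‖ ≤ M :=
      Finset.single_le_sum (f := fun j => ‖P.v j‖) (fun _ _ => norm_nonneg _) (Finset.mem_univ k)
    linarith
  have hsum : ∑ k : ZMod N, a k = 0 := by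
    have : (∑ k : ZMod N, conj (P.n k) * z) = conj (∑ k : ZMod N, P.n k) * z := by
      rw [map_sum, Finset.sum_mul]
    simp only [ha]
    rw [← Complex.re_sum, this, P.sum_n_eq_zero]
    simp
  have hcard : ((Finset.univ : Finset (ZMod N)).card : ℝ) = N := by
    rw [Finset.card_univ, ZMod.card]
  have hlow : ∀ k, -(N * M) ≤ a k := by
    intro k
    have h1 : ∑ l ∈ Finset.univ.erase k, a l ≤ ∑ _l ∈ (Finset.univ : Finset (ZMod N)).erase k, M :=
      Finset.sum_le_sum fun l _ => hup l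
    have h2 : a k + ∑ l ∈ Finset.univ.erase k, a l = 0 := by
      rw [Finset.add_sum_erase _ _ (Finset.mem_univ k)]; exact hsum
    rw [Finset.sum_const, Finset.card_erase_of_mem (Finset.mem_univ k), nsmul_eq_mul] at h1
    have h3 : (((Finset.univ : Finset (ZMod N)).card - 1 : ℕ) : ℝ) ≤ N := by
      rw [Finset.card_univ, ZMod.card]
      exact_mod_cast Nat.sub_le _ _
    have h4 : (((Finset.univ : Finset (ZMod N)).card - 1 : ℕ) : ℝ) * M ≤ N * M :=
      mul_le_mul_of_nonneg_right h3 hM0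
    linarith
  have hupN : ∀ k, a k ≤ N * M := by
    intro k
    have : M ≤ N * M := by nlinarith
    exact (hup k).trans this
  have hsq : ∀ k, a k ^ 2 ≤ (N * M) ^ 2 := by
    intro k
    apply sq_le_sq'
    · exact hlow k
    · exact hupN k
  -- the quadratic identity
  have hid : ∀ k, a k ^ 2 = (‖z‖ ^ 2 + (conj ((P.n k) ^ 2) * z ^ 2).re) / 2 := by
    intro k
    set x := conj (P.n k) * z with hx
    have h1 : ‖z‖ ^ 2 = x.re ^ 2 + x.im ^ 2 := by
      have : ‖x‖ = ‖z‖ := by rw [hx, norm_mul, Complex.norm_conj, P.n_norm, one_mul]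
      rw [← this, ← Complex.normSq_eq_norm_sq, Complex.normSq_apply]
      ring
    have h2 : conj ((P.n k) ^ 2) * z ^ 2 = x ^ 2 := by
      rw [hx, map_pow]; ring
    have hak : a k = x.re := rfl
    have hgen : ∀ y : ℂ, y.re ^ 2 = (y.re ^ 2 + y.im ^ 2 + (y ^ 2).re) / 2 := by
      intro y
      rw [pow_two y, Complex.mul_re]
      ring
    rw [hak, h1, h2]
    exact hgen x
  have hsumsq : ∑ k : ZMod N, a k ^ 2 = (N : ℝ) * ‖z‖ ^ 2 / 2 := by
    simp_rw [hid]
    rw [← Finset.sum_div, Finset.sum_add_distrib, Finset.sum_const, nsmul_eq_mul, hcard]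
    have : ∑ k : ZMod N, (conj ((P.n k) ^ 2) * z ^ 2).re = 0 := by
      have e : (∑ k : ZMod N, conj ((P.n k) ^ 2) * z ^ 2) = conj (∑ k : ZMod N, (P.n k) ^ 2) * z ^ 2 := by
        rw [map_sum, Finset.sum_mul]
      rw [← Complex.re_sum, e, P.sum_n_sq_eq_zero]
      simp
    rw [this, add_zero]
  have hbound : (N : ℝ) * ‖z‖ ^ 2 / 2 ≤ (N : ℝ) * (N * M) ^ 2 := by
    rw [← hsumsq]
    calc ∑ k : ZMod N, a k ^ 2 ≤ ∑ _k : ZMod N, (N * M) ^ 2 := Finset.sum_le_sum fun k _ => hsq k
      _ = (N : ℝ) * (N * M) ^ 2 := by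
        rw [Finset.sum_const, nsmul_eq_mul, hcard]
  have h5 : ‖z‖ ^ 2 ≤ 2 * (N * M) ^ 2 := by
    have : (N : ℝ) * (‖z‖ ^ 2 / 2) ≤ (N : ℝ) * (N * M) ^ 2 := by
      calc (N : ℝ) * (‖z‖ ^ 2 / 2) = (N : ℝ) * ‖z‖ ^ 2 / 2 := by ring
        _ ≤ _ := hbound
    have := le_of_mul_le_mul_left this hNpos
    linarith
  have h6 : (0 : ℝ) ≤ N * M := by positivity
  apply le_of_sq_le_sq _ (by positivity)
  calc ‖z‖ ^ 2 ≤ 2 * (N * M) ^ 2 := h5
    _ ≤ (2 * (N * M)) ^ 2 := by nlinarith [sq_nonneg ((N : ℝ) * M)]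


/-! ### Uniform limits of polynomials on the closed polygon -/

/-- uniform limits of polynomials on the closed polygon -/
def Appr (f : ℂ → ℂ) : Prop := ∀ ε > 0, ∃ q : ℂ[X], ∀ z ∈ P.Q, ‖f z - q.eval z‖ ≤ ε

lemma appr_poly (q : ℂ[X]) : P.Appr (fun z => q.eval z) :=
  fun ε hε => ⟨q, fun z _ => by simpa using hε.le⟩

lemma appr_add {f g : ℂ → ℂ} (hf : P.Appr f) (hg : P.Appr g) : P.Appr (fun z => f z + g z) := by
  intro ε hε
  obtain ⟨q1, h1⟩ := hf (ε / 2) (by positivity)
  obtain ⟨q2, h2⟩ := hg (ε / 2) (by positivity)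
  refine ⟨q1 + q2, fun z hz => ?_⟩
  rw [eval_add]
  have e : f z + g z - (q1.eval z + q2.eval z) = (f z - q1.eval z) + (g z - q2.eval z) := by ring
  rw [e]
  calc _ ≤ ‖f z - q1.eval z‖ + ‖g z - q2.eval z‖ := norm_add_le _ _
    _ ≤ ε / 2 + ε / 2 := add_le_add (h1 z hz) (h2 z hz)
    _ = ε := by ring

lemma appr_sum {ι : Type*} (s : Finset ι) (f : ι → ℂ → ℂ) (h : ∀ i ∈ s, P.Appr (f i)) :
    P.Appr (fun z => ∑ i ∈ s, f i z) := by
  classical
  induction s using Finset.induction_on with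
  | empty =>
    simpa using P.appr_poly 0
  | insert a s ha ih =>
    have h1 := h a (Finset.mem_insert_self _ _)
    have h2 := ih fun i hi => h i (Finset.mem_insert_of_mem hi)
    have := P.appr_add h1 h2
    simpa [Finset.sum_insert ha] using this

lemma appr_poly_mul (s : ℂ[X]) {f : ℂ → ℂ} (hf : P.Appr f) :
    P.Appr (fun z => s.eval z * f z) := by
  obtain ⟨R, _, hR⟩ := P.Q_bounded
  obtain ⟨B, hB⟩ := (isCompact_closedBall (0 : ℂ) R).exists_bound_of_continuousOn
    (s.continuous.continuousOn)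
  have hB' : ∀ z ∈ P.Q, ‖s.eval z‖ ≤ max B 0 + 1 := by
    intro z hz
    have := hB z (by simpa using hR z hz)
    have h2 := le_max_left B 0
    linarith
  have hpos : 0 < max B 0 + 1 := by
    have := le_max_right B 0
    linarith
  intro ε hε
  obtain ⟨q, hq⟩ := hf (ε / (max B 0 + 1)) (by positivity)
  refine ⟨s * q, fun z hz => ?_⟩
  rw [eval_mul, ← mul_sub, norm_mul]
  calc ‖s.eval z‖ * ‖f z - q.eval z‖ ≤ (max B 0 + 1) * (ε / (max B 0 + 1)) :=
        mul_le_mul (hB' z hz) (hq z hz) (norm_nonneg _) hpos.le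
    _ = ε := by field_simp

lemma appr_vertex (j : ZMod N) : P.Appr (fun z => (z - P.v j) * P.Lm j z) := by
  obtain ⟨R, hR0, hR⟩ := P.Q_bounded
  intro ε hε
  set W : ℝ := ‖P.v j‖ + R with hW
  have hW0 : 0 ≤ W := by positivity
  obtain ⟨r, hr⟩ := wlog_approx hW0 hε
  refine ⟨C (-P.n j) * r.comp (C (conj (P.n j)) * (C (P.v j) - X)), fun z hz => ?_⟩
  set w := conj (P.n j) * (P.v j - z) with hw
  have hre : 0 ≤ w.re := hz j
  have hnw : ‖w‖ ≤ W := by
    rw [hw, norm_mul, Complex.norm_conj, P.n_norm, one_mul]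
    calc ‖P.v j - z‖ ≤ ‖P.v j‖ + ‖z‖ := norm_sub_le _ _
      _ ≤ W := by rw [hW]; linarith [hR z hz]
  have e1 : z - P.v j = -P.n j * w := by
    rw [hw]
    calc z - P.v j = (P.n j * conj (P.n j)) * (z - P.v j) := by rw [P.n_mul_conj, one_mul]
      _ = _ := by ring
  have e2 : (C (-P.n j) * r.comp (C (conj (P.n j)) * (C (P.v j) - X))).eval z = -P.n j * r.eval w := by
    simp [eval_comp, hw]
  rw [e2]
  beta_reduce
  rw [e1]
  have e3 : -P.n j * w * P.Lm j z - -P.n j * r.eval w = -P.n j * (w * log w - r.eval w) := by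
    simp only [Lm, ← hw]
    ring
  rw [e3, norm_mul, norm_neg, P.n_norm, one_mul]
  exact hr w hre hnw

/-! ### Integrals over a side -/

lemma tau_eq (j : ZMod N) (s : ℝ) : P.tau j s = P.v j + (s : ℂ) * P.t j := rfl

lemma continuous_dd {D : ℂ → ℂ → ℂ} {z : ℂ} (hr : ∃ r : ℂ[X], ∀ τ, D τ z = r.eval τ) (j : ZMod N) :
    Continuous (fun s : ℝ => D (P.tau j s) z) := by
  obtain ⟨r, hr⟩ := hr
  simp_rw [hr]
  exact r.continuous.comp (P.continuous_tau j)

/-- The Cauchy integral over a side of a polynomial, for a point not on that line. -/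
lemma side_int {q : ℂ[X]} {D : ℂ → ℂ → ℂ} (h1 : ∀ τ z, q.eval τ - q.eval z = (τ - z) * D τ z)
    (h2 : ∀ z, ∃ r : ℂ[X], ∀ τ, D τ z = r.eval τ) {j : ZMod N} {z : ℂ} (hz : 0 < P.dl j z) :
    P.t j * ∫ s in (0 : ℝ)..(P.len j), q.eval (P.tau j s) * (1 / (P.tau j s - z)) =
      q.eval z * (P.Lp j z - P.Lm j z) + P.t j * ∫ s in (0 : ℝ)..(P.len j), D (P.tau j s) z := by
  have hne : ∀ s, P.tau j s - z ≠ 0 := fun s => P.tau_sub_ne_of_dl_ne hz.ne' s
  have hc : Continuous (fun s : ℝ => 1 / (P.tau j s - z)) :=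
    continuous_const.div ((P.continuous_tau j).sub continuous_const) hne
  have hd := P.continuous_dd (h2 z) j
  have e : ∫ s in (0 : ℝ)..(P.len j), q.eval (P.tau j s) * (1 / (P.tau j s - z)) =
      q.eval z * (∫ s in (0 : ℝ)..(P.len j), 1 / (P.tau j s - z)) +
        ∫ s in (0 : ℝ)..(P.len j), D (P.tau j s) z := by
    rw [← intervalIntegral.integral_const_mul, ← intervalIntegral.integral_add
      ((hc.intervalIntegrable _ _).const_mul _) (hd.intervalIntegrable _ _)]
    apply intervalIntegral.integral_congr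
    intro s _
    have := h1 (P.tau j s) z
    have h3 := hne s
    simp only
    field_simp
    linear_combination this
  rw [e, mul_add, ← P.side_eq_log hz]
  ring

/-- Regrouping the logarithms around the vertices. -/
lemma regroup (Q : ZMod N → ℂ) {z : ℂ} (hz : z ∈ P.Q) (hne : ∀ j, P.v j ≠ z) :
    ∑ j : ZMod N, Q j * (P.Lp j z - P.Lm j z) =
      ∑ j : ZMod N, (Q (j - 1) - Q j) * P.Lm j z + ((P.delta : ℂ) * I) * ∑ j : ZMod N, Q j := by
  have h1 : ∀ j : ZMod N, Q j * (P.Lp j z - P.Lm j z) =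
      Q j * P.Lm (j + 1) z - Q j * P.Lm j z + (P.delta : ℂ) * I * Q j := by
    intro j
    rw [P.Lp_eq hz (hne (j + 1))]
    ring
  simp_rw [h1]
  rw [Finset.sum_add_distrib, Finset.sum_sub_distrib, ← Finset.mul_sum]
  congr 1
  simp_rw [sub_mul]
  rw [Finset.sum_sub_distrib]
  congr 1
  have := Equiv.sum_comp (Equiv.addRight (1 : ZMod N)) (fun j => Q (j - 1) * P.Lm j z)
  simp only [Equiv.coe_addRight, add_sub_cancel_right] at this
  exact this

/-- An open side point is no vertex. -/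
lemma ne_vertex_of_opn {j0 : ZMod N} {s0 : ℝ} (hs : s0 ∈ Set.Ioo (0 : ℝ) (P.len j0)) (k : ZMod N) :
    P.v k ≠ P.tau j0 s0 := by
  intro h
  have h1 : P.dl k (P.tau j0 s0) = 0 := by rw [← h]; exact P.dl_vertex_self k
  have h2 : P.dl (k - 1) (P.tau j0 s0) = 0 := by
    rw [← h]
    have := P.dl_vertex_succ (k - 1)
    rwa [sub_add_cancel] at this
  have h3 : k = j0 := by
    by_contra hk
    have := P.dl_pos_of_opn hk hs
    linarith
  have h4 : k - 1 = j0 := by
    by_contra hk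
    have := P.dl_pos_of_opn hk hs
    linarith
  rw [← h3] at h4
  have h5 : (1 : ZMod N) = 0 := by
    have : k - 1 = k - 0 := by rw [h4, sub_zero]
    exact sub_right_injective this
  have hN := P.three_le
  have : Fact (1 < N) := ⟨by omega⟩
  exact one_ne_zero h5

/-- The logarithmic jump on the own side. -/
lemma own_log {j0 : ZMod N} {s0 : ℝ} (hs : s0 ∈ Set.Ioo (0 : ℝ) (P.len j0)) :
    ∃ Λ : ℝ, P.Lp j0 (P.tau j0 s0) - P.Lm j0 (P.tau j0 s0) = Λ + Real.pi * I := by
  refine ⟨Real.log (P.len j0 - s0) - Real.log s0, ?_⟩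
  have h1 : conj (P.n j0) * (P.v (j0 + 1) - P.tau j0 s0) = ((P.len j0 - s0 : ℝ) : ℂ) * I := by
    rw [← P.tau_len, tau_eq, tau_eq]
    have := P.conj_n_mul_t j0
    push_cast
    linear_combination ((P.len j0 : ℂ) - s0) * this
  have h2 : conj (P.n j0) * (P.v j0 - P.tau j0 s0) = (s0 : ℂ) * (-I) := by
    rw [tau_eq]
    have := P.conj_n_mul_t j0
    linear_combination (-(s0 : ℂ)) * this
  have hl : 0 < P.len j0 - s0 := by linarith [hs.2]
  simp only [Lp, Lm]
  rw [h1, h2, Complex.log_ofReal_mul hl I_ne_zero, Complex.log_ofReal_mul hs.1 (neg_ne_zero.2 I_ne_zero),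
    Complex.log_I, Complex.log_neg_I]
  push_cast
  ring


lemma conj_interval (f : ℝ → ℂ) (a b : ℝ) :
    conj (∫ s in a..b, f s) = ∫ s in a..b, conj (f s) := by
  simp only [intervalIntegral, map_sub, integral_conj]

/-- the density as a combination of the Cauchy kernel and its conjugate -/
lemma dens_cast (z : ℂ) (j : ZMod N) (s : ℝ) :
    (P.dens z j s : ℂ) = (2 * Real.pi * I)⁻¹ *
      (P.t j * (1 / (P.tau j s - z)) - conj (P.t j * (1 / (P.tau j s - z)))) := by
  have hpi : (Real.pi : ℂ) ≠ 0 := by exact_mod_cast Real.pi_pos.ne'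
  set u := P.t j * (1 / (P.tau j s - z)) with hu
  have h1 : P.dens z j s = u.im / Real.pi := by
    rw [P.dens_eq_im, hu]
    congr 2
    ring
  rw [h1, Complex.sub_conj]
  push_cast
  field_simp

/-- On the own side the two divided difference integrals are conjugate. -/
lemma own_side {Dq Dp : ℂ → ℂ → ℂ} {p : ℂ[X]} {j0 : ZMod N} {s0 : ℝ}
    (hq : ∀ τ z, (P.qj p j0).eval τ - (P.qj p j0).eval z = (τ - z) * Dq τ z)
    (hp : ∀ τ z, p.eval τ - p.eval z = (τ - z) * Dp τ z) :
    P.t j0 * ∫ s in (0 : ℝ)..(P.len j0), Dq (P.tau j0 s) (P.tau j0 s0) =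
      conj (P.t j0 * ∫ s in (0 : ℝ)..(P.len j0), Dp (P.tau j0 s) (P.tau j0 s0)) := by
  rw [map_mul, conj_interval, ← intervalIntegral.integral_const_mul,
    ← intervalIntegral.integral_const_mul]
  apply intervalIntegral.integral_congr_ae
  have hae : ∀ᵐ s ∂(MeasureTheory.volume : MeasureTheory.Measure ℝ), s ∉ ({s0} : Set ℝ) :=
    (Set.countable_singleton s0).ae_notMem _
  filter_upwards [hae] with s hs _
  have hs' : (s : ℂ) - s0 ≠ 0 := by
    rw [sub_ne_zero]
    intro h
    exact hs (by simpa using (Complex.ofReal_injective h))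
  have e : P.tau j0 s - P.tau j0 s0 = ((s : ℂ) - s0) * P.t j0 := by
    simp only [tau_eq]; ring
  have h1 := hq (P.tau j0 s) (P.tau j0 s0)
  have h2 := hp (P.tau j0 s) (P.tau j0 s0)
  rw [P.qj_tau, P.qj_tau, e] at h1
  rw [e] at h2
  have h3 := congrArg conj h2
  simp only [map_sub, map_mul, Complex.conj_ofReal] at h3
  have h4 : ((s : ℂ) - s0) * (P.t j0 * Dq (P.tau j0 s) (P.tau j0 s0)) =
      ((s : ℂ) - s0) * (conj (P.t j0) * conj (Dp (P.tau j0 s) (P.tau j0 s0))) := by
    rw [h3] at h1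
    linear_combination -h1
  exact mul_left_cancel₀ hs' h4

/-- **The Cauchy integral of the conjugate of a polynomial.** -/
theorem alpha_poly (p : ℂ[X]) : ∃ G : ℂ → ℂ,
    (∀ z ∈ P.opn, G z = P.alpha (fun w => p.eval w) z) ∧
    (∀ ε > 0, ∃ q : ℂ[X], ∀ z ∈ P.Q, ‖G z - q.eval z‖ ≤ ε) ∧
    (∀ z, (∀ k, 0 < P.dl k z) →
      G z = (2 * Real.pi * I)⁻¹ * P.oint (fun τ => conj (p.eval τ) * (1 / (τ - z)))) := by
  classical
  obtain ⟨Dp, hp1, hp2, hp3⟩ := exists_dd p
  choose Dq hq1 hq2 hq3 using fun j : ZMod N => exists_dd (P.qj p j)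
  choose R hR using fun j : ZMod N => hq3 j (P.v j) (P.t j) (P.len j)
  choose R' hR' using fun j : ZMod N => hp3 (P.v j) (P.t j) (P.len j)
  have hR2 : ∀ j z, P.t j * ∫ s in (0 : ℝ)..(P.len j), Dq j (P.tau j s) z = (R j).eval z :=
    fun j z => hR j z
  have hR2' : ∀ j z, P.t j * ∫ s in (0 : ℝ)..(P.len j), Dp (P.tau j s) z = (R' j).eval z :=
    fun j z => hR' j z
  let G : ℂ → ℂ := fun z => (2 * Real.pi * I)⁻¹ *
    (∑ j : ZMod N, ((P.qj p (j - 1)).eval z - (P.qj p j).eval z) * P.Lm j z +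
      ((P.delta : ℂ) * I) * ∑ j : ZMod N, (P.qj p j).eval z + ∑ j : ZMod N, (R j).eval z)
  have hG : ∀ z ∈ P.Q, (∀ j, P.v j ≠ z) → G z = (2 * Real.pi * I)⁻¹ *
      ∑ j : ZMod N, ((P.qj p j).eval z * (P.Lp j z - P.Lm j z) + (R j).eval z) := by
    intro z hz hne
    rw [Finset.sum_add_distrib, P.regroup (fun j => (P.qj p j).eval z) hz hne]
  have hpi : (2 * Real.pi * I : ℂ) ≠ 0 := by
    simp [Real.pi_ne_zero]
  refine ⟨G, ?_, ?_, ?_⟩
  · -- the boundary identity
    rintro z ⟨j0, s0, hs, rfl⟩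
    set ζ := P.tau j0 s0 with hζ
    have hζQ : ζ ∈ P.Q := P.opn_subset_Q ⟨j0, s0, hs, rfl⟩
    have hne : ∀ k, P.v k ≠ ζ := P.ne_vertex_of_opn hs
    have hdl : ∀ k, k ≠ j0 → 0 < P.dl k ζ := fun k hk => P.dl_pos_of_opn hk hs
    set e : ZMod N → ℂ := fun j => P.Lp j ζ - P.Lm j ζ with he
    set A : ZMod N → ℂ := fun j => (P.qj p j).eval ζ * e j + (R j).eval ζ with hA
    set B : ZMod N → ℂ := fun j => p.eval ζ * e j + (R' j).eval ζ with hB
    have hGζ : G ζ = (2 * Real.pi * I)⁻¹ * ∑ j, A j := hG ζ hζQ hne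
    have hsume : ∑ j, e j = 2 * Real.pi * I := P.sum_Lp_sub_Lm hζQ hne
    have hsumR' : ∑ j, (R' j).eval ζ = 0 := by
      obtain ⟨r, hr⟩ := hp2 ζ
      have := P.oint_poly r
      rw [oint] at this
      rw [← this]
      apply Finset.sum_congr rfl
      intro j _
      rw [← hR2']
      simp_rw [hr]
    have hsumB : ∑ j, B j = p.eval ζ * (2 * Real.pi * I) := by
      simp only [hB]
      rw [Finset.sum_add_distrib, hsumR', ← Finset.mul_sum, hsume, add_zero]
    have hterm : ∀ k, k ≠ j0 → conj (∫ s in (0 : ℝ)..(P.len k),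
        p.eval (P.tau k s) * (P.dens ζ k s : ℂ)) = (2 * Real.pi * I)⁻¹ * (A k - conj (B k)) := by
      intro k hk
      have hpos := hdl k hk
      have hne' : ∀ s, P.tau k s - ζ ≠ 0 := fun s => P.tau_sub_ne_of_dl_ne hpos.ne' s
      have hc : Continuous (fun s : ℝ => 1 / (P.tau k s - ζ)) :=
        continuous_const.div ((P.continuous_tau k).sub continuous_const) hne'
      have hcp : Continuous (fun s : ℝ => p.eval (P.tau k s)) :=
        p.continuous.comp (P.continuous_tau k)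
      have hcq : Continuous (fun s : ℝ => (P.qj p k).eval (P.tau k s)) :=
        (P.qj p k).continuous.comp (P.continuous_tau k)
      have hI1 : P.t k * ∫ s in (0 : ℝ)..(P.len k), (P.qj p k).eval (P.tau k s) * (1 / (P.tau k s - ζ))
          = A k := by
        rw [P.side_int (hq1 k) (hq2 k) hpos, hR2]
      have hI2 : P.t k * ∫ s in (0 : ℝ)..(P.len k), p.eval (P.tau k s) * (1 / (P.tau k s - ζ))
          = B k := by
        rw [P.side_int hp1 hp2 hpos, hR2']
      rw [conj_interval, ← hI1, ← hI2, map_mul, conj_interval]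
      rw [← intervalIntegral.integral_const_mul, ← intervalIntegral.integral_const_mul,
        ← intervalIntegral.integral_sub, ← intervalIntegral.integral_const_mul]
      · apply intervalIntegral.integral_congr
        intro s _
        simp only
        rw [P.qj_tau, P.dens_cast]
        simp only [map_mul, map_div₀, map_one, map_inv₀, map_sub, Complex.conj_I, Complex.conj_ofReal,
          map_ofNat, starRingEnd_self_apply]
        field_simp
        ring
      · apply Continuous.intervalIntegrable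
        exact continuous_const.mul (hcq.mul hc)
      · apply Continuous.intervalIntegrable
        have hconj : Continuous (fun s : ℝ => conj (p.eval (P.tau k s) * (1 / (P.tau k s - ζ)))) :=
          Complex.continuous_conj.comp (hcp.mul hc)
        exact continuous_const.mul hconj
    have hown : conj (∫ s in (0 : ℝ)..(P.len j0),
        p.eval (P.tau j0 s) * (P.dens ζ j0 s : ℂ)) = 0 := by
      have h0 : P.dl j0 ζ = 0 := P.dl_tau_self j0 s0
      simp [P.dens_self_side h0]
    -- own side values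
    obtain ⟨Λ, hΛ⟩ := P.own_log hs
    have hq0 : (P.qj p j0).eval ζ = conj (p.eval ζ) := P.qj_tau p j0 s0
    have hRR : (R j0).eval ζ = conj ((R' j0).eval ζ) := by
      rw [← hR2, ← hR2']
      exact P.own_side (hq1 j0) hp1
    have hAB : A j0 - conj (B j0) = conj (p.eval ζ) * (2 * Real.pi * I) := by
      simp only [hA, hB, he]
      rw [hΛ, hq0, hRR]
      simp only [map_add, map_mul, Complex.conj_ofReal, Complex.conj_I]
      ring
    -- assemble
    have hterm' : ∀ k, conj (∫ s in (0 : ℝ)..(P.len k),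
        p.eval (P.tau k s) * (P.dens ζ k s : ℂ)) =
        (2 * Real.pi * I)⁻¹ * (A k - conj (B k)) -
          if k = j0 then (2 * Real.pi * I)⁻¹ * (A j0 - conj (B j0)) else 0 := by
      intro k
      by_cases hk : k = j0
      · subst hk
        rw [if_pos rfl, hown, sub_self]
      · rw [if_neg hk, sub_zero, hterm k hk]
    have hV : P.alpha (fun w => p.eval w) ζ = ∑ k : ZMod N, conj (∫ s in (0 : ℝ)..(P.len k),
        p.eval (P.tau k s) * (P.dens ζ k s : ℂ)) := by
      simp only [alpha, V, map_sum]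
    rw [hV, hGζ]
    simp_rw [hterm']
    rw [Finset.sum_sub_distrib, Finset.sum_ite_eq' Finset.univ j0, if_pos (Finset.mem_univ j0),
      ← Finset.mul_sum, Finset.sum_sub_distrib, ← map_sum, hsumB, hAB]
    simp only [map_mul, Complex.conj_ofReal, Complex.conj_I, map_ofNat]
    field_simp
    ring
  · -- approximation
    have hroot : ∀ j : ZMod N, ∃ s : ℂ[X], P.qj p (j - 1) - P.qj p j = (X - C (P.v j)) * s := by
      intro j
      have h1 : (P.qj p (j - 1)).eval (P.v j) = conj (p.eval (P.v j)) := by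
        have := P.qj_tau p (j - 1) (P.len (j - 1))
        rwa [P.tau_len, sub_add_cancel] at this
      have h2 : (P.qj p j).eval (P.v j) = conj (p.eval (P.v j)) := by
        have := P.qj_tau p j 0
        rwa [P.tau_zero] at this
      have h3 : IsRoot (P.qj p (j - 1) - P.qj p j) (P.v j) := by
        rw [IsRoot, eval_sub, h1, h2, sub_self]
      exact Polynomial.dvd_iff_isRoot.2 h3
    choose s hs using hroot
    have hmain : P.Appr (fun z => ∑ j : ZMod N,
        ((P.qj p (j - 1)).eval z - (P.qj p j).eval z) * P.Lm j z) := by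
      apply P.appr_sum
      intro j _
      have h := P.appr_poly_mul (s j) (P.appr_vertex j)
      have e : (fun z => ((P.qj p (j - 1)).eval z - (P.qj p j).eval z) * P.Lm j z) =
          fun z => (s j).eval z * ((z - P.v j) * P.Lm j z) := by
        funext z
        have := congrArg (Polynomial.eval z) (hs j)
        simp only [eval_sub, eval_mul, eval_X, eval_C] at this
        rw [this]
        ring
      rw [e]
      exact h
    have hpoly : P.Appr (fun z => ((P.delta : ℂ) * I) * ∑ j : ZMod N, (P.qj p j).eval z +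
        ∑ j : ZMod N, (R j).eval z) := by
      have := P.appr_poly (C ((P.delta : ℂ) * I) * ∑ j : ZMod N, P.qj p j + ∑ j : ZMod N, R j)
      simpa [eval_finsetSum] using this
    have hall := P.appr_poly_mul (C ((2 * Real.pi * I)⁻¹)) (P.appr_add hmain hpoly)
    have e : G = fun z => (C ((2 * Real.pi * I)⁻¹)).eval z * (∑ j : ZMod N,
        ((P.qj p (j - 1)).eval z - (P.qj p j).eval z) * P.Lm j z +
        (((P.delta : ℂ) * I) * ∑ j : ZMod N, (P.qj p j).eval z +
        ∑ j : ZMod N, (R j).eval z)) := by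
      funext z
      simp only [G, eval_C]
      rw [add_assoc]
    rw [e]
    exact hall
  · -- interior points
    intro z hz
    have hzQ : z ∈ P.Q := fun k => (hz k).le
    have hne : ∀ j, P.v j ≠ z := by
      intro j h
      have := hz j
      rw [← h, P.dl_vertex_self] at this
      exact lt_irrefl _ this
    rw [hG z hzQ hne, oint]
    congr 1
    apply Finset.sum_congr rfl
    intro j _
    have h := P.side_int (hq1 j) (hq2 j) (hz j)
    rw [hR2] at h
    rw [← h]
    simp_rw [P.qj_tau]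

end Pgon

end Vale.Agent.Lib.P123
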