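import Vale.Agent.Lib.P123.Winding

open Complex Polynomial MeasureTheory
open scoped ComplexConjugate InnerProductSpace

set_option linter.unusedSectionVars false

namespace Vale.Agent.Lib.P123

variable {N : ℕ} [NeZero N]

namespace Pgon

variable (P : Pgon N)

/-- the visual angle at `ζ` on side `j₀` of the point `w`: zero along the side direction,
`π` opposite, `π/2` along the inner normal -/
noncomputable def ang (j₀ : ZMod N) (ζ w : ℂ) : ℝ :=
  (log (conj (P.n j₀) * (ζ - w))).im + Real.pi / 2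

lemma continuous_dens (a : ℂ) (k : ZMod N) : Continuous (P.dens a k) := by
  by_cases h : P.dl k a = 0
  · have : P.dens a k = fun _ => 0 := by
      funext s; exact P.dens_self_side h s
    rw [this]; exact continuous_const
  · unfold dens
    apply Continuous.div continuous_const
    · apply continuous_const.mul
      exact Complex.continuous_normSq.comp ((P.continuous_tau k).sub continuous_const)
    · intro s
      apply mul_ne_zero Real.pi_ne_zero
      rw [Ne, Complex.normSq_eq_zero]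
      exact P.tau_sub_ne_of_dl_ne h s

section OnSide

variable {j₀ : ZMod N} {s₀ : ℝ}

lemma dl_self_zero (j₀ : ZMod N) (s₀ : ℝ) : P.dl j₀ (P.tau j₀ s₀) = 0 := P.dl_tau_self j₀ s₀

lemma re_conj_zeta (j₀ : ZMod N) (s₀ : ℝ) (w : ℂ) :
    (conj (P.n j₀) * (P.tau j₀ s₀ - w)).re = P.dl j₀ w :=
  P.re_conj_n_tau j₀ s₀ w

lemma ang_slit {ζ w : ℂ} (hζ : P.dl j₀ ζ = 0) (hw : w ∈ P.Q) (hne : w ≠ ζ) :
    conj (P.n j₀) * (ζ - w) ∈ slitPlane := by
  apply slit_of_re_nonneg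
  · apply mul_ne_zero
    · simpa using P.n_ne_zero j₀
    · exact sub_ne_zero.2 hne.symm
  · have := P.dl_sub j₀ w ζ
    rw [hζ, sub_zero] at this
    rw [← this]
    exact hw j₀

lemma ang_mem {ζ w : ℂ} (hζ : P.dl j₀ ζ = 0) (hw : w ∈ P.Q) :
    P.ang j₀ ζ w ∈ Set.Icc 0 Real.pi := by
  unfold ang
  rw [Complex.log_im]
  have : 0 ≤ (conj (P.n j₀) * (ζ - w)).re := by
    have := P.dl_sub j₀ w ζ
    rw [hζ, sub_zero] at this
    rw [← this]
    exact hw j₀
  have h := abs_le.1 (Complex.abs_arg_le_pi_div_two_iff.2 this)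
  constructor <;> linarith [h.1, h.2]

/-- polar form of a point about `ζ` in the frame of the side of `ζ` -/
lemma polar (j₀ : ZMod N) (ζ w : ℂ) :
    w - ζ = (‖w - ζ‖ : ℂ) * (P.t j₀ * exp ((P.ang j₀ ζ w : ℂ) * I)) := by
  unfold ang
  rw [Complex.log_im]
  set q := conj (P.n j₀) * (ζ - w) with hq
  have hnq : ‖q‖ = ‖w - ζ‖ := by
    rw [hq, norm_mul, Complex.norm_conj, P.n_norm, one_mul, norm_sub_rev]
  have h1 : (‖w - ζ‖ : ℂ) * exp ((arg q : ℂ) * I) = q := by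
    rw [← hnq]; exact Complex.norm_mul_exp_arg_mul_I q
  have h2 : exp ((((arg q + Real.pi / 2 : ℝ)) : ℂ) * I) = exp ((arg q : ℂ) * I) * I := by
    push_cast
    rw [add_mul, Complex.exp_add]
    congr 1
    rw [Complex.exp_pi_div_two_mul_I] 
  rw [h2]
  have h3 : (‖w - ζ‖ : ℂ) * (P.t j₀ * (exp ((arg q : ℂ) * I) * I)) =
      ((‖w - ζ‖ : ℂ) * exp ((arg q : ℂ) * I)) * (P.t j₀ * I) := by ring
  rw [h3, h1, hq]
  simp only [t]
  have h4 := P.n_mul_conj j₀
  have hI : I * I = -1 := Complex.I_mul_I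
  calc w - ζ = (P.n j₀ * conj (P.n j₀)) * (w - ζ) := by rw [h4, one_mul]
    _ = -(I * I) * (P.n j₀ * conj (P.n j₀)) * (w - ζ) := by rw [hI]; ring
    _ = _ := by ring

lemma ang_succ {ζ : ℂ} (hs : s₀ ∈ Set.Ioo (0 : ℝ) (P.len j₀)) (hζ : ζ = P.tau j₀ s₀) :
    P.ang j₀ ζ (P.v (j₀ + 1)) = 0 := by
  unfold ang
  rw [Complex.log_im, ← P.tau_len, hζ]
  have hpos : 0 < P.len j₀ - s₀ := by linarith [hs.2]
  have : conj (P.n j₀) * (P.tau j₀ s₀ - P.tau j₀ (P.len j₀)) =
      ((P.len j₀ - s₀ : ℝ) : ℂ) * (-I) := by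
    simp only [tau]
    have h := P.conj_n_mul_t j₀
    push_cast
    calc _ = ((s₀ : ℂ) - (P.len j₀ : ℂ)) * (conj (P.n j₀) * P.t j₀) := by ring
      _ = _ := by rw [h]; ring
  rw [this, Complex.arg_real_mul _ hpos, Complex.arg_neg_I]
  ring

lemma ang_self {ζ : ℂ} (hs : s₀ ∈ Set.Ioo (0 : ℝ) (P.len j₀)) (hζ : ζ = P.tau j₀ s₀) :
    P.ang j₀ ζ (P.v j₀) = Real.pi := by
  unfold ang
  rw [Complex.log_im, ← P.tau_zero, hζ]
  have : conj (P.n j₀) * (P.tau j₀ s₀ - P.tau j₀ 0) = (s₀ : ℂ) * I := by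
    simp only [tau]
    have h := P.conj_n_mul_t j₀
    calc _ = (s₀ : ℂ) * (conj (P.n j₀) * P.t j₀) := by push_cast; ring
      _ = _ := by rw [h]
  rw [this, Complex.arg_real_mul _ hs.1, Complex.arg_I]
  ring

lemma hasDerivAt_ang {ζ : ℂ} (hζ : P.dl j₀ ζ = 0) {j : ZMod N} (hj : P.dl j ζ ≠ 0) {s : ℝ}
    (hs : s ∈ Set.Icc (0 : ℝ) (P.len j)) :
    HasDerivAt (fun x : ℝ => P.ang j₀ ζ (P.tau j x)) (Real.pi * P.dens ζ j s) s := by
  have hne : P.tau j s ≠ ζ := P.tau_ne_of_dl_pos hj s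
  have hsl := P.ang_slit (j₀ := j₀) hζ (P.tau_mem_Q j hs) hne
  -- rewrite the logarithm argument in the form of `hasDerivAt_side_log`
  have e : conj (P.n j₀) * (ζ - P.tau j s) = (-conj (P.n j₀)) * (P.tau j s - ζ) := by ring
  have hsl' : (-conj (P.n j₀)) * (P.tau j s - ζ) ∈ slitPlane := e ▸ hsl
  have h1 := P.hasDerivAt_side_log j (-conj (P.n j₀)) ζ s hsl'
  have h2 : HasDerivAt (fun x : ℝ => (log ((-conj (P.n j₀)) * (P.tau j x - ζ))).im)
      (P.t j / (P.tau j s - ζ)).im s := by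
    have := Complex.imCLM.hasFDerivAt.comp_hasDerivAt s h1
    simpa [Function.comp_def] using this
  have h3 := h2.add_const (Real.pi / 2)
  have e2 : (fun x : ℝ => P.ang j₀ ζ (P.tau j x)) =
      fun x : ℝ => (log ((-conj (P.n j₀)) * (P.tau j x - ζ))).im + Real.pi / 2 := by
    funext x
    unfold ang
    congr 2
    ring
  have e3 : Real.pi * P.dens ζ j s = (P.t j / (P.tau j s - ζ)).im := by
    rw [P.dens_eq_im]
    field_simp
  rw [e2, e3]
  exact h3

lemma continuousOn_ang {ζ : ℂ} (hζ : P.dl j₀ ζ = 0) {j : ZMod N} (hj : P.dl j ζ ≠ 0) :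
    ContinuousOn (fun x : ℝ => P.ang j₀ ζ (P.tau j x)) (Set.Icc 0 (P.len j)) := fun s hs =>
  (P.hasDerivAt_ang hζ hj hs).continuousAt.continuousWithinAt

/-- **Mass formula**: the visual measure from a point of an open side pushes to `dθ/π`. -/
theorem mass (ψ : ℝ → ℝ) (hψ : Continuous ψ) {ζ : ℂ} (hs : s₀ ∈ Set.Ioo (0 : ℝ) (P.len j₀))
    (hζ : ζ = P.tau j₀ s₀) :
    ∑ j : ZMod N, ∫ s in (0 : ℝ)..(P.len j), ψ (P.ang j₀ ζ (P.tau j s)) * P.dens ζ j s =
      (∫ x in (0 : ℝ)..Real.pi, ψ x) / Real.pi := by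
  have hz0 : P.dl j₀ ζ = 0 := hζ ▸ P.dl_tau_self j₀ s₀
  set Ψ : ℝ → ℝ := fun x => ∫ y in (0 : ℝ)..x, ψ y with hΨ
  have hΨd : ∀ x, HasDerivAt Ψ (ψ x) x := fun x =>
    (intervalIntegral.integral_hasDerivAt_right (hψ.intervalIntegrable _ _)
      (hψ.stronglyMeasurableAtFilter _ _) hψ.continuousAt)
  set F : ZMod N → ℝ := fun j => Ψ (P.ang j₀ ζ (P.v j)) with hF
  have hpi := Real.pi_pos
  have key : ∀ j : ZMod N, j ≠ j₀ →
      ∫ s in (0 : ℝ)..(P.len j), ψ (P.ang j₀ ζ (P.tau j s)) * P.dens ζ j s =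
        (F (j + 1) - F j) / Real.pi := by
    intro j hj
    have hdj : P.dl j ζ ≠ 0 := by
      have := P.dl_pos_of_opn (j := j₀) (k := j) hj hs
      rw [← hζ] at this
      exact this.ne'
    have hl := (P.len_pos j).le
    have hd : ∀ s ∈ Set.uIcc (0 : ℝ) (P.len j),
        HasDerivAt (fun x : ℝ => Ψ (P.ang j₀ ζ (P.tau j x)))
          (ψ (P.ang j₀ ζ (P.tau j s)) * (Real.pi * P.dens ζ j s)) s := by
      intro s hs'
      rw [Set.uIcc_of_le hl] at hs'
      exact (hΨd _).comp s (P.hasDerivAt_ang hz0 hdj hs')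
    have hc : ContinuousOn (fun s : ℝ =>
        ψ (P.ang j₀ ζ (P.tau j s)) * (Real.pi * P.dens ζ j s)) (Set.uIcc 0 (P.len j)) := by
      rw [Set.uIcc_of_le hl]
      apply ContinuousOn.mul
      · exact hψ.comp_continuousOn (P.continuousOn_ang hz0 hdj)
      · exact (continuous_const.mul (P.continuous_dens ζ j)).continuousOn
    have := intervalIntegral.integral_eq_sub_of_hasDerivAt hd hc.intervalIntegrable
    rw [P.tau_zero, P.tau_len] at this
    rw [hF]
    simp only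
    rw [← this, eq_div_iff hpi.ne', ← intervalIntegral.integral_mul_const]
    apply intervalIntegral.integral_congr
    intro s _
    simp only
    ring
  have key0 : ∫ s in (0 : ℝ)..(P.len j₀), ψ (P.ang j₀ ζ (P.tau j₀ s)) * P.dens ζ j₀ s = 0 := by
    have : (fun s : ℝ => ψ (P.ang j₀ ζ (P.tau j₀ s)) * P.dens ζ j₀ s) = fun _ => 0 := by
      funext s
      rw [P.dens_self_side hz0, mul_zero]
    rw [this]; simp
  have hsum := sum_succ_sub F
  have e1 : ∑ j : ZMod N, ∫ s in (0 : ℝ)..(P.len j), ψ (P.ang j₀ ζ (P.tau j s)) * P.dens ζ j s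
      = ∑ j : ZMod N, ((F (j + 1) - F j) / Real.pi) - (F (j₀ + 1) - F j₀) / Real.pi := by
    rw [← Finset.add_sum_erase _ _ (Finset.mem_univ j₀),
      ← Finset.add_sum_erase (s := Finset.univ) (f := fun j => (F (j + 1) - F j) / Real.pi) (a := j₀)
        (Finset.mem_univ j₀), key0]
    have : ∑ x ∈ Finset.univ.erase j₀, ∫ s in (0 : ℝ)..(P.len x),
        ψ (P.ang j₀ ζ (P.tau x s)) * P.dens ζ x s =
        ∑ x ∈ Finset.univ.erase j₀, (F (x + 1) - F x) / Real.pi := by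
      apply Finset.sum_congr rfl
      intro x hx
      exact key x (Finset.ne_of_mem_erase hx)
    rw [this]
    ring
  rw [e1, ← Finset.sum_div, hsum, zero_div, zero_sub, ← neg_div]
  have h0 : F (j₀ + 1) = Ψ 0 := by
    simp only [hF]
    rw [P.ang_succ hs hζ]
  have h1 : F j₀ = Ψ Real.pi := by
    simp only [hF]
    rw [P.ang_self hs hζ]
  rw [h0, h1]
  simp [hΨ]

/-- The visual measure has mass one. -/
theorem mass_one {ζ : ℂ} (hs : s₀ ∈ Set.Ioo (0 : ℝ) (P.len j₀)) (hζ : ζ = P.tau j₀ s₀) :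
    ∑ j : ZMod N, ∫ s in (0 : ℝ)..(P.len j), P.dens ζ j s = 1 := by
  have := P.mass (fun _ => 1) continuous_const hs hζ
  simp only [one_mul] at this
  rw [this]
  simp [Real.pi_ne_zero]

end OnSide

end Pgon
end Vale.Agent.Lib.P123
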