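import Vale.Agent.Lib.P123.OpAlg
import Vale.Agent.Lib.P123.Mass

/-!
The operator `alpha` on the class of uniform limits of polynomials on the open sides.
-/

open Complex Polynomial MeasureTheory
open scoped ComplexConjugate InnerProductSpace

set_option linter.unusedSectionVars false

namespace Vale.Agent.Lib.P123

variable {N : ℕ} [NeZero N]

namespace Pgon

variable (P : Pgon N)

lemma opn_ae_Ioc (j : ZMod N) {u : ℂ → ℂ} {C : ℝ} (hC : ∀ z ∈ P.opn, ‖u z‖ ≤ C) :
    ∀ᵐ s : ℝ, s ∈ Set.Ioc (0 : ℝ) (P.len j) → ‖u (P.tau j s)‖ ≤ C := by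
  have h := P.opn_ae j hC
  filter_upwards [h] with s hs hs2
  apply hs
  rwa [Set.uIoc_of_le (P.len_pos j).le]

lemma integrable_mul_dens {u : ℂ → ℂ} {j : ZMod N}
    (hu : IntervalIntegrable (fun s : ℝ => u (P.tau j s)) volume 0 (P.len j)) (z : ℂ) :
    IntervalIntegrable (fun s : ℝ => u (P.tau j s) * (P.dens z j s : ℂ)) volume 0 (P.len j) := by
  apply hu.mul_continuousOn
  exact (Complex.continuous_ofReal.comp (P.continuous_dens z j)).continuousOn

/-- the visual average is additive -/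
theorem V_add {u v : ℂ → ℂ}
    (hu : ∀ j, IntervalIntegrable (fun s : ℝ => u (P.tau j s)) volume 0 (P.len j))
    (hv : ∀ j, IntervalIntegrable (fun s : ℝ => v (P.tau j s)) volume 0 (P.len j)) (z : ℂ) :
    P.V (fun w => u w + v w) z = P.V u z + P.V v z := by
  unfold V
  rw [← Finset.sum_add_distrib]
  apply Finset.sum_congr rfl
  intro j _
  rw [← intervalIntegral.integral_add (P.integrable_mul_dens (hu j) z)
    (P.integrable_mul_dens (hv j) z)]
  simp only [add_mul]

theorem V_sub {u v : ℂ → ℂ}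
    (hu : ∀ j, IntervalIntegrable (fun s : ℝ => u (P.tau j s)) volume 0 (P.len j))
    (hv : ∀ j, IntervalIntegrable (fun s : ℝ => v (P.tau j s)) volume 0 (P.len j)) (z : ℂ) :
    P.V (fun w => u w - v w) z = P.V u z - P.V v z := by
  unfold V
  rw [← Finset.sum_sub_distrib]
  apply Finset.sum_congr rfl
  intro j _
  rw [← intervalIntegral.integral_sub (P.integrable_mul_dens (hu j) z)
    (P.integrable_mul_dens (hv j) z)]
  simp only [sub_mul]

/-- the visual average is homogeneous -/
theorem V_const_mul (c : ℂ) (u : ℂ → ℂ) (z : ℂ) :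
    P.V (fun w => c * u w) z = c * P.V u z := by
  unfold V
  rw [Finset.mul_sum]
  apply Finset.sum_congr rfl
  intro j _
  rw [← intervalIntegral.integral_const_mul]
  simp only [mul_assoc]

/-- contraction of the visual average at the points of the open sides -/
theorem V_norm_le {u : ℂ → ℂ} {C : ℝ} (hC : ∀ z ∈ P.opn, ‖u z‖ ≤ C) {z : ℂ} (hz : z ∈ P.opn) :
    ‖P.V u z‖ ≤ C := by
  obtain ⟨j₀, s₀, hs₀, rfl⟩ := hz
  have hQ : P.tau j₀ s₀ ∈ P.Q := P.tau_mem_Q j₀ ⟨hs₀.1.le, hs₀.2.le⟩
  have hC0 := P.C_nonneg hC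
  have key : ∀ j : ZMod N, ‖∫ s in (0 : ℝ)..(P.len j), u (P.tau j s) * (P.dens (P.tau j₀ s₀) j s : ℂ)‖
      ≤ ∫ s in (0 : ℝ)..(P.len j), C * P.dens (P.tau j₀ s₀) j s := by
    intro j
    have hl := (P.len_pos j).le
    apply intervalIntegral.norm_integral_le_of_norm_le hl
    · filter_upwards [P.opn_ae_Ioc j hC] with s hs hs2
      rw [norm_mul, Complex.norm_real, Real.norm_of_nonneg (P.dens_nonneg hQ j s)]
      exact mul_le_mul_of_nonneg_right (hs hs2) (P.dens_nonneg hQ j s)
    · exact ((continuous_const.mul (P.continuous_dens _ j)).intervalIntegrable _ _)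
  unfold V
  refine (norm_sum_le _ _).trans ((Finset.sum_le_sum fun j _ => key j).trans (le_of_eq ?_))
  simp_rw [intervalIntegral.integral_const_mul]
  rw [← Finset.mul_sum, P.mass_one hs₀ rfl, mul_one]

/-- the visual average of a constant -/
theorem V_const (c : ℂ) {z : ℂ} (hz : z ∈ P.opn) : P.V (fun _ => c) z = c := by
  obtain ⟨j₀, s₀, hs₀, rfl⟩ := hz
  have h : ∀ j : ZMod N, ∫ s in (0 : ℝ)..(P.len j), c * (P.dens (P.tau j₀ s₀) j s : ℂ) =
      c * ((∫ s in (0 : ℝ)..(P.len j), P.dens (P.tau j₀ s₀) j s : ℝ) : ℂ) := by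
    intro j
    rw [intervalIntegral.integral_const_mul, intervalIntegral.integral_ofReal]
  unfold V
  simp_rw [h]
  rw [← Finset.mul_sum, ← Complex.ofReal_sum, P.mass_one hs₀ rfl]
  simp

/-- conjugate homogeneity of `alpha` -/
theorem alpha_const_mul (c : ℂ) (u : ℂ → ℂ) (z : ℂ) :
    P.alpha (fun w => c * u w) z = conj c * P.alpha u z := by
  simp [alpha, P.V_const_mul]

theorem alpha_add {u v : ℂ → ℂ}
    (hu : ∀ j, IntervalIntegrable (fun s : ℝ => u (P.tau j s)) volume 0 (P.len j))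
    (hv : ∀ j, IntervalIntegrable (fun s : ℝ => v (P.tau j s)) volume 0 (P.len j)) (z : ℂ) :
    P.alpha (fun w => u w + v w) z = P.alpha u z + P.alpha v z := by
  simp [alpha, P.V_add hu hv]

theorem alpha_sub {u v : ℂ → ℂ}
    (hu : ∀ j, IntervalIntegrable (fun s : ℝ => u (P.tau j s)) volume 0 (P.len j))
    (hv : ∀ j, IntervalIntegrable (fun s : ℝ => v (P.tau j s)) volume 0 (P.len j)) (z : ℂ) :
    P.alpha (fun w => u w - v w) z = P.alpha u z - P.alpha v z := by
  simp [alpha, P.V_sub hu hv]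

theorem alpha_norm_le {u : ℂ → ℂ} {C : ℝ} (hC : ∀ z ∈ P.opn, ‖u z‖ ≤ C) {z : ℂ} (hz : z ∈ P.opn) :
    ‖P.alpha u z‖ ≤ C := by
  rw [alpha, Complex.norm_conj]
  exact P.V_norm_le hC hz

theorem alpha_const (c : ℂ) {z : ℂ} (hz : z ∈ P.opn) : P.alpha (fun _ => c) z = conj c := by
  rw [alpha, P.V_const c hz]

theorem alpha_one {z : ℂ} (hz : z ∈ P.opn) : P.alpha (fun _ => 1) z = 1 := by
  rw [P.alpha_const 1 hz, map_one]

/-- `alpha` preserves the class -/
theorem inP_alpha {u : ℂ → ℂ} (hu : P.InP u) : P.InP (P.alpha u) := by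
  intro ε hε
  obtain ⟨p, hp⟩ := hu (ε / 2) (by positivity)
  obtain ⟨G, hG1, hG2, _⟩ := P.alpha_poly p
  obtain ⟨q, hq⟩ := hG2 (ε / 2) (by positivity)
  refine ⟨q, fun z hz => ?_⟩
  have h1 : ‖P.alpha u z - P.alpha (fun w => p.eval w) z‖ ≤ ε / 2 := by
    rw [← P.alpha_sub (P.inP_integrable hu) (fun j => P.integrable_eval_tau p j)]
    exact P.alpha_norm_le hp hz
  have h2 := hq z (P.opn_subset_Q hz)
  rw [hG1 z hz] at h2
  have e : P.alpha u z - q.eval z =
      (P.alpha u z - P.alpha (fun w => p.eval w) z) + (P.alpha (fun w => p.eval w) z - q.eval z) := by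
    ring
  rw [e]
  refine (norm_add_le _ _).trans ?_
  linarith

/-- The conjugate of an element of the class is integrable on the sides. -/
theorem inP_conj_integrable {u : ℂ → ℂ} (hu : P.InP u) (j : ZMod N) :
    IntervalIntegrable (fun s : ℝ => conj (u (P.tau j s))) volume 0 (P.len j) := by
  have h := P.inP_integrable hu j
  have hl := (P.len_pos j).le
  rw [intervalIntegrable_iff_integrableOn_Ioc_of_le hl] at h ⊢
  exact (Complex.conjCLE : ℂ →L[ℝ] ℂ).integrable_comp h

section Operator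

variable {H : Type*} [NormedAddCommGroup H] [InnerProductSpace ℂ H] [CompleteSpace H]
  {A : H →L[ℂ] H} {d : ℝ}

/-- The identity `S (alpha u) = S (conj u)` on the class follows from the polynomial case. -/
theorem S_alpha_inP (hA : P.Margin A d) (hd : 0 < d)
    (hP : ∀ p : ℂ[X], P.S A (P.alpha (fun z => p.eval z)) = P.S A (fun z => conj (p.eval z)))
    {u : ℂ → ℂ} (hu : P.InP u) :
    P.S A (P.alpha u) = P.S A (fun z => conj (u z)) := by
  have hc := P.cS_nonneg (d := d) hd
  have key : ∀ ε : ℝ, 0 < ε →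
      ‖P.S A (P.alpha u) - P.S A (fun z => conj (u z))‖ ≤ ε * (2 * P.cS d) := by
    intro ε hε
    obtain ⟨p, hp⟩ := hu ε hε
    have iu := P.inP_integrable (P.inP_alpha hu)
    have ip := P.inP_integrable (P.inP_alpha (P.inP_poly p))
    have icu := P.inP_conj_integrable hu
    have icp := P.inP_conj_integrable (P.inP_poly p)
    have b1 : ‖P.S A (P.alpha u) - P.S A (P.alpha (fun z => p.eval z))‖ ≤ P.cS d * ε := by
      apply P.S_sub_norm_le hA hd iu ip
      intro z hz
      rw [← P.alpha_sub (P.inP_integrable hu) (fun j => P.integrable_eval_tau p j)]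
      exact P.alpha_norm_le hp hz
    have b2 : ‖P.S A (fun z => conj (u z)) - P.S A (fun z => conj (p.eval z))‖ ≤ P.cS d * ε := by
      apply P.S_sub_norm_le hA hd icu icp
      intro z hz
      rw [← map_sub, Complex.norm_conj]
      exact hp z hz
    have e : P.S A (P.alpha u) - P.S A (fun z => conj (u z)) =
        (P.S A (P.alpha u) - P.S A (P.alpha (fun z => p.eval z))) -
          (P.S A (fun z => conj (u z)) - P.S A (fun z => conj (p.eval z))) := by
      rw [hP p]; abel
    rw [e]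
    refine (norm_sub_le _ _).trans ?_
    linarith
  by_contra hne
  have hpos : 0 < ‖P.S A (P.alpha u) - P.S A (fun z => conj (u z))‖ :=
    norm_pos_iff.2 (sub_ne_zero.2 hne)
  set x := ‖P.S A (P.alpha u) - P.S A (fun z => conj (u z))‖ with hx
  have h1 := key (x / (2 * (2 * P.cS d + 1))) (by positivity)
  have h2 : x / (2 * (2 * P.cS d + 1)) * (2 * P.cS d) ≤ x / 2 := by
    rw [div_mul_eq_mul_div, div_le_div_iff₀ (by positivity) (by positivity)]
    nlinarith
  linarith

end Operator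

end Pgon
end Vale.Agent.Lib.P123
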