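import Vale.Agent.Lib.P123.Defs

open Complex Polynomial
open scoped ComplexConjugate InnerProductSpace

set_option linter.unusedSectionVars false

namespace Vale.Agent.Lib.P123

variable {N : ℕ} [NeZero N]

namespace Pgon

variable (P : Pgon N)

lemma conj_n_mul (j : ZMod N) : conj (P.n j) * P.n j = 1 := by
  have h := P.n_norm j
  rw [mul_comm, Complex.mul_conj, Complex.normSq_eq_norm_sq, h]; simp

lemma n_mul_conj (j : ZMod N) : P.n j * conj (P.n j) = 1 := by
  rw [mul_comm]; exact P.conj_n_mul j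

lemma n_ne_zero (j : ZMod N) : P.n j ≠ 0 := by
  intro h
  have := P.n_norm j
  rw [h] at this; simp at this

lemma t_norm (j : ZMod N) : ‖P.t j‖ = 1 := by
  simp [t, P.n_norm j]

lemma t_ne_zero (j : ZMod N) : P.t j ≠ 0 := by
  simp [t, P.n_ne_zero j]

lemma conj_n_mul_t (j : ZMod N) : conj (P.n j) * P.t j = I := by
  simp only [t]
  calc conj (P.n j) * (I * P.n j) = I * (conj (P.n j) * P.n j) := by ring
    _ = I := by rw [P.conj_n_mul]; ring

lemma dl_sub (j : ZMod N) (z w : ℂ) :
    P.dl j z - P.dl j w = (conj (P.n j) * (w - z)).re := by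
  simp only [dl, ← Complex.sub_re]
  congr 1; ring

lemma abs_dl_sub_le (j : ZMod N) (z w : ℂ) : |P.dl j z - P.dl j w| ≤ ‖z - w‖ := by
  rw [P.dl_sub]
  refine (Complex.abs_re_le_norm _).trans ?_
  rw [norm_mul, Complex.norm_conj, P.n_norm, one_mul, norm_sub_rev]

lemma dl_tau_self (j : ZMod N) (s : ℝ) : P.dl j (P.tau j s) = 0 := by
  have h : conj (P.n j) * (P.v j - P.tau j s) = -((s : ℂ) * I) := by
    simp only [tau]
    have := P.conj_n_mul_t j
    calc conj (P.n j) * (P.v j - (P.v j + (s : ℂ) * P.t j))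
        = -((s : ℂ) * (conj (P.n j) * P.t j)) := by ring
      _ = _ := by rw [this]
  simp [dl, h]

lemma tau_zero (j : ZMod N) : P.tau j 0 = P.v j := by simp [tau]

lemma tau_len (j : ZMod N) : P.tau j (P.len j) = P.v (j + 1) := by
  simp [tau, t, P.step j]

lemma dl_vertex_self (j : ZMod N) : P.dl j (P.v j) = 0 := by
  rw [← P.tau_zero]; exact P.dl_tau_self j 0

lemma dl_vertex_succ (j : ZMod N) : P.dl j (P.v (j + 1)) = 0 := by
  rw [← P.tau_len]; exact P.dl_tau_self j _

lemma dl_vertex_nonneg (j k : ZMod N) : 0 ≤ P.dl j (P.v k) := P.conv j k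

/-- the distance to line `k` is affine along every line -/
lemma dl_tau (k j : ZMod N) (s : ℝ) :
    P.dl k (P.tau j s) = P.dl k (P.v j) +
      (s / P.len j) * (P.dl k (P.v (j + 1)) - P.dl k (P.v j)) := by
  have hl := (P.len_pos j).ne'
  have h1 : P.dl k (P.v j) - P.dl k (P.tau j s) =
      s * (conj (P.n k) * P.t j).re := by
    rw [P.dl_sub]
    have : P.tau j s - P.v j = (s : ℂ) * P.t j := by simp [tau]
    rw [this]
    have : conj (P.n k) * ((s : ℂ) * P.t j) = (s : ℂ) * (conj (P.n k) * P.t j) := by ring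
    rw [this, Complex.re_ofReal_mul]
  have h2 : P.dl k (P.v j) - P.dl k (P.v (j + 1)) =
      P.len j * (conj (P.n k) * P.t j).re := by
    rw [← P.tau_len]
    rw [P.dl_sub]
    have : P.tau j (P.len j) - P.v j = (P.len j : ℂ) * P.t j := by simp [tau]
    rw [this]
    have : conj (P.n k) * ((P.len j : ℂ) * P.t j) = (P.len j : ℂ) * (conj (P.n k) * P.t j) := by
      ring
    rw [this, Complex.re_ofReal_mul]
  have h3 : P.dl k (P.v (j + 1)) - P.dl k (P.v j) = - (P.len j * (conj (P.n k) * P.t j).re) := by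
    linarith
  rw [h3]
  field_simp
  linarith

lemma tau_mem_Q (j : ZMod N) {s : ℝ} (hs : s ∈ Set.Icc (0 : ℝ) (P.len j)) :
    P.tau j s ∈ P.Q := by
  intro k
  rw [P.dl_tau k j s]
  have hl := P.len_pos j
  have h0 : 0 ≤ s / P.len j := div_nonneg hs.1 hl.le
  have h1 : s / P.len j ≤ 1 := (div_le_one hl).2 hs.2
  have a := P.dl_vertex_nonneg k j
  have b := P.dl_vertex_nonneg k (j + 1)
  nlinarith

lemma opn_subset_Q : P.opn ⊆ P.Q := by
  rintro z ⟨j, s, hs, rfl⟩
  exact P.tau_mem_Q j ⟨hs.1.le, hs.2.le⟩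

lemma center_mem_Q : P.center ∈ P.Q := fun j => (P.center_pos j).le

/-- A point of an open side is strictly inside all the other sides. -/
lemma dl_pos_of_opn {j k : ZMod N} (hk : k ≠ j) {s : ℝ} (hs : s ∈ Set.Ioo (0 : ℝ) (P.len j)) :
    0 < P.dl k (P.tau j s) := by
  have hl := P.len_pos j
  have a := P.dl_vertex_nonneg k j
  have b := P.dl_vertex_nonneg k (j + 1)
  have h0 : 0 < s / P.len j := div_pos hs.1 hl
  have h1 : s / P.len j < 1 := (div_lt_one hl).2 hs.2
  rw [P.dl_tau k j s]
  by_contra hcon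
  have hcon' : P.dl k (P.v j) + s / P.len j * (P.dl k (P.v (j + 1)) - P.dl k (P.v j)) ≤ 0 :=
    not_lt.1 hcon
  have ha0 : P.dl k (P.v j) = 0 := by nlinarith
  have hb0 : P.dl k (P.v (j + 1)) = 0 := by
    rw [ha0] at hcon'
    have : s / P.len j * P.dl k (P.v (j + 1)) ≤ 0 := by linarith
    nlinarith
  -- both ends of side `j` are on the line of side `k`
  have hr : (conj (P.n k) * P.t j).re = 0 := by
    have h := P.dl_sub k (P.v j) (P.v (j + 1))
    rw [ha0, hb0] at h
    have h' : P.v (j + 1) - P.v j = (P.len j : ℂ) * P.t j := by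
      rw [P.step j]; simp [t]
    rw [h'] at h
    have : conj (P.n k) * ((P.len j : ℂ) * P.t j) = (P.len j : ℂ) * (conj (P.n k) * P.t j) := by
      ring
    rw [this, Complex.re_ofReal_mul] at h
    have : P.len j * (conj (P.n k) * P.t j).re = 0 := by linarith
    exact (mul_eq_zero.1 this).resolve_left hl.ne'
  -- hence `conj n_k * n_j` is real
  set w := conj (P.n k) * P.n j with hw
  have him : w.im = 0 := by
    have : conj (P.n k) * P.t j = I * w := by simp only [t, hw]; ring
    rw [this] at hr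
    simpa using hr
  have hnorm : ‖w‖ = 1 := by
    rw [hw, norm_mul, Complex.norm_conj, P.n_norm, P.n_norm, one_mul]
  have hre : w.re = 1 ∨ w.re = -1 := by
    have : w = (w.re : ℂ) := by
      apply Complex.ext <;> simp [him]
    rw [this, Complex.norm_real, Real.norm_eq_abs] at hnorm
    rcases abs_eq (by norm_num : (0:ℝ) ≤ 1) |>.1 hnorm with h | h
    · left; exact h
    · right; exact h
  have hwval : w = (w.re : ℂ) := by apply Complex.ext <;> simp [him]
  have hnj : P.n j = w * P.n k := by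
    rw [hw]
    calc P.n j = (P.n k * conj (P.n k)) * P.n j := by rw [P.n_mul_conj, one_mul]
      _ = _ := by ring
  rcases hre with h | h
  · apply hk
    apply P.n_inj
    rw [hnj, hwval, h]; simp
  · -- opposite normals and a common line: the centre cannot be inside both
    have hcj := P.center_pos j
    have hck := P.center_pos k
    have e : (conj (P.n k) * (P.v k - P.center)).re =
        (conj (P.n k) * (P.v j - P.center)).re := by
      have := P.dl_sub k (P.center) (P.v j)
      have h' : (conj (P.n k) * (P.v k - P.center)).re = P.dl k P.center := rfl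
      rw [h', show (conj (P.n k) * (P.v j - P.center)).re = P.dl k P.center - P.dl k (P.v j) from this.symm, ha0]
      ring
    have e2 : conj (P.n j) = - conj (P.n k) := by
      rw [hnj, hwval, h]; simp
    rw [e] at hck
    rw [e2] at hcj
    have : (-conj (P.n k) * (P.v j - P.center)).re = - (conj (P.n k) * (P.v j - P.center)).re := by
      rw [neg_mul, Complex.neg_re]
    rw [this] at hcj
    linarith

/-- The point `v j + x t_j` is on the line of side `j` and the value of `Im (t_k/(tau_k s - z))`. -/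
lemma im_t_div (k : ZMod N) (s : ℝ) (z : ℂ) :
    (P.t k / (P.tau k s - z)).im = P.dl k z / Complex.normSq (P.tau k s - z) := by
  set w := P.tau k s - z with hw
  have h1 : P.dl k z = (conj (P.n k) * w).re := by
    have := P.dl_sub k z (P.tau k s)
    rw [P.dl_tau_self] at this
    rw [hw]; linarith
  rw [Complex.div_im]
  simp only [t, Complex.mul_re, Complex.mul_im, Complex.I_re, Complex.I_im, zero_mul, one_mul,
    zero_add, Complex.conj_re, Complex.conj_im] at h1 ⊢
  rw [h1]
  ring

lemma tau_sub_ne_of_dl_ne {k : ZMod N} {z : ℂ} (h : P.dl k z ≠ 0) (s : ℝ) :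
    P.tau k s - z ≠ 0 := by
  intro h0
  apply h
  have : z = P.tau k s := (sub_eq_zero.1 h0).symm
  rw [this]; exact P.dl_tau_self k s

lemma dl_le_norm (k : ZMod N) (s : ℝ) (z : ℂ) : |P.dl k z| ≤ ‖P.tau k s - z‖ := by
  have := P.abs_dl_sub_le k z (P.tau k s)
  rw [P.dl_tau_self, sub_zero, norm_sub_rev] at this
  exact this

lemma dens_self_side {j : ZMod N} {z : ℂ} (h : P.dl j z = 0) (s : ℝ) : P.dens z j s = 0 := by
  simp [dens, h]

lemma dens_nonneg {z : ℂ} (hz : z ∈ P.Q) (j : ZMod N) (s : ℝ) : 0 ≤ P.dens z j s := by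
  apply div_nonneg (hz j)
  exact mul_nonneg Real.pi_pos.le (Complex.normSq_nonneg _)

lemma dens_eq_im (z : ℂ) (j : ZMod N) (s : ℝ) :
    P.dens z j s = (P.t j / (P.tau j s - z)).im / Real.pi := by
  rw [P.im_t_div, dens]
  rw [div_div, mul_comm]

lemma continuous_tau (j : ZMod N) : Continuous (P.tau j) := by
  unfold tau
  fun_prop

lemma hasDerivAt_tau (j : ZMod N) (s : ℝ) : HasDerivAt (P.tau j) (P.t j) s := by
  unfold tau
  have h : HasDerivAt (fun x : ℝ => (x : ℂ) * P.t j) ((1 : ℂ) * P.t j) s :=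
    (Complex.ofRealCLM.hasDerivAt (x := s)).mul_const _ |>.congr_deriv (by simp)
  simpa using h.const_add (P.v j)

/-- closed sums telescope -/
lemma sum_succ_sub {E : Type*} [AddCommGroup E] (F : ZMod N → E) :
    ∑ j : ZMod N, (F (j + 1) - F j) = 0 := by
  rw [Finset.sum_sub_distrib, sub_eq_zero]
  exact Equiv.sum_comp (Equiv.addRight (1 : ZMod N)) F

end Pgon
end Vale.Agent.Lib.P123
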