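import Vale.Agent.Lib.P123.Build
import Vale.Agent.Lib.P123.Basic

/-!
From a bound on the sides of every polygon around the numerical range to the bound on the
numerical range itself.
-/

open Complex Polynomial
open scoped ComplexConjugate InnerProductSpace

namespace Vale.Agent.Lib.P123

theorem final_deduction {H : Type*} [NormedAddCommGroup H] [InnerProductSpace ℂ H]
    [CompleteSpace H] [Nontrivial H] (A : H →L[ℂ] H) {C : ℝ} (hC : 0 ≤ C) (p : ℂ[X])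
    (hbound : ∀ (N : ℕ) (_ : NeZero N) (P P₁ : Pgon N) (m d : ℝ), 0 < m → 0 < d →
      (∀ j z, P₁.dl j z = P.dl j z - m) → P.Margin A d → P₁.Margin A d →
      ∀ B : ℝ, (∀ z ∈ P.opn, ‖p.eval z‖ ≤ B) → ‖Polynomial.aeval A p‖ ≤ C * B)
    {s : ℝ} (hs : ∀ x : H, ‖x‖ = 1 → ‖p.eval ⟪x, A x⟫_ℂ‖ ≤ s) :
    ‖Polynomial.aeval A p‖ ≤ C * s := by
  apply le_of_forall_pos_le_add
  intro e he
  have hC1 : 0 < C + 1 := by linarith
  set ε := e / (C + 1) with hε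
  have hε0 : 0 < ε := by positivity
  set R := ‖A‖ + 1 with hR
  have hcomp : IsCompact (Metric.closedBall (0 : ℂ) R) := isCompact_closedBall _ _
  have huc := hcomp.uniformContinuousOn_of_continuous (f := fun z => p.eval z)
    p.continuous.continuousOn
  obtain ⟨δ, hδ, hδ2⟩ := Metric.uniformContinuousOn_iff.mp huc ε hε0
  set ρ := min (δ / 2) 1 with hρdef
  have hρ : 0 < ρ := by positivity
  have hρ1 : ρ ≤ 1 := min_le_right _ _
  have hρ2 : ρ < δ := lt_of_le_of_lt (min_le_left _ _) (by linarith)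
  obtain ⟨N, hNZ, P, P₁, m, d, hm, hd, h1, h2, h3, h4⟩ := exists_pgon A hρ
  have hB : ∀ z ∈ P.opn, ‖p.eval z‖ ≤ s + ε := by
    intro z hz
    obtain ⟨x, hx, hzx⟩ := h4 z (P.opn_subset_Q hz)
    have hw : ‖⟪x, A x⟫_ℂ‖ ≤ ‖A‖ := Build.numRange_bound A _ ⟨x, hx, rfl⟩
    have hz1 : z ∈ Metric.closedBall (0 : ℂ) R := by
      rw [mem_closedBall_zero_iff]
      calc ‖z‖ = ‖(z - ⟪x, A x⟫_ℂ) + ⟪x, A x⟫_ℂ‖ := by rw [sub_add_cancel]
        _ ≤ ‖z - ⟪x, A x⟫_ℂ‖ + ‖⟪x, A x⟫_ℂ‖ := norm_add_le _ _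
        _ ≤ R := by rw [hR]; linarith
    have hz2 : ⟪x, A x⟫_ℂ ∈ Metric.closedBall (0 : ℂ) R := by
      rw [mem_closedBall_zero_iff, hR]
      linarith
    have hd1 : dist z (⟪x, A x⟫_ℂ) < δ := by
      rw [dist_eq_norm]
      linarith
    have h5 := hδ2 z hz1 _ hz2 hd1
    rw [dist_eq_norm] at h5
    have h6 := hs x hx
    calc ‖p.eval z‖ = ‖(p.eval z - p.eval ⟪x, A x⟫_ℂ) + p.eval ⟪x, A x⟫_ℂ‖ := by
          rw [sub_add_cancel]
      _ ≤ ‖p.eval z - p.eval ⟪x, A x⟫_ℂ‖ + ‖p.eval ⟪x, A x⟫_ℂ‖ := norm_add_le _ _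
      _ ≤ s + ε := by linarith
  have h7 := hbound N hNZ P P₁ m d hm hd h1 h2 h3 (s + ε) hB
  refine h7.trans ?_
  have h8 : C * ε ≤ e := by
    rw [hε, ← mul_div_assoc, div_le_iff₀ hC1]
    nlinarith
  linarith

end Vale.Agent.Lib.P123
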