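import Vale.Agent.Lib.P123.Op1

/-!
# The operator identity `S (alpha p) = S (conj p)`.

Take an inner polygon `P₁`. A uniform limit `G` of polynomials has the same boundary Cauchy integral
on the sides of `P` and of `P₁`. On the sides of `P₁` it is the Cauchy transform of `conj p` along
the sides of `P`; Fubini and the Cauchy formula for the resolvent outside `P₁` give the result.
-/

open Complex Polynomial MeasureTheory
open scoped ComplexConjugate InnerProductSpace

set_option linter.unusedSectionVars false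

namespace Vale.Agent.Lib.P123

section Rect

variable {E : Type*} [NormedAddCommGroup E] [NormedSpace ℝ E]

lemma rect_integrable {F : ℝ → ℝ → E} {a b c d : ℝ}
    (hF : ContinuousOn (Function.uncurry F) (Set.Icc a b ×ˢ Set.Icc c d)) :
    Integrable (Function.uncurry F)
      ((volume.restrict (Set.Ioc a b)).prod (volume.restrict (Set.Ioc c d))) := by
  rw [Measure.prod_restrict]
  exact (hF.integrableOn_compact (isCompact_Icc.prod isCompact_Icc)).mono_set
    (Set.prod_mono Set.Ioc_subset_Icc_self Set.Ioc_subset_Icc_self)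

variable [CompleteSpace E]

/-- Fubini on a rectangle for jointly continuous functions. -/
lemma rect_swap {F : ℝ → ℝ → E} {a b c d : ℝ} (hab : a ≤ b) (hcd : c ≤ d)
    (hF : ContinuousOn (Function.uncurry F) (Set.Icc a b ×ˢ Set.Icc c d)) :
    (∫ x in a..b, ∫ y in c..d, F x y) = ∫ y in c..d, ∫ x in a..b, F x y := by
  simp only [intervalIntegral.integral_of_le hab, intervalIntegral.integral_of_le hcd]
  exact integral_integral_swap (rect_integrable hF)

lemma rect_integrable_left {F : ℝ → ℝ → E} {a b c d : ℝ} (hab : a ≤ b) (hcd : c ≤ d)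
    (hF : ContinuousOn (Function.uncurry F) (Set.Icc a b ×ˢ Set.Icc c d)) :
    IntervalIntegrable (fun x => ∫ y in c..d, F x y) volume a b := by
  rw [intervalIntegrable_iff_integrableOn_Ioc_of_le hab]
  simp only [intervalIntegral.integral_of_le hcd]
  exact (rect_integrable hF).integral_prod_left

lemma rect_integrable_right {F : ℝ → ℝ → E} {a b c d : ℝ} (hab : a ≤ b) (hcd : c ≤ d)
    (hF : ContinuousOn (Function.uncurry F) (Set.Icc a b ×ˢ Set.Icc c d)) :
    IntervalIntegrable (fun y => ∫ x in a..b, F x y) volume c d := by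
  rw [intervalIntegrable_iff_integrableOn_Ioc_of_le hcd]
  simp only [intervalIntegral.integral_of_le hab]
  exact (rect_integrable hF).integral_prod_right

end Rect

variable {N : ℕ} [NeZero N]

namespace Pgon

variable (P : Pgon N) {H : Type*} [NormedAddCommGroup H] [InnerProductSpace ℂ H] [CompleteSpace H]
  {A : H →L[ℂ] H} {d : ℝ}

/-- A uniform limit of polynomials on `s` is continuous on `s`. -/
lemma continuousOn_of_poly_approx {s : Set ℂ} {G : ℂ → ℂ}
    (h : ∀ ε > 0, ∃ q : ℂ[X], ∀ z ∈ s, ‖G z - q.eval z‖ ≤ ε) : ContinuousOn G s := by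
  refine continuousOn_of_uniform_approx_of_continuousOn ?_
  intro u hu
  obtain ⟨ε, hε, hεu⟩ := Metric.mem_uniformity_dist.1 hu
  obtain ⟨q, hq⟩ := h (ε / 2) (by positivity)
  refine ⟨fun z => q.eval z, q.continuous.continuousOn, fun y hy => hεu ?_⟩
  rw [dist_eq_norm]
  exact lt_of_le_of_lt (hq y hy) (by linarith)

lemma intervalIntegrable_side_smul (hA : P.Margin A d) (hd : 0 < d) {u : ℂ → ℂ} (j : ZMod N)
    (hu : ContinuousOn (fun s : ℝ => u (P.tau j s)) (Set.Icc 0 (P.len j))) :
    IntervalIntegrable (fun s : ℝ => u (P.tau j s) • res A (P.tau j s)) volume 0 (P.len j) := by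
  apply ContinuousOn.intervalIntegrable
  rw [Set.uIcc_of_le (P.len_pos j).le]
  exact hu.smul (P.continuous_res hA hd j).continuousOn

lemma S_sub_cont (hA : P.Margin A d) (hd : 0 < d) {u v : ℂ → ℂ}
    (hu : ∀ j, ContinuousOn (fun s : ℝ => u (P.tau j s)) (Set.Icc 0 (P.len j)))
    (hv : ∀ j, ContinuousOn (fun s : ℝ => v (P.tau j s)) (Set.Icc 0 (P.len j))) :
    P.S A (fun z => u z - v z) = P.S A u - P.S A v := by
  unfold S
  rw [← smul_sub, ← Finset.sum_sub_distrib]
  congr 1
  refine Finset.sum_congr rfl fun j _ => ?_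
  rw [← smul_sub, ← intervalIntegral.integral_sub (P.intervalIntegrable_side_smul hA hd j (hu j))
    (P.intervalIntegrable_side_smul hA hd j (hv j))]
  congr 2
  funext s
  rw [sub_smul]

lemma S_approx (hA : P.Margin A d) (hd : 0 < d) {G : ℂ → ℂ} (hG : ContinuousOn G P.Q) {q : ℂ[X]}
    {ε : ℝ} (hq : ∀ z ∈ P.Q, ‖G z - q.eval z‖ ≤ ε) :
    ‖P.S A G - aeval A q‖ ≤ (∑ j : ZMod N, P.len j) / (2 * Real.pi * d) * ε := by
  have hGs : ∀ j, ContinuousOn (fun s : ℝ => G (P.tau j s)) (Set.Icc 0 (P.len j)) := fun j =>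
    hG.comp (P.continuous_tau j).continuousOn (fun s hs => P.tau_mem_Q j hs)
  have hqs : ∀ j, ContinuousOn (fun s : ℝ => q.eval (P.tau j s)) (Set.Icc 0 (P.len j)) := fun j =>
    (q.continuous.comp (P.continuous_tau j)).continuousOn
  rw [← P.S_poly hA hd q, ← P.S_sub_cont hA hd hGs hqs]
  refine P.S_norm_le hA hd (fun j => ?_) (fun z hz => hq z (P.opn_subset_Q hz))
  apply ContinuousOn.intervalIntegrable
  rw [Set.uIcc_of_le (P.len_pos j).le]
  exact (hGs j).sub (hqs j)

lemma perimeter_div_nonneg (hd : 0 < d) : 0 ≤ (∑ j : ZMod N, P.len j) / (2 * Real.pi * d) :=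
  div_nonneg (Finset.sum_nonneg fun j _ => (P.len_pos j).le) (by positivity)

/-- The boundary Cauchy integrals on `P` and on an inner polygon agree on uniform limits of
polynomials. -/
lemma S_eq_of_approx (P₁ : Pgon N) (hQ : P₁.Q ⊆ P.Q) (hA : P.Margin A d) (hA₁ : P₁.Margin A d)
    (hd : 0 < d) {G : ℂ → ℂ} (hG1 : ∀ ε > 0, ∃ q : ℂ[X], ∀ z ∈ P.Q, ‖G z - q.eval z‖ ≤ ε) :
    P.S A G = P₁.S A G := by
  have hG := continuousOn_of_poly_approx hG1
  have hG₁ := hG.mono hQ
  have hC := P.perimeter_div_nonneg hd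
  have hC₁ := P₁.perimeter_div_nonneg hd
  set C := (∑ j : ZMod N, P.len j) / (2 * Real.pi * d) with hCdef
  set C₁ := (∑ j : ZMod N, P₁.len j) / (2 * Real.pi * d) with hC₁def
  have key : ∀ ε > 0, ‖P.S A G - P₁.S A G‖ ≤ (C + C₁) * ε := by
    intro ε hε
    obtain ⟨q, hq⟩ := hG1 ε hε
    have h1 := P.S_approx hA hd hG hq
    have h2 := P₁.S_approx hA₁ hd hG₁ (fun z hz => hq z (hQ hz))
    calc ‖P.S A G - P₁.S A G‖ = ‖(P.S A G - aeval A q) - (P₁.S A G - aeval A q)‖ := by
          congr 1; abel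
      _ ≤ ‖P.S A G - aeval A q‖ + ‖P₁.S A G - aeval A q‖ := norm_sub_le _ _
      _ ≤ C * ε + C₁ * ε := add_le_add h1 h2
      _ = _ := by ring
  have h0 : ‖P.S A G - P₁.S A G‖ ≤ 0 := by
    by_contra hc
    push Not at hc
    have hpos : 0 < C + C₁ + 1 := by linarith
    have h3 := key (‖P.S A G - P₁.S A G‖ / (2 * (C + C₁ + 1))) (by positivity)
    have h4 : (C + C₁) * (‖P.S A G - P₁.S A G‖ / (2 * (C + C₁ + 1))) ≤
        ‖P.S A G - P₁.S A G‖ / 2 := by
      rw [show (C + C₁) * (‖P.S A G - P₁.S A G‖ / (2 * (C + C₁ + 1))) =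
        ((C + C₁) / (C + C₁ + 1)) * (‖P.S A G - P₁.S A G‖ / 2) by field_simp]
      have h5 : (C + C₁) / (C + C₁ + 1) ≤ 1 := (div_le_one hpos).2 (by linarith)
      nlinarith
    linarith
  exact sub_eq_zero.1 (norm_le_zero_iff.1 h0)

/-- The Cauchy integral depends only on the values on the closed sides. -/
lemma S_congr_sides {u v : ℂ → ℂ} (h : ∀ j, ∀ s ∈ Set.Icc (0 : ℝ) (P.len j), u (P.tau j s) = v (P.tau j s)) :
    P.S A u = P.S A v := by
  unfold S
  congr 1
  refine Finset.sum_congr rfl fun j _ => ?_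
  congr 1
  refine intervalIntegral.integral_congr fun s hs => ?_
  rw [Set.uIcc_of_le (P.len_pos j).le] at hs
  simp only [h j s hs]

/-- The resolvent identity, for invertible `z - A` and `τ - A`. -/
lemma res_identity {z τ : ℂ} (hz : IsUnit (z • (1 : H →L[ℂ] H) - A))
    (hτ : IsUnit (τ • (1 : H →L[ℂ] H) - A)) :
    (τ - z) • (res A z * res A τ) = res A z - res A τ := by
  have h1 : res A z * (z • (1 : H →L[ℂ] H) - A) = 1 := Ring.inverse_mul_cancel _ hz
  have h2 : (τ • (1 : H →L[ℂ] H) - A) * res A τ = 1 := Ring.mul_inverse_cancel _ hτ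
  have e : (τ - z) • (1 : H →L[ℂ] H) = (τ • (1 : H →L[ℂ] H) - A) - (z • (1 : H →L[ℂ] H) - A) := by
    rw [sub_smul]; abel
  calc (τ - z) • (res A z * res A τ)
      = res A z * (((τ - z) • (1 : H →L[ℂ] H)) * res A τ) := by
        rw [smul_mul_assoc, one_mul, mul_smul_comm]
    _ = res A z * ((τ • (1 : H →L[ℂ] H) - A) * res A τ)
        - (res A z * (z • (1 : H →L[ℂ] H) - A)) * res A τ := by
        rw [e, sub_mul, mul_sub, mul_assoc]
    _ = res A z - res A τ := by rw [h1, h2, mul_one, one_mul]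

/-- The Cauchy formula for the resolvent at a point outside the polygon. -/
theorem S_div_eq_res (hA : P.Margin A d) (hd : 0 < d) {τ : ℂ}
    (hτ : IsUnit (τ • (1 : H →L[ℂ] H) - A)) {k₀ : ZMod N} (hk : P.dl k₀ τ < 0) :
    P.S A (fun z => 1 / (τ - z)) = res A τ := by
  -- the pointwise identity on the closed sides
  have hne : ∀ k, ∀ s ∈ Set.Icc (0 : ℝ) (P.len k), τ - P.tau k s ≠ 0 := by
    intro k s hs h0
    have h1 := P.tau_mem_Q k hs k₀
    have e : P.tau k s = τ := (sub_eq_zero.1 h0).symm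
    rw [e] at h1
    linarith
  have hpt : ∀ k, ∀ s ∈ Set.Icc (0 : ℝ) (P.len k),
      (1 / (τ - P.tau k s)) • res A (P.tau k s) =
        (1 / (τ - P.tau k s)) • res A τ + res A (P.tau k s) * res A τ := by
    intro k s hs
    have h0 := hne k s hs
    have hid := res_identity (P.res_spec hA hd k s).1 hτ
    have : res A (P.tau k s) = res A τ + (τ - P.tau k s) • (res A (P.tau k s) * res A τ) := by
      rw [hid]; abel
    conv_lhs => rw [this]
    rw [smul_add, smul_smul, one_div, inv_mul_cancel₀ h0, one_smul]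
  -- continuity on the closed sides
  have hcont : ∀ k, ContinuousOn (fun s : ℝ => 1 / (τ - P.tau k s)) (Set.Icc 0 (P.len k)) := by
    intro k
    refine ContinuousOn.div continuousOn_const ?_ (fun s hs => hne k s hs)
    exact (continuous_const.sub (P.continuous_tau k)).continuousOn
  have hint1 : ∀ k, IntervalIntegrable (fun s : ℝ => 1 / (τ - P.tau k s)) volume 0 (P.len k) := by
    intro k
    apply ContinuousOn.intervalIntegrable
    rw [Set.uIcc_of_le (P.len_pos k).le]
    exact hcont k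
  have hint2 : ∀ k, IntervalIntegrable (fun s : ℝ => res A (P.tau k s)) volume 0 (P.len k) :=
    fun k => (P.continuous_res hA hd k).intervalIntegrable _ _
  have hside : ∀ k, (∫ s in (0 : ℝ)..(P.len k), (1 / (τ - P.tau k s)) • res A (P.tau k s)) =
      (∫ s in (0 : ℝ)..(P.len k), 1 / (τ - P.tau k s)) • res A τ +
        (∫ s in (0 : ℝ)..(P.len k), res A (P.tau k s)) * res A τ := by
    intro k
    have h1 : (∫ s in (0 : ℝ)..(P.len k), (1 / (τ - P.tau k s)) • res A (P.tau k s)) =
        ∫ s in (0 : ℝ)..(P.len k), ((1 / (τ - P.tau k s)) • res A τ +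
          res A (P.tau k s) * res A τ) := by
      refine intervalIntegral.integral_congr fun s hs => ?_
      rw [Set.uIcc_of_le (P.len_pos k).le] at hs
      exact hpt k s hs
    have hint3 : IntervalIntegrable (fun s : ℝ => (1 / (τ - P.tau k s)) • res A τ)
        volume 0 (P.len k) := by
      apply ContinuousOn.intervalIntegrable
      rw [Set.uIcc_of_le (P.len_pos k).le]
      exact (hcont k).smul continuousOn_const
    rw [h1, intervalIntegral.integral_add hint3
      ((hint2 k).mul_continuousOn continuousOn_const),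
      intervalIntegral.integral_smul_const]
    congr 1
    exact ((ContinuousLinearMap.mul ℂ (H →L[ℂ] H)).flip (res A τ)).intervalIntegral_comp_comm (hint2 k)
  -- the two global integrals
  have hX : ∑ k : ZMod N, P.n k * (∫ s in (0 : ℝ)..(P.len k), 1 / (τ - P.tau k s)) = 0 := by
    have hw := P.winding_zero hk
    unfold oint at hw
    have e : ∀ k : ZMod N, P.n k * (∫ s in (0 : ℝ)..(P.len k), 1 / (τ - P.tau k s)) =
        I * (P.t k * ∫ s in (0 : ℝ)..(P.len k), 1 / (P.tau k s - τ)) := by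
      intro k
      have e1 : (∫ s in (0 : ℝ)..(P.len k), 1 / (τ - P.tau k s)) =
          -∫ s in (0 : ℝ)..(P.len k), 1 / (P.tau k s - τ) := by
        rw [← intervalIntegral.integral_neg]
        refine intervalIntegral.integral_congr fun s _ => ?_
        simp only [one_div]
        rw [← inv_neg, neg_sub]
      rw [e1]
      simp only [t]
      linear_combination (-(P.n k) * ∫ s in (0 : ℝ)..(P.len k), 1 / (P.tau k s - τ)) * I_mul_I
    rw [Finset.sum_congr rfl fun k _ => e k, ← Finset.mul_sum, hw, mul_zero]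
  have hY : ((2 * Real.pi : ℝ) : ℂ)⁻¹ • ∑ k : ZMod N,
      P.n k • ∫ s in (0 : ℝ)..(P.len k), res A (P.tau k s) = 1 := by
    have h1 := P.S_poly hA hd (1 : ℂ[X])
    simp only [eval_one, map_one] at h1
    rw [← h1]
    unfold S
    simp only [one_smul]
  -- assemble
  unfold S
  simp_rw [hside, smul_add, Finset.sum_add_distrib]
  have hsum1 : ∑ k : ZMod N, P.n k • ((∫ s in (0 : ℝ)..(P.len k), 1 / (τ - P.tau k s)) • res A τ)
      = (∑ k : ZMod N, P.n k * (∫ s in (0 : ℝ)..(P.len k), 1 / (τ - P.tau k s))) • res A τ := by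
    rw [Finset.sum_smul]
    refine Finset.sum_congr rfl fun k _ => ?_
    rw [smul_smul]
  have hsum2 : ∑ k : ZMod N, P.n k • ((∫ s in (0 : ℝ)..(P.len k), res A (P.tau k s)) * res A τ)
      = (∑ k : ZMod N, P.n k • ∫ s in (0 : ℝ)..(P.len k), res A (P.tau k s)) * res A τ := by
    rw [Finset.sum_mul]
    refine Finset.sum_congr rfl fun k _ => ?_
    rw [smul_mul_assoc]
  rw [hsum1, hsum2, hX, zero_smul, zero_add, ← smul_mul_assoc, hY, one_mul]

/-- Op2: the Cauchy transform of `conj p` under the functional calculus; `P₁` is an inner polygon.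
`G` is given through its approximation on `Q` and its formula at interior points. -/
theorem S_alpha (P₁ : Pgon N) {m : ℝ} (hm : 0 < m) (hrel : ∀ j z, P₁.dl j z = P.dl j z - m)
    (hA : P.Margin A d) (hA₁ : P₁.Margin A d) (hd : 0 < d) (p : ℂ[X]) {G : ℂ → ℂ}
    (hG1 : ∀ ε > 0, ∃ q : ℂ[X], ∀ z ∈ P.Q, ‖G z - q.eval z‖ ≤ ε)
    (hG2 : ∀ z, (∀ k, 0 < P.dl k z) → G z = (2 * Real.pi * I)⁻¹ *
      P.oint (fun τ => conj (p.eval τ) * (1 / (τ - z)))) :
    P.S A G = P.S A (fun z => conj (p.eval z)) := by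
  have hQ : P₁.Q ⊆ P.Q := by
    intro z hz j
    have := hz j
    rw [hrel] at this
    linarith
  have hin : ∀ k, ∀ s' ∈ Set.Icc (0 : ℝ) (P₁.len k), ∀ j, m ≤ P.dl j (P₁.tau k s') := by
    intro k s' hs' j
    have := P₁.tau_mem_Q k hs' j
    rw [hrel] at this
    linarith
  rw [P.S_eq_of_approx P₁ hQ hA hA₁ hd hG1]
  -- the kernel
  let g : ZMod N → ZMod N → ℝ → ℝ → ℂ :=
    fun j k s' s => conj (p.eval (P.tau j s)) * (1 / (P.tau j s - P₁.tau k s'))
  let F : ZMod N → ZMod N → ℝ → ℝ → (H →L[ℂ] H) :=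
    fun j k s' s => g j k s' s • res A (P₁.tau k s')
  have hne : ∀ j k, ∀ s' ∈ Set.Icc (0 : ℝ) (P₁.len k), ∀ s, P.tau j s - P₁.tau k s' ≠ 0 := by
    intro j k s' hs' s h0
    have h1 := hin k s' hs' j
    have e : P₁.tau k s' = P.tau j s := (sub_eq_zero.1 h0).symm
    rw [e, P.dl_tau_self] at h1
    linarith
  have hFc : ∀ j k, ContinuousOn (Function.uncurry (F j k))
      (Set.Icc 0 (P₁.len k) ×ˢ Set.Icc 0 (P.len j)) := by
    intro j k
    have c1 : Continuous (fun x : ℝ × ℝ => conj (p.eval (P.tau j x.2))) :=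
      Complex.continuous_conj.comp (p.continuous.comp ((P.continuous_tau j).comp continuous_snd))
    have c0 : Continuous (fun x : ℝ × ℝ => P.tau j x.2 - P₁.tau k x.1) :=
      ((P.continuous_tau j).comp continuous_snd).sub ((P₁.continuous_tau k).comp continuous_fst)
    have c2 : ContinuousOn (fun x : ℝ × ℝ => 1 / (P.tau j x.2 - P₁.tau k x.1))
        (Set.Icc 0 (P₁.len k) ×ˢ Set.Icc 0 (P.len j)) :=
      ContinuousOn.div continuousOn_const c0.continuousOn (fun x hx => hne j k x.1 hx.1 x.2)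
    have c3 : Continuous (fun x : ℝ × ℝ => res A (P₁.tau k x.1)) :=
      (P₁.continuous_res hA₁ hd k).comp continuous_fst
    exact (c1.continuousOn.mul c2).smul c3.continuousOn
  have hk0 : ∀ k, (0 : ℝ) ≤ P₁.len k := fun k => (P₁.len_pos k).le
  have hj0 : ∀ j, (0 : ℝ) ≤ P.len j := fun j => (P.len_pos j).le
  have hintL : ∀ j k, IntervalIntegrable (fun s' => ∫ s in (0 : ℝ)..(P.len j), F j k s' s)
      volume 0 (P₁.len k) := fun j k => rect_integrable_left (hk0 k) (hj0 j) (hFc j k)
  have hintR : ∀ j k, IntervalIntegrable (fun s => ∫ s' in (0 : ℝ)..(P₁.len k), F j k s' s)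
      volume 0 (P.len j) := fun j k => rect_integrable_right (hk0 k) (hj0 j) (hFc j k)
  -- the double integrals
  let B : ZMod N → ZMod N → (H →L[ℂ] H) :=
    fun j k => ∫ s in (0 : ℝ)..(P.len j), ∫ s' in (0 : ℝ)..(P₁.len k), F j k s' s
  have hswap : ∀ j k, (∫ s' in (0 : ℝ)..(P₁.len k), ∫ s in (0 : ℝ)..(P.len j), F j k s' s) = B j k :=
    fun j k => rect_swap (hk0 k) (hj0 j) (hFc j k)
  -- the left side
  have hside : ∀ k, (∫ s' in (0 : ℝ)..(P₁.len k), G (P₁.tau k s') • res A (P₁.tau k s')) =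
      ((2 * Real.pi * I : ℂ))⁻¹ • ∑ j : ZMod N, P.t j • B j k := by
    intro k
    have h1 : ∀ s' ∈ Set.uIcc (0 : ℝ) (P₁.len k), G (P₁.tau k s') • res A (P₁.tau k s') =
        ((2 * Real.pi * I : ℂ))⁻¹ • ∑ j : ZMod N, P.t j • ∫ s in (0 : ℝ)..(P.len j), F j k s' s := by
      intro s' hs'
      rw [Set.uIcc_of_le (hk0 k)] at hs'
      rw [hG2 _ (fun j => lt_of_lt_of_le hm (hin k s' hs' j))]
      unfold oint
      rw [mul_smul, Finset.sum_smul]
      congr 1
      refine Finset.sum_congr rfl fun j _ => ?_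
      rw [mul_smul]
      congr 1
      exact (intervalIntegral.integral_smul_const _ _).symm
    have hI' : ∀ j, IntervalIntegrable (fun s' => P.t j • ∫ s in (0 : ℝ)..(P.len j), F j k s' s)
        volume 0 (P₁.len k) := fun j => (hintL j k).smul (P.t j)
    rw [intervalIntegral.integral_congr h1, intervalIntegral.integral_smul,
      intervalIntegral.integral_finsetSum (fun j _ => hI' j)]
    congr 1
    refine Finset.sum_congr rfl fun j _ => ?_
    rw [intervalIntegral.integral_smul, hswap]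
  -- the inner Cauchy formula
  have hinner : ∀ j s, ((2 * Real.pi : ℝ) : ℂ)⁻¹ • ∑ k : ZMod N,
      P₁.n k • ∫ s' in (0 : ℝ)..(P₁.len k), F j k s' s =
        conj (p.eval (P.tau j s)) • res A (P.tau j s) := by
    intro j s
    have hout : P₁.dl j (P.tau j s) < 0 := by
      rw [hrel, P.dl_tau_self]; linarith
    have h := P₁.S_div_eq_res hA₁ hd (P.res_spec hA hd j s).1 hout
    rw [← h]
    unfold S
    have e : ∀ k, P₁.n k • (∫ s' in (0 : ℝ)..(P₁.len k), F j k s' s) =
        conj (p.eval (P.tau j s)) • (P₁.n k • ∫ s' in (0 : ℝ)..(P₁.len k),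
          (fun z => 1 / (P.tau j s - z)) (P₁.tau k s') • res A (P₁.tau k s')) := by
      intro k
      have e0 : (∫ s' in (0 : ℝ)..(P₁.len k), F j k s' s) =
          conj (p.eval (P.tau j s)) • ∫ s' in (0 : ℝ)..(P₁.len k),
            (fun z => 1 / (P.tau j s - z)) (P₁.tau k s') • res A (P₁.tau k s') := by
        rw [← intervalIntegral.integral_smul]
        refine intervalIntegral.integral_congr fun s' _ => ?_
        simp only [F, g]
        rw [smul_smul]
      rw [e0, smul_comm (conj (p.eval (P.tau j s))) (P₁.n k) (_ : H →L[ℂ] H)]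
    rw [Finset.sum_congr rfl (fun k _ => e k), ← Finset.smul_sum]
    exact smul_comm _ _ _
  -- the right side
  have hright : ∀ j, (∫ s in (0 : ℝ)..(P.len j), conj (p.eval (P.tau j s)) • res A (P.tau j s)) =
      ((2 * Real.pi : ℝ) : ℂ)⁻¹ • ∑ k : ZMod N, P₁.n k • B j k := by
    intro j
    simp_rw [← hinner j]
    have hI' : ∀ k, IntervalIntegrable (fun s => P₁.n k • ∫ s' in (0 : ℝ)..(P₁.len k), F j k s' s)
        volume 0 (P.len j) := fun k => (hintR j k).smul (P₁.n k)
    rw [intervalIntegral.integral_smul,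
      intervalIntegral.integral_finsetSum (fun k _ => hI' k)]
    congr 1
    refine Finset.sum_congr rfl fun k _ => ?_
    rw [intervalIntegral.integral_smul]
  -- assembling
  have hI : ∀ (j : ZMod N) (X : H →L[ℂ] H), ((2 * Real.pi * I : ℂ))⁻¹ • (P.t j • X) =
      ((2 * Real.pi : ℝ) : ℂ)⁻¹ • (P.n j • X) := by
    intro j X
    rw [smul_smul, smul_smul]
    congr 1
    simp only [t]
    have h2 : (2 * (Real.pi : ℂ)) ≠ 0 := by
      simp [Real.pi_ne_zero]
    push_cast
    field_simp
  unfold S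
  simp_rw [hside, hright, Finset.smul_sum, hI]
  rw [Finset.sum_comm]
  refine Finset.sum_congr rfl fun j _ => Finset.sum_congr rfl fun k _ => ?_
  simp only [smul_smul]
  congr 1
  ring

end Pgon
end Vale.Agent.Lib.P123
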