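import Vale.Agent.Lib.P123.Op1

/-!
# The positive kernel of the boundary Cauchy integral.

`Φ(u)(z,x) = ⟪z, S u x⟫ + ⟪S (conj u) z, x⟫` is an integral against a positive operator valued
density.  This gives `phi_bound` and the Cauchy-Schwarz form `phi_cs`.
-/

open Complex Polynomial MeasureTheory
open scoped ComplexConjugate InnerProductSpace

set_option linter.unusedSectionVars false

namespace Vale.Agent.Lib.P123

variable {N : ℕ} [NeZero N]

namespace Pgon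

variable (P : Pgon N) {H : Type*} [NormedAddCommGroup H] [InnerProductSpace ℂ H] [CompleteSpace H]
  {A : H →L[ℂ] H} {d : ℝ}

/-- the sesquilinear form attached to an operator -/
noncomputable def Bf (D : H →L[ℂ] H) (z x : H) : ℂ := ⟪z, D x⟫_ℂ + ⟪D z, x⟫_ℂ

lemma Bf_add_right (D : H →L[ℂ] H) (z x y : H) : Bf D z (x + y) = Bf D z x + Bf D z y := by
  simp only [Bf, map_add, inner_add_right]; ring

lemma Bf_sub_right (D : H →L[ℂ] H) (z x y : H) : Bf D z (x - y) = Bf D z x - Bf D z y := by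
  simp only [Bf, map_sub, inner_sub_right]; ring

lemma Bf_add_left (D : H →L[ℂ] H) (z x y : H) : Bf D (z + x) y = Bf D z y + Bf D x y := by
  simp only [Bf, map_add, inner_add_left]; ring

lemma Bf_sub_left (D : H →L[ℂ] H) (z x y : H) : Bf D (z - x) y = Bf D z y - Bf D x y := by
  simp only [Bf, map_sub, inner_sub_left]; ring

lemma Bf_smul_right (D : H →L[ℂ] H) (a : ℂ) (z x : H) : Bf D z (a • x) = a * Bf D z x := by
  simp only [Bf, map_smul, inner_smul_right]; ring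

lemma Bf_smul_left (D : H →L[ℂ] H) (a : ℂ) (z x : H) : Bf D (a • z) x = conj a * Bf D z x := by
  simp only [Bf, map_smul, inner_smul_left]; ring

lemma Bf_conj (D : H →L[ℂ] H) (z x : H) : conj (Bf D z x) = Bf D x z := by
  simp only [Bf, map_add, inner_conj_symm]; ring

lemma Bf_self_im (D : H →L[ℂ] H) (x : H) : (Bf D x x).im = 0 := by
  have h := Bf_conj D x x
  have := congrArg Complex.im h
  simp only [Complex.conj_im] at this
  linarith

lemma Bf_self_re (D : H →L[ℂ] H) (x : H) : (Bf D x x).re = 2 * (⟪x, D x⟫_ℂ).re := by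
  have : ⟪D x, x⟫_ℂ = conj ⟪x, D x⟫_ℂ := (inner_conj_symm (D x) x).symm
  simp only [Bf, Complex.add_re, this, Complex.conj_re]
  ring

/-- expansion of the form on a combination -/
lemma Bf_expand (D : H →L[ℂ] H) (a : ℂ) (x y : H) :
    (Bf D (a • x - y) (a • x - y)).re =
      Complex.normSq a * (Bf D x x).re + (Bf D y y).re - 2 * (a * Bf D y x).re := by
  have h1 : Bf D (a • x - y) (a • x - y) =
      (conj a * a) * Bf D x x - conj a * Bf D x y - a * Bf D y x + Bf D y y := by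
    simp only [Bf_sub_left, Bf_sub_right, Bf_smul_left, Bf_smul_right]
    ring
  have h2 : conj a * Bf D x y = conj (a * Bf D y x) := by
    rw [map_mul, Bf_conj]
  rw [h1, h2, ← Complex.normSq_eq_conj_mul_self]
  simp only [Complex.add_re, Complex.sub_re, Complex.conj_re, Complex.mul_re, Complex.ofReal_re,
    Complex.ofReal_im, zero_mul, sub_zero, Bf_self_im D x]
  ring

lemma Bf_cs (D : H →L[ℂ] H) (hD : ∀ v : H, 0 ≤ (⟪v, D v⟫_ℂ).re) (z w : H) {l : ℝ} (hl : 0 < l) :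
    ‖Bf D z w‖ ≤ (l * (Bf D z z).re + (Bf D w w).re / l) / 2 := by
  obtain ⟨e, he, hbe⟩ : ∃ e : ℂ, ‖e‖ = 1 ∧ e * Bf D z w = (‖Bf D z w‖ : ℂ) := by
    by_cases hb : Bf D z w = 0
    · exact ⟨1, by simp, by simp [hb]⟩
    · refine ⟨conj (Bf D z w) / (‖Bf D z w‖ : ℂ), ?_, ?_⟩
      · rw [norm_div, Complex.norm_conj, Complex.norm_real, norm_norm, div_self]
        exact norm_ne_zero_iff.2 hb
      · have hn : (‖Bf D z w‖ : ℂ) ≠ 0 := by
          exact_mod_cast norm_ne_zero_iff.2 hb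
        rw [div_mul_eq_mul_div, Complex.conj_mul', div_eq_iff hn]
        ring
  have h0 := hD (e • w - (l : ℂ) • z)
  have h1 := Bf_expand D e w ((l : ℂ) • z)
  have h2 : (0 : ℝ) ≤ (Bf D (e • w - (l : ℂ) • z) (e • w - (l : ℂ) • z)).re := by
    rw [Bf_self_re]; linarith
  rw [h1] at h2
  have h3 : Complex.normSq e = 1 := by
    rw [Complex.normSq_eq_norm_sq, he]; norm_num
  have h4 : Bf D ((l : ℂ) • z) ((l : ℂ) • z) = ((l ^ 2 : ℝ) : ℂ) * Bf D z z := by
    rw [Bf_smul_left, Bf_smul_right, Complex.conj_ofReal]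
    push_cast; ring
  have h5 : e * Bf D ((l : ℂ) • z) w = (l : ℂ) * (‖Bf D z w‖ : ℂ) := by
    rw [Bf_smul_left, Complex.conj_ofReal, ← hbe]; ring
  rw [h3, h4, h5, one_mul, Complex.re_ofReal_mul, ← Complex.ofReal_mul, Complex.ofReal_re] at h2
  have h6 : l * ‖Bf D z w‖ ≤ l * ((l * (Bf D z z).re + (Bf D w w).re / l) / 2) := by
    have : l * ((l * (Bf D z z).re + (Bf D w w).re / l) / 2) =
        (l ^ 2 * (Bf D z z).re + (Bf D w w).re) / 2 := by
      field_simp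
    rw [this]
    linarith
  exact le_of_mul_le_mul_left h6 hl

/-- the main pointwise inequality -/
lemma Bf_main (D : H →L[ℂ] H) (hD : ∀ v : H, 0 ≤ (⟪v, D v⟫_ℂ).re) {f h G : ℂ} (hf : ‖f‖ ≤ 1)
    (hg : ‖h‖ ^ 2 ≤ G.re) (x y z : H) {l : ℝ} (hl : 0 < l) :
    ‖f * h * Bf D z x - h * Bf D z y‖ ≤
      ((((l / 2 : ℝ) : ℂ)) * (G * Bf D z z) +
        ((1 / (2 * l) : ℝ) : ℂ) * (Bf D x x + Bf D y y - 2 * (f * Bf D y x))).re := by
  have e1 : f * h * Bf D z x - h * Bf D z y = Bf D (conj h • z) (f • x - y) := by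
    rw [Bf_smul_left, Bf_sub_right, Bf_smul_right, Complex.conj_conj]; ring
  have hz : 0 ≤ (Bf D z z).re := by rw [Bf_self_re]; linarith [hD z]
  have hx : 0 ≤ (Bf D x x).re := by rw [Bf_self_re]; linarith [hD x]
  have e2 : (Bf D (conj h • z) (conj h • z)).re = ‖h‖ ^ 2 * (Bf D z z).re := by
    rw [Bf_smul_left, Bf_smul_right, Complex.conj_conj]
    have : h * (conj h * Bf D z z) = ((‖h‖ ^ 2 : ℝ) : ℂ) * Bf D z z := by
      rw [← mul_assoc, Complex.mul_conj, Complex.normSq_eq_norm_sq]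
    rw [this, Complex.re_ofReal_mul]
  have e3 := Bf_expand D f x y
  have hfs : Complex.normSq f ≤ 1 := by
    rw [Complex.normSq_eq_norm_sq]
    have := norm_nonneg f
    nlinarith
  have e4 : (Bf D (f • x - y) (f • x - y)).re ≤
      (Bf D x x).re + (Bf D y y).re - 2 * (f * Bf D y x).re := by
    rw [e3]; nlinarith
  rw [e1]
  refine (Bf_cs D hD _ _ hl).trans ?_
  rw [e2]
  have e5 : ((((l / 2 : ℝ) : ℂ)) * (G * Bf D z z) +
        ((1 / (2 * l) : ℝ) : ℂ) * (Bf D x x + Bf D y y - 2 * (f * Bf D y x))).re =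
      (l / 2) * (G.re * (Bf D z z).re) + (1 / (2 * l)) *
        ((Bf D x x).re + (Bf D y y).re - 2 * (f * Bf D y x).re) := by
    rw [Complex.add_re, Complex.re_ofReal_mul, Complex.re_ofReal_mul, Complex.mul_re (G),
      Bf_self_im, mul_zero, sub_zero]
    congr 2
    simp [Complex.sub_re, Complex.add_re, Complex.mul_re]
  rw [e5]
  have hl' : 0 < 1 / (2 * l) := by positivity
  have e6 : (Bf D (f • x - y) (f • x - y)).re / l = (1 / l) * (Bf D (f • x - y) (f • x - y)).re := by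
    ring
  have e7 : (1 / l) * (Bf D (f • x - y) (f • x - y)).re ≤
      (1 / l) * ((Bf D x x).re + (Bf D y y).re - 2 * (f * Bf D y x).re) :=
    mul_le_mul_of_nonneg_left e4 (by positivity)
  have e8 : ‖h‖ ^ 2 * (Bf D z z).re ≤ G.re * (Bf D z z).re := mul_le_mul_of_nonneg_right hg hz
  have e9 : l * (‖h‖ ^ 2 * (Bf D z z).re) ≤ l * (G.re * (Bf D z z).re) :=
    mul_le_mul_of_nonneg_left e8 hl.le
  have e10 : (1 / (2 * l)) * ((Bf D x x).re + (Bf D y y).re - 2 * (f * Bf D y x).re) =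
      ((1 / l) * ((Bf D x x).re + (Bf D y y).re - 2 * (f * Bf D y x).re)) / 2 := by
    field_simp
  rw [e10, e6]
  linarith

/-- the density -/
noncomputable def Dn (A : H →L[ℂ] H) (j : ZMod N) (s : ℝ) : H →L[ℂ] H :=
  P.n j • res A (P.tau j s)

lemma Dn_pos (hA : P.Margin A d) (hd : 0 ≤ d) (j : ZMod N) (s : ℝ) (x : H) :
    0 ≤ (⟪x, P.Dn A j s x⟫_ℂ).re := by
  by_cases hu : IsUnit ((P.tau j s) • (1 : H →L[ℂ] H) - A)
  · have h1 : ((P.tau j s) • (1 : H →L[ℂ] H) - A) * res A (P.tau j s) = 1 :=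
      Ring.mul_inverse_cancel _ hu
    have hx : x = (P.tau j s) • (res A (P.tau j s) x) - A (res A (P.tau j s) x) := by
      have := congrArg (fun T : H →L[ℂ] H => T x) h1
      simpa using this.symm
    have e0 : P.Dn A j s x = P.n j • (res A (P.tau j s) x) := by simp [Dn]
    rw [e0]
    set y := res A (P.tau j s) x with hy
    by_cases hy0 : y = 0
    · rw [hy0]; simp
    have hr : 0 < ‖y‖ := norm_pos_iff.2 hy0
    set w : H := ((‖y‖⁻¹ : ℝ) : ℂ) • y with hw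
    have hw1 : ‖w‖ = 1 := by
      rw [hw, norm_smul, Complex.norm_real, norm_inv, norm_norm]
      field_simp
    have hm := hA j w hw1
    have hyw : y = ((‖y‖ : ℝ) : ℂ) • w := by
      rw [hw, smul_smul, ← Complex.ofReal_mul, mul_inv_cancel₀ hr.ne']; simp
    have hAy : ⟪y, A y⟫_ℂ = ((‖y‖ ^ 2 : ℝ) : ℂ) * ⟪w, A w⟫_ℂ := by
      conv_lhs => rw [hyw]
      rw [map_smul, inner_smul_left, inner_smul_right, Complex.conj_ofReal]
      push_cast; ring
    have hyy : ⟪y, y⟫_ℂ = ((‖y‖ ^ 2 : ℝ) : ℂ) := by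
      rw [inner_self_eq_norm_sq_to_K]; push_cast; rfl
    have e1 : ⟪x, P.n j • y⟫_ℂ =
        conj (conj (P.n j) * (((‖y‖ ^ 2 : ℝ) : ℂ) * (P.tau j s - ⟪w, A w⟫_ℂ))) := by
      have : ⟪x, y⟫_ℂ = conj ((P.tau j s) * ⟪y, y⟫_ℂ - ⟪y, A y⟫_ℂ) := by
        conv_lhs => rw [hx]
        rw [inner_sub_left, inner_smul_left, map_sub, map_mul]
        simp only [inner_conj_symm]
      rw [inner_smul_right, this, hyy, hAy, map_mul, Complex.conj_conj]
      congr 1
      congr 1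
      ring
    rw [e1, Complex.conj_re]
    have e2 : conj (P.n j) * (((‖y‖ ^ 2 : ℝ) : ℂ) * (P.tau j s - ⟪w, A w⟫_ℂ)) =
        ((‖y‖ ^ 2 : ℝ) : ℂ) * (conj (P.n j) * (P.tau j s - ⟪w, A w⟫_ℂ)) := by ring
    rw [e2, Complex.re_ofReal_mul]
    have e3 := P.dl_sub j (⟪w, A w⟫_ℂ) (P.tau j s)
    rw [P.dl_tau_self, sub_zero] at e3
    rw [← e3]
    have : 0 ≤ P.dl j ⟪w, A w⟫_ℂ := hd.trans hm
    positivity
  · have : P.Dn A j s = 0 := by
      simp [Dn, res, Ring.inverse_non_unit _ hu]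
    simp [this]

lemma continuous_Dn (hres : ∀ j, Continuous fun s : ℝ => res A (P.tau j s)) (j : ZMod N) :
    Continuous (P.Dn A j) := by
  show Continuous (fun s : ℝ => P.n j • res A (P.tau j s))
  exact (hres j).const_smul (P.n j)


/-- normalised sum of integrals over the sides -/
noncomputable def Psi (g : ZMod N → ℝ → ℂ) : ℂ :=
  ((2 * Real.pi : ℝ) : ℂ)⁻¹ * ∑ j : ZMod N, ∫ s in (0 : ℝ)..(P.len j), g j s

/-- integrable on all the sides -/
def II (g : ZMod N → ℝ → ℂ) : Prop :=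
  ∀ j, IntervalIntegrable (g j) volume 0 (P.len j)

variable {P}

lemma II.add {g g' : ZMod N → ℝ → ℂ} (hg : P.II g) (hg' : P.II g') :
    P.II (fun j s => g j s + g' j s) := fun j => (hg j).add (hg' j)

lemma II.sub {g g' : ZMod N → ℝ → ℂ} (hg : P.II g) (hg' : P.II g') :
    P.II (fun j s => g j s - g' j s) := fun j => (hg j).sub (hg' j)

lemma II.const_mul {g : ZMod N → ℝ → ℂ} (hg : P.II g) (a : ℂ) :
    P.II (fun j s => a * g j s) := fun j => (hg j).const_mul a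

variable (P)

lemma Psi_add {g g' : ZMod N → ℝ → ℂ} (hg : P.II g) (hg' : P.II g') :
    P.Psi (fun j s => g j s + g' j s) = P.Psi g + P.Psi g' := by
  simp only [Psi]
  rw [← mul_add, ← Finset.sum_add_distrib]
  congr 1
  apply Finset.sum_congr rfl
  intro j _
  exact intervalIntegral.integral_add (hg j) (hg' j)

lemma Psi_sub {g g' : ZMod N → ℝ → ℂ} (hg : P.II g) (hg' : P.II g') :
    P.Psi (fun j s => g j s - g' j s) = P.Psi g - P.Psi g' := by
  simp only [Psi]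
  rw [← mul_sub, ← Finset.sum_sub_distrib]
  congr 1
  apply Finset.sum_congr rfl
  intro j _
  exact intervalIntegral.integral_sub (hg j) (hg' j)

lemma Psi_const_mul (g : ZMod N → ℝ → ℂ) (a : ℂ) :
    P.Psi (fun j s => a * g j s) = a * P.Psi g := by
  have h : ∀ j, (∫ s in (0 : ℝ)..(P.len j), a * g j s) = a * ∫ s in (0 : ℝ)..(P.len j), g j s :=
    fun j => intervalIntegral.integral_const_mul a (g j)
  simp only [Psi, h]
  rw [← Finset.mul_sum]
  ring

lemma two_pi_inv_eq : ((2 * Real.pi : ℝ) : ℂ)⁻¹ = (((2 * Real.pi)⁻¹ : ℝ) : ℂ) := by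
  push_cast; rfl

lemma norm_Psi_le {F C : ZMod N → ℝ → ℂ} (hC : P.II C)
    (h : ∀ j, ∀ s ∈ Set.Ioo (0 : ℝ) (P.len j), ‖F j s‖ ≤ (C j s).re) :
    ‖P.Psi F‖ ≤ (P.Psi C).re := by
  simp only [Psi]
  rw [two_pi_inv_eq, norm_mul, Complex.norm_real, Complex.re_ofReal_mul, Real.norm_eq_abs,
    abs_of_pos (by positivity)]
  apply mul_le_mul_of_nonneg_left _ (by positivity)
  rw [Complex.re_sum]
  refine (norm_sum_le _ _).trans (Finset.sum_le_sum fun j _ => ?_)
  have hre : (∫ s in (0 : ℝ)..(P.len j), C j s).re = ∫ s in (0 : ℝ)..(P.len j), (C j s).re :=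
    (Complex.reCLM.intervalIntegral_comp_comm (hC j)).symm
  rw [hre]
  apply intervalIntegral.norm_integral_le_of_norm_le (P.len_pos j).le
  · have hae : ∀ᵐ s ∂(volume : Measure ℝ), s ≠ P.len j := by
      simp [ae_iff]
    filter_upwards [hae] with s hs hs'
    exact h j s ⟨hs'.1, lt_of_le_of_ne hs'.2 hs⟩
  · exact ⟨Complex.reCLM.integrable_comp (hC j).1, Complex.reCLM.integrable_comp (hC j).2⟩

lemma conj_ii {g : ℝ → ℂ} {a b : ℝ} (hg : IntervalIntegrable g volume a b) :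
    IntervalIntegrable (fun s => conj (g s)) volume a b :=
  ⟨Complex.conjCLE.toContinuousLinearMap.integrable_comp hg.1,
    Complex.conjCLE.toContinuousLinearMap.integrable_comp hg.2⟩

/-- product of an integrable function by a function which is bounded on the open interval -/
lemma ii_bdd_mul {f g : ℝ → ℂ} {L C : ℝ} (hL : 0 ≤ L) (hf : IntervalIntegrable f volume 0 L)
    (hg : IntervalIntegrable g volume 0 L) (hb : ∀ s ∈ Set.Ioo (0 : ℝ) L, ‖f s‖ ≤ C) :
    IntervalIntegrable (fun s => f s * g s) volume 0 L := by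
  rw [intervalIntegrable_iff_integrableOn_Ioc_of_le hL] at hf hg ⊢
  refine Integrable.bdd_mul (c := C) hg hf.aestronglyMeasurable ?_
  have hae : ∀ᵐ s ∂(volume : Measure ℝ), s ≠ L := by
    simp [ae_iff]
  rw [ae_restrict_iff' measurableSet_Ioc]
  filter_upwards [hae] with s hs hs'
  exact hb s ⟨hs'.1, lt_of_le_of_ne hs'.2 hs⟩

section Kernel

variable (hres : ∀ j, Continuous fun s : ℝ => res A (P.tau j s))
include hres

lemma inner_S_eq {u : ℂ → ℂ}
    (hu : ∀ j, IntervalIntegrable (fun s : ℝ => u (P.tau j s)) volume 0 (P.len j)) (z x : H) :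
    ⟪z, P.S A u x⟫_ℂ = P.Psi (fun j s => u (P.tau j s) * ⟪z, P.Dn A j s x⟫_ℂ) := by
  let ev : (H →L[ℂ] H) →L[ℂ] ℂ := (innerSL ℂ z).comp (ContinuousLinearMap.apply ℂ H x)
  have hev : ∀ T : H →L[ℂ] H, ev T = ⟪z, T x⟫_ℂ := fun T => rfl
  have hint : ∀ j, IntervalIntegrable (fun s : ℝ => u (P.tau j s) • res A (P.tau j s))
      volume 0 (P.len j) := fun j => (hu j).smul_continuousOn (hres j).continuousOn
  rw [← hev]
  unfold S Psi
  rw [map_smul, map_sum, smul_eq_mul]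
  congr 1
  apply Finset.sum_congr rfl
  intro j _
  rw [map_smul, smul_eq_mul, ← ContinuousLinearMap.intervalIntegral_comp_comm ev (hint j),
    ← intervalIntegral.integral_const_mul]
  apply intervalIntegral.integral_congr
  intro s _
  simp only [Dn, hev, smul_apply, inner_smul_right]
  ring

lemma inner_S_conj_eq {u : ℂ → ℂ}
    (hu : ∀ j, IntervalIntegrable (fun s : ℝ => u (P.tau j s)) volume 0 (P.len j)) (z x : H) :
    ⟪P.S A (fun w => conj (u w)) z, x⟫_ℂ =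
      P.Psi (fun j s => u (P.tau j s) * ⟪P.Dn A j s z, x⟫_ℂ) := by
  rw [← inner_conj_symm, P.inner_S_eq hres (u := fun w => conj (u w))
    (fun j => conj_ii (g := fun s => u (P.tau j s)) (hu j)) x z]
  simp only [Psi]
  rw [map_mul, map_sum, map_inv₀, Complex.conj_ofReal]
  congr 1
  apply Finset.sum_congr rfl
  intro j _
  rw [← intervalIntegral.intervalIntegral_conj]
  apply intervalIntegral.integral_congr
  intro s _
  simp only [map_mul, Complex.conj_conj, inner_conj_symm]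

lemma II_kernel {u : ℂ → ℂ}
    (hu : ∀ j, IntervalIntegrable (fun s : ℝ => u (P.tau j s)) volume 0 (P.len j)) (z x : H) :
    P.II (fun j s => u (P.tau j s) * Bf (P.Dn A j s) z x) := by
  intro j
  apply (hu j).mul_continuousOn
  apply Continuous.continuousOn
  have hD := P.continuous_Dn hres j
  unfold Bf
  apply Continuous.add
  · exact continuous_const.inner (hD.clm_apply continuous_const)
  · exact (hD.clm_apply continuous_const).inner continuous_const

lemma phi_eq {u : ℂ → ℂ}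
    (hu : ∀ j, IntervalIntegrable (fun s : ℝ => u (P.tau j s)) volume 0 (P.len j)) (z x : H) :
    ⟪z, P.S A u x⟫_ℂ + ⟪P.S A (fun w => conj (u w)) z, x⟫_ℂ =
      P.Psi (fun j s => u (P.tau j s) * Bf (P.Dn A j s) z x) := by
  rw [P.inner_S_eq hres hu, P.inner_S_conj_eq hres hu, ← P.Psi_add]
  · congr 1
    funext j s
    simp only [Bf]; ring
  · intro j
    apply (hu j).mul_continuousOn
    apply Continuous.continuousOn
    exact continuous_const.inner ((P.continuous_Dn hres j).clm_apply continuous_const)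
  · intro j
    apply (hu j).mul_continuousOn
    apply Continuous.continuousOn
    exact ((P.continuous_Dn hres j).clm_apply continuous_const).inner continuous_const

lemma ii_one (j : ZMod N) :
    IntervalIntegrable (fun s : ℝ => (fun _ : ℂ => (1 : ℂ)) (P.tau j s)) volume 0 (P.len j) :=
  intervalIntegrable_const

/-- the total mass -/
lemma Psi_one (hS1 : P.S A (fun _ => 1) = 1) (z x : H) :
    P.Psi (fun j s => Bf (P.Dn A j s) z x) = 2 * ⟪z, x⟫_ℂ := by
  have h := P.phi_eq hres (u := fun _ => (1 : ℂ)) (P.ii_one hres) z x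
  simp only [map_one, one_mul, hS1, one_apply_eq_self] at h
  rw [← h]; ring

lemma Psi_one_self (hS1 : P.S A (fun _ => 1) = 1) {x : H} (hx : ‖x‖ = 1) :
    P.Psi (fun j s => Bf (P.Dn A j s) x x) = 2 := by
  rw [P.Psi_one hres hS1, inner_self_eq_norm_sq_to_K, hx]; norm_num

lemma II_one (z x : H) : P.II (fun j s => Bf (P.Dn A j s) z x) := by
  have := P.II_kernel hres (u := fun _ => (1 : ℂ)) (P.ii_one hres) z x
  simpa using this

end Kernel

section Main

variable (hres : ∀ j, Continuous fun s : ℝ => res A (P.tau j s)) (hA : P.Margin A d) (hd : 0 ≤ d)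
include hres hA hd

/-- Cauchy-Schwarz form, with a weight -/
theorem phi_cs_core {f h G : ℂ → ℂ}
    (hf : ∀ j, IntervalIntegrable (fun s : ℝ => f (P.tau j s)) volume 0 (P.len j))
    (hh : ∀ j, IntervalIntegrable (fun s : ℝ => h (P.tau j s)) volume 0 (P.len j))
    (hG : ∀ j, IntervalIntegrable (fun s : ℝ => G (P.tau j s)) volume 0 (P.len j))
    (hfb : ∀ z ∈ P.opn, ‖f z‖ ≤ 1) (hhG : ∀ z ∈ P.opn, ‖h z‖ ^ 2 ≤ (G z).re)
    (hS1 : P.S A (fun _ => 1) = 1) {x y : H} (z : H) (hx : ‖x‖ = 1) (hy : ‖y‖ = 1)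
    {l : ℝ} (hl : 0 < l) :
    ‖P.Psi (fun j s => (f (P.tau j s) * h (P.tau j s)) * Bf (P.Dn A j s) z x)
        - P.Psi (fun j s => h (P.tau j s) * Bf (P.Dn A j s) z y)‖ ≤
      (l / 2) * (P.Psi (fun j s => G (P.tau j s) * Bf (P.Dn A j s) z z)).re +
      (2 - (P.Psi (fun j s => f (P.tau j s) * Bf (P.Dn A j s) y x)).re) / l := by
  have hfh : ∀ j, IntervalIntegrable (fun s : ℝ => f (P.tau j s) * h (P.tau j s))
      volume 0 (P.len j) := by
    intro j
    refine ii_bdd_mul (C := 1) (P.len_pos j).le (hf j) (hh j) ?_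
    intro s hs
    exact hfb _ ⟨j, s, hs, rfl⟩
  have I5 := P.II_kernel hres (u := fun w => f w * h w) hfh z x
  have I6 := P.II_kernel hres hh z y
  have I2 := P.II_kernel hres hG z z
  have I3 := P.II_one hres x x
  have I4 := P.II_one hres y y
  have I1 := P.II_kernel hres hf y x
  rw [← P.Psi_sub I5 I6]
  have hC : P.II (fun j s => ((l / 2 : ℝ) : ℂ) * (G (P.tau j s) * Bf (P.Dn A j s) z z) +
      ((1 / (2 * l) : ℝ) : ℂ) * (Bf (P.Dn A j s) x x + Bf (P.Dn A j s) y y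
        - 2 * (f (P.tau j s) * Bf (P.Dn A j s) y x))) :=
    (I2.const_mul _).add (((I3.add I4).sub (I1.const_mul _)).const_mul _)
  have hmain := P.norm_Psi_le (F := fun j s => (f (P.tau j s) * h (P.tau j s)) * Bf (P.Dn A j s) z x
      - h (P.tau j s) * Bf (P.Dn A j s) z y) hC (by
    intro j s hs
    have hm : P.tau j s ∈ P.opn := ⟨j, s, hs, rfl⟩
    exact Bf_main (P.Dn A j s) (P.Dn_pos hA hd j s) (hfb _ hm) (hhG _ hm) x y z hl)
  refine hmain.trans (le_of_eq ?_)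
  rw [P.Psi_add (I2.const_mul _) (((I3.add I4).sub (I1.const_mul _)).const_mul _),
    P.Psi_const_mul, P.Psi_const_mul, P.Psi_sub (I3.add I4) (I1.const_mul _), P.Psi_add I3 I4,
    P.Psi_const_mul, P.Psi_one_self hres hS1 hx, P.Psi_one_self hres hS1 hy,
    Complex.add_re, Complex.re_ofReal_mul, Complex.re_ofReal_mul]
  have e : ((2 : ℂ) + 2 - 2 * P.Psi fun j s => f (P.tau j s) * Bf (P.Dn A j s) y x).re =
      4 - 2 * (P.Psi fun j s => f (P.tau j s) * Bf (P.Dn A j s) y x).re := by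
    simp [Complex.sub_re, Complex.add_re, Complex.mul_re]
    ring
  rw [e]
  field_simp
  ring

end Main


section Wrap

variable (hres : ∀ j, Continuous fun s : ℝ => res A (P.tau j s)) (hA : P.Margin A d) (hd : 0 ≤ d)
include hres hA hd

/-- the bound for `Φ u`, with the continuity of the resolvent along the sides as a hypothesis -/
theorem phi_bound_aux {u : ℂ → ℂ}
    (hu : ∀ j, IntervalIntegrable (fun s : ℝ => u (P.tau j s)) volume 0 (P.len j))
    (hC : ∀ z ∈ P.opn, ‖u z‖ ≤ 1) (hS1 : P.S A (fun _ => 1) = 1) {x z : H} (hx : ‖x‖ = 1)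
    (hz : ‖z‖ = 1) :
    ‖⟪z, P.S A u x⟫_ℂ + ⟪P.S A (fun w => conj (u w)) z, x⟫_ℂ‖ ≤ 2 := by
  rw [P.phi_eq hres hu]
  have I3 := P.II_one hres z z
  have I4 := P.II_one hres x x
  have hmain := P.norm_Psi_le (F := fun j s => u (P.tau j s) * Bf (P.Dn A j s) z x)
      (C := fun j s => ((1 / 2 : ℝ) : ℂ) * (Bf (P.Dn A j s) z z + Bf (P.Dn A j s) x x))
      ((I3.add I4).const_mul _) (by
    intro j s hs
    have hm : P.tau j s ∈ P.opn := ⟨j, s, hs, rfl⟩
    have h1 := Bf_cs (P.Dn A j s) (P.Dn_pos hA hd j s) z x one_pos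
    rw [norm_mul, Complex.re_ofReal_mul, Complex.add_re]
    have h2 := hC _ hm
    have h3 := norm_nonneg (Bf (P.Dn A j s) z x)
    have h4 : ‖u (P.tau j s)‖ * ‖Bf (P.Dn A j s) z x‖ ≤ 1 * ‖Bf (P.Dn A j s) z x‖ :=
      mul_le_mul_of_nonneg_right h2 h3
    linarith)
  refine hmain.trans (le_of_eq ?_)
  rw [P.Psi_const_mul, P.Psi_add I3 I4, P.Psi_one_self hres hS1 hz, P.Psi_one_self hres hS1 hx]
  norm_num

/-- `|h|² ≤ Re G`: Cauchy-Schwarz form with a weight -/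
theorem phi_cs_G_aux {f h G : ℂ → ℂ}
    (hf : ∀ j, IntervalIntegrable (fun s : ℝ => f (P.tau j s)) volume 0 (P.len j))
    (hh : ∀ j, IntervalIntegrable (fun s : ℝ => h (P.tau j s)) volume 0 (P.len j))
    (hG : ∀ j, IntervalIntegrable (fun s : ℝ => G (P.tau j s)) volume 0 (P.len j))
    (hfb : ∀ z ∈ P.opn, ‖f z‖ ≤ 1) (hhG : ∀ z ∈ P.opn, ‖h z‖ ^ 2 ≤ (G z).re)
    (hS1 : P.S A (fun _ => 1) = 1) {x y z : H} (hx : ‖x‖ = 1) (hy : ‖y‖ = 1)
    {l : ℝ} (hl : 0 < l) :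
    ‖⟪z, P.S A (fun w => f w * h w) x⟫_ℂ + ⟪P.S A (fun w => conj (f w * h w)) z, x⟫_ℂ
        - ⟪z, P.S A h y⟫_ℂ - ⟪P.S A (fun w => conj (h w)) z, y⟫_ℂ‖
      ≤ (l / 2) * (⟪z, P.S A G z⟫_ℂ + ⟪P.S A (fun w => conj (G w)) z, z⟫_ℂ).re
        + (2 - (⟪y, P.S A f x⟫_ℂ + ⟪P.S A (fun w => conj (f w)) y, x⟫_ℂ).re) / l := by
  have hfh : ∀ j, IntervalIntegrable (fun s : ℝ => f (P.tau j s) * h (P.tau j s))
      volume 0 (P.len j) := by
    intro j
    refine ii_bdd_mul (C := 1) (P.len_pos j).le (hf j) (hh j) ?_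
    intro s hs
    exact hfb _ ⟨j, s, hs, rfl⟩
  have e : ∀ a b c e' : ℂ, a + b - c - e' = (a + b) - (c + e') := fun a b c e' => by ring
  rw [e]
  have e1 : ⟪z, P.S A (fun w => f w * h w) x⟫_ℂ + ⟪P.S A (fun w => conj (f w * h w)) z, x⟫_ℂ =
      P.Psi (fun j s => (f (P.tau j s) * h (P.tau j s)) * Bf (P.Dn A j s) z x) :=
    P.phi_eq hres (u := fun w => f w * h w) hfh z x
  rw [e1, P.phi_eq hres hh, P.phi_eq hres hG, P.phi_eq hres hf]
  exact P.phi_cs_core hres hA hd hf hh hG hfb hhG hS1 z hx hy hl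

lemma exists_mem_opn : ∃ z, z ∈ P.opn := by
  refine ⟨P.tau 0 (P.len 0 / 2), 0, P.len 0 / 2, ?_, rfl⟩
  have := P.len_pos 0
  constructor <;> linarith

/-- the Cauchy-Schwarz form for a bounded `h` -/
theorem phi_cs_aux {f h : ℂ → ℂ}
    (hf : ∀ j, IntervalIntegrable (fun s : ℝ => f (P.tau j s)) volume 0 (P.len j))
    (hh : ∀ j, IntervalIntegrable (fun s : ℝ => h (P.tau j s)) volume 0 (P.len j))
    (hfb : ∀ z ∈ P.opn, ‖f z‖ ≤ 1) {C : ℝ} (hhb : ∀ z ∈ P.opn, ‖h z‖ ≤ C)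
    (hS1 : P.S A (fun _ => 1) = 1) {x y z : H} (hx : ‖x‖ = 1) (hy : ‖y‖ = 1) (hz : ‖z‖ = 1)
    {l : ℝ} (hl : 0 < l) :
    ‖⟪z, P.S A (fun w => f w * h w) x⟫_ℂ + ⟪P.S A (fun w => conj (f w * h w)) z, x⟫_ℂ
        - ⟪z, P.S A h y⟫_ℂ - ⟪P.S A (fun w => conj (h w)) z, y⟫_ℂ‖
      ≤ C * (l + (2 - (⟪y, P.S A f x⟫_ℂ + ⟪P.S A (fun w => conj (f w)) y, x⟫_ℂ).re) / l) := by
  have hfh : ∀ j, IntervalIntegrable (fun s : ℝ => f (P.tau j s) * h (P.tau j s))
      volume 0 (P.len j) := by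
    intro j
    refine ii_bdd_mul (C := 1) (P.len_pos j).le (hf j) (hh j) ?_
    intro s hs
    exact hfb _ ⟨j, s, hs, rfl⟩
  have e : ∀ a b c e' : ℂ, a + b - c - e' = (a + b) - (c + e') := fun a b c e' => by ring
  rw [e]
  have e1 : ⟪z, P.S A (fun w => f w * h w) x⟫_ℂ + ⟪P.S A (fun w => conj (f w * h w)) z, x⟫_ℂ =
      P.Psi (fun j s => (f (P.tau j s) * h (P.tau j s)) * Bf (P.Dn A j s) z x) :=
    P.phi_eq hres (u := fun w => f w * h w) hfh z x
  rw [e1, P.phi_eq hres hh, P.phi_eq hres hf]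
  obtain ⟨z0, hz0⟩ := P.exists_mem_opn hres hA hd
  have hC0 : 0 ≤ C := (norm_nonneg _).trans (hhb z0 hz0)
  rcases hC0.eq_or_lt with hC | hCpos
  · subst hC
    rw [zero_mul]
    have I5 := P.II_kernel hres (u := fun w => f w * h w) hfh z x
    have I6 := P.II_kernel hres hh z y
    rw [← P.Psi_sub I5 I6]
    have hmain := P.norm_Psi_le (F := fun j s => (f (P.tau j s) * h (P.tau j s)) *
        Bf (P.Dn A j s) z x - h (P.tau j s) * Bf (P.Dn A j s) z y)
        (C := fun _ _ => 0) (fun j => intervalIntegrable_const) (by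
      intro j s hs
      have hm : P.tau j s ∈ P.opn := ⟨j, s, hs, rfl⟩
      have h0 : h (P.tau j s) = 0 := by
        have := hhb _ hm
        exact norm_le_zero_iff.1 this
      simp [h0])
    simpa [Psi] using hmain
  · have hG : ∀ j, IntervalIntegrable
        (fun s : ℝ => (fun _ : ℂ => ((C ^ 2 : ℝ) : ℂ)) (P.tau j s)) volume 0 (P.len j) :=
      fun j => intervalIntegrable_const
    have hl' : 0 < l / C := div_pos hl hCpos
    have hmain := P.phi_cs_core hres hA hd (G := fun _ => ((C ^ 2 : ℝ) : ℂ)) hf hh hG hfb (by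
      intro w hw
      rw [Complex.ofReal_re]
      have := hhb w hw
      have h0 := norm_nonneg (h w)
      nlinarith) hS1 z hx hy hl'
    have e2 : P.Psi (fun j s => ((C ^ 2 : ℝ) : ℂ) * Bf (P.Dn A j s) z z) =
        ((C ^ 2 * 2 : ℝ) : ℂ) := by
      rw [P.Psi_const_mul, P.Psi_one_self hres hS1 hz]
      push_cast; ring
    rw [e2, Complex.ofReal_re] at hmain
    refine hmain.trans (le_of_eq ?_)
    field_simp

end Wrap

/-- Op3: the positive kernel. `⟪z, S u x⟫ + ⟪S (conj u) z, x⟫` is an integral against a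
positive operator valued density, hence bounds. -/
theorem phi_bound (hA : P.Margin A d) (hd : 0 < d) {u : ℂ → ℂ}
    (hu : ∀ j, IntervalIntegrable (fun s : ℝ => u (P.tau j s)) volume 0 (P.len j))
    (hC : ∀ z ∈ P.opn, ‖u z‖ ≤ 1) (hS1 : P.S A (fun _ => 1) = 1) {x z : H} (hx : ‖x‖ = 1)
    (hz : ‖z‖ = 1) :
    ‖⟪z, P.S A u x⟫_ℂ + ⟪P.S A (fun w => conj (u w)) z, x⟫_ℂ‖ ≤ 2 :=
  P.phi_bound_aux (fun j => P.continuous_res hA hd j) hA hd.le hu hC hS1 hx hz

/-- Op3: Cauchy-Schwarz form, for `h` bounded by `C`. -/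
theorem phi_cs (hA : P.Margin A d) (hd : 0 < d) {f h : ℂ → ℂ}
    (hf : ∀ j, IntervalIntegrable (fun s : ℝ => f (P.tau j s)) volume 0 (P.len j))
    (hh : ∀ j, IntervalIntegrable (fun s : ℝ => h (P.tau j s)) volume 0 (P.len j))
    (hfb : ∀ z ∈ P.opn, ‖f z‖ ≤ 1) {C : ℝ} (hhb : ∀ z ∈ P.opn, ‖h z‖ ≤ C)
    (hS1 : P.S A (fun _ => 1) = 1) {x y z : H} (hx : ‖x‖ = 1) (hy : ‖y‖ = 1) (hz : ‖z‖ = 1)
    {l : ℝ} (hl : 0 < l) :
    ‖⟪z, P.S A (fun w => f w * h w) x⟫_ℂ + ⟪P.S A (fun w => conj (f w * h w)) z, x⟫_ℂ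
        - ⟪z, P.S A h y⟫_ℂ - ⟪P.S A (fun w => conj (h w)) z, y⟫_ℂ‖
      ≤ C * (l + (2 - (⟪y, P.S A f x⟫_ℂ + ⟪P.S A (fun w => conj (f w)) y, x⟫_ℂ).re) / l) :=
  P.phi_cs_aux (fun j => P.continuous_res hA hd j) hA hd.le hf hh hfb hhb hS1 hx hy hz hl

/-- Op3: Cauchy-Schwarz form with a weight `G`, `|h|² ≤ Re G` on the open sides. -/
theorem phi_cs_G (hA : P.Margin A d) (hd : 0 < d) {f h G : ℂ → ℂ}
    (hf : ∀ j, IntervalIntegrable (fun s : ℝ => f (P.tau j s)) volume 0 (P.len j))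
    (hh : ∀ j, IntervalIntegrable (fun s : ℝ => h (P.tau j s)) volume 0 (P.len j))
    (hG : ∀ j, IntervalIntegrable (fun s : ℝ => G (P.tau j s)) volume 0 (P.len j))
    (hfb : ∀ z ∈ P.opn, ‖f z‖ ≤ 1) (hhG : ∀ z ∈ P.opn, ‖h z‖ ^ 2 ≤ (G z).re)
    (hS1 : P.S A (fun _ => 1) = 1) {x y z : H} (hx : ‖x‖ = 1) (hy : ‖y‖ = 1)
    {l : ℝ} (hl : 0 < l) :
    ‖⟪z, P.S A (fun w => f w * h w) x⟫_ℂ + ⟪P.S A (fun w => conj (f w * h w)) z, x⟫_ℂ
        - ⟪z, P.S A h y⟫_ℂ - ⟪P.S A (fun w => conj (h w)) z, y⟫_ℂ‖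
      ≤ (l / 2) * (⟪z, P.S A G z⟫_ℂ + ⟪P.S A (fun w => conj (G w)) z, z⟫_ℂ).re
        + (2 - (⟪y, P.S A f x⟫_ℂ + ⟪P.S A (fun w => conj (f w)) y, x⟫_ℂ).re) / l :=
  P.phi_cs_G_aux (fun j => P.continuous_res hA hd j) hA hd.le hf hh hG hfb hhG hS1 hx hy hl

end Pgon
end Vale.Agent.Lib.P123
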