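import Vale.Agent.Lib.P123.Op1
import Vale.Agent.Lib.P123.Alpha

/-!
The class of uniform limits of polynomials on the open sides and the functional calculus on it.
-/

open Complex Polynomial MeasureTheory
open scoped ComplexConjugate InnerProductSpace

set_option linter.unusedSectionVars false

namespace Vale.Agent.Lib.P123

variable {N : ℕ} [NeZero N]

namespace Pgon

variable (P : Pgon N)

lemma poly_bound (p : ℂ[X]) : ∃ B : ℝ, 0 ≤ B ∧ ∀ z ∈ P.opn, ‖p.eval z‖ ≤ B := by
  obtain ⟨R, _, hR⟩ := P.Q_bounded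
  obtain ⟨B, hB⟩ := (isCompact_closedBall (0 : ℂ) R).exists_bound_of_continuousOn
    (p.continuous.continuousOn)
  refine ⟨max B 0, le_max_right _ _, fun z hz => ?_⟩
  have := hB z (by simpa using hR z (P.opn_subset_Q hz))
  exact this.trans (le_max_left _ _)

theorem inP_poly (p : ℂ[X]) : P.InP (fun z => p.eval z) := fun _ hε =>
  ⟨p, fun z _ => by simpa using hε.le⟩

theorem inP_const (c : ℂ) : P.InP (fun _ => c) := by
  have := P.inP_poly (Polynomial.C c)
  simpa using this

theorem inP_one : P.InP (fun _ => 1) := P.inP_const 1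

theorem inP_add {u v : ℂ → ℂ} (hu : P.InP u) (hv : P.InP v) : P.InP (fun z => u z + v z) := by
  intro ε hε
  obtain ⟨p, hp⟩ := hu (ε / 2) (by positivity)
  obtain ⟨q, hq⟩ := hv (ε / 2) (by positivity)
  refine ⟨p + q, fun z hz => ?_⟩
  have e : u z + v z - (p + q).eval z = (u z - p.eval z) + (v z - q.eval z) := by
    simp only [eval_add]; ring
  rw [e]
  refine (norm_add_le _ _).trans ?_
  linarith [hp z hz, hq z hz]

theorem inP_const_mul (c : ℂ) {u : ℂ → ℂ} (hu : P.InP u) : P.InP (fun z => c * u z) := by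
  intro ε hε
  obtain ⟨p, hp⟩ := hu (ε / (‖c‖ + 1)) (by positivity)
  refine ⟨Polynomial.C c * p, fun z hz => ?_⟩
  have e : c * u z - (Polynomial.C c * p).eval z = c * (u z - p.eval z) := by
    simp only [eval_mul, eval_C]; ring
  rw [e, norm_mul]
  have h1 := hp z hz
  have h2 : ‖c‖ * ‖u z - p.eval z‖ ≤ (‖c‖ + 1) * (ε / (‖c‖ + 1)) := by
    gcongr
    linarith
  have h3 : (‖c‖ + 1) * (ε / (‖c‖ + 1)) = ε := by field_simp
  linarith

theorem inP_neg {u : ℂ → ℂ} (hu : P.InP u) : P.InP (fun z => - u z) := by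
  have := P.inP_const_mul (-1) hu
  simpa using this

theorem inP_sub {u v : ℂ → ℂ} (hu : P.InP u) (hv : P.InP v) : P.InP (fun z => u z - v z) := by
  have := P.inP_add hu (P.inP_neg hv)
  simpa [sub_eq_add_neg] using this

theorem inP_bounded {u : ℂ → ℂ} (hu : P.InP u) : ∃ B : ℝ, 0 ≤ B ∧ ∀ z ∈ P.opn, ‖u z‖ ≤ B := by
  obtain ⟨p, hp⟩ := hu 1 one_pos
  obtain ⟨B, hB0, hB⟩ := P.poly_bound p
  refine ⟨B + 1, by positivity, fun z hz => ?_⟩
  have h1 := hp z hz
  have h2 := hB z hz
  have : ‖u z‖ ≤ ‖u z - p.eval z‖ + ‖p.eval z‖ := by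
    have := norm_add_le (u z - p.eval z) (p.eval z)
    simpa using this
  linarith

theorem inP_mul {u v : ℂ → ℂ} (hu : P.InP u) (hv : P.InP v) : P.InP (fun z => u z * v z) := by
  intro ε hε
  obtain ⟨Bu, hBu0, hBu⟩ := P.inP_bounded hu
  obtain ⟨Bv, hBv0, hBv⟩ := P.inP_bounded hv
  set M : ℝ := Bu + Bv + 1 with hM
  have hMpos : 0 < M := by positivity
  set e : ℝ := min 1 (ε / M) with he
  have he0 : 0 < e := lt_min one_pos (by positivity)
  have he1 : e ≤ 1 := min_le_left _ _
  have he2 : e * M ≤ ε := by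
    have : e ≤ ε / M := min_le_right _ _
    rwa [le_div_iff₀ hMpos] at this
  obtain ⟨p, hp⟩ := hu e he0
  obtain ⟨q, hq⟩ := hv e he0
  refine ⟨p * q, fun z hz => ?_⟩
  have a1 := hp z hz
  have a2 := hq z hz
  have a3 := hBu z hz
  have a4 := hBv z hz
  have hq' : ‖q.eval z‖ ≤ Bv + 1 := by
    have : ‖q.eval z‖ ≤ ‖v z‖ + ‖v z - q.eval z‖ := by
      have := norm_sub_le (v z) (v z - q.eval z)
      simpa using this
    linarith
  have ee : u z * v z - (p * q).eval z =
      u z * (v z - q.eval z) + (u z - p.eval z) * q.eval z := by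
    simp only [eval_mul]; ring
  rw [ee]
  calc ‖u z * (v z - q.eval z) + (u z - p.eval z) * q.eval z‖
      ≤ ‖u z‖ * ‖v z - q.eval z‖ + ‖u z - p.eval z‖ * ‖q.eval z‖ := by
        refine (norm_add_le _ _).trans ?_
        rw [norm_mul, norm_mul]
    _ ≤ Bu * e + e * (Bv + 1) := by gcongr
    _ = e * M := by rw [hM]; ring
    _ ≤ ε := he2

/-- an element of the class is integrable on every side -/
theorem inP_integrable {u : ℂ → ℂ} (hu : P.InP u) (j : ZMod N) :
    IntervalIntegrable (fun s : ℝ => u (P.tau j s)) volume 0 (P.len j) := by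
  have hl := (P.len_pos j).le
  rw [intervalIntegrable_iff_integrableOn_Ioo_of_le hl]
  obtain ⟨B, _, hB⟩ := P.inP_bounded hu
  choose p hp using fun n : ℕ => hu (1 / ((n : ℝ) + 1)) (by positivity)
  have hmeas : AEStronglyMeasurable (fun s : ℝ => u (P.tau j s))
      (volume.restrict (Set.Ioo 0 (P.len j))) := by
    apply aestronglyMeasurable_of_tendsto_ae (Filter.atTop) (f := fun n s => (p n).eval (P.tau j s))
    · intro n
      exact (((p n).continuous.comp (P.continuous_tau j)).aestronglyMeasurable)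
    · filter_upwards [ae_restrict_mem measurableSet_Ioo] with s hs
      rw [tendsto_iff_norm_sub_tendsto_zero]
      apply squeeze_zero (fun n => norm_nonneg _) (g := fun n : ℕ => 1 / ((n : ℝ) + 1))
      · intro n
        have := hp n (P.tau j s) ⟨j, s, hs, rfl⟩
        rwa [norm_sub_rev]
      · exact tendsto_one_div_add_atTop_nhds_zero_nat
  refine Integrable.of_bound hmeas B ?_
  filter_upwards [ae_restrict_mem measurableSet_Ioo] with s hs
  exact hB _ ⟨j, s, hs, rfl⟩

section Operator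

variable {H : Type*} [NormedAddCommGroup H] [InnerProductSpace ℂ H] [CompleteSpace H]
  {A : H →L[ℂ] H} {d : ℝ}

/-- the constant in the norm bound of `S` -/
noncomputable def cS (d : ℝ) : ℝ := (∑ j : ZMod N, P.len j) / (2 * Real.pi * d)

lemma cS_nonneg (hd : 0 < d) : 0 ≤ P.cS d := by
  unfold cS
  have : 0 ≤ ∑ j : ZMod N, P.len j := Finset.sum_nonneg fun j _ => (P.len_pos j).le
  have := Real.pi_pos
  positivity

/-- `S` only depends on the values on the open sides -/
theorem S_congr_opn (A : H →L[ℂ] H) {u v : ℂ → ℂ} (h : ∀ z ∈ P.opn, u z = v z) :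
    P.S A u = P.S A v := by
  unfold S
  congr 1
  apply Finset.sum_congr rfl
  intro j _
  congr 1
  apply intervalIntegral.integral_congr_ae
  have hae : ∀ᵐ s : ℝ, s ≠ P.len j := by
    simp [ae_iff, measure_singleton]
  filter_upwards [hae] with s hs hs2
  rw [Set.uIoc_of_le (P.len_pos j).le] at hs2
  rw [h _ ⟨j, s, ⟨hs2.1, lt_of_le_of_ne hs2.2 hs⟩, rfl⟩]

/-- continuity of `S` in the sup norm on the open sides -/
theorem S_sub_norm_le (hA : P.Margin A d) (hd : 0 < d) {u v : ℂ → ℂ}
    (hu : ∀ j, IntervalIntegrable (fun s : ℝ => u (P.tau j s)) volume 0 (P.len j))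
    (hv : ∀ j, IntervalIntegrable (fun s : ℝ => v (P.tau j s)) volume 0 (P.len j))
    {C : ℝ} (hC : ∀ z ∈ P.opn, ‖u z - v z‖ ≤ C) :
    ‖P.S A u - P.S A v‖ ≤ P.cS d * C := by
  rw [← P.S_sub hA hd hu hv]
  exact P.S_norm_le' hA hd hC

/-- **multiplicativity on the class** -/
theorem S_mul (hA : P.Margin A d) (hd : 0 < d) {u v : ℂ → ℂ} (hu : P.InP u) (hv : P.InP v) :
    P.S A (fun z => u z * v z) = P.S A u * P.S A v := by
  obtain ⟨Bu, hBu0, hBu⟩ := P.inP_bounded hu
  obtain ⟨Bv, hBv0, hBv⟩ := P.inP_bounded hv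
  set c := P.cS d with hc
  have hc0 : 0 ≤ c := P.cS_nonneg hd
  have iu := P.inP_integrable hu
  have iv := P.inP_integrable hv
  have iuv := P.inP_integrable (P.inP_mul hu hv)
  set M : ℝ := c * (Bu + Bv + 1) + c * (c * (Bv + 1)) + c * Bu * c with hM
  have hM0 : 0 ≤ M := by positivity
  have key : ∀ e : ℝ, 0 < e → e ≤ 1 →
      ‖P.S A (fun z => u z * v z) - P.S A u * P.S A v‖ ≤ e * M := by
    intro e he0 he1
    obtain ⟨p, hp⟩ := hu e he0
    obtain ⟨q, hq⟩ := hv e he0
    have ip := fun j => P.integrable_eval_tau p j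
    have iq := fun j => P.integrable_eval_tau q j
    have ipq := fun j => P.integrable_eval_tau (p * q) j
    have hq' : ∀ z ∈ P.opn, ‖q.eval z‖ ≤ Bv + 1 := by
      intro z hz
      have a2 := hq z hz
      have a4 := hBv z hz
      have : ‖q.eval z‖ ≤ ‖v z‖ + ‖v z - q.eval z‖ := by
        have := norm_sub_le (v z) (v z - q.eval z)
        simpa using this
      linarith
    have b1 : ‖P.S A (fun z => u z * v z) - P.S A (fun z => (p * q).eval z)‖ ≤
        c * (e * (Bu + Bv + 1)) := by
      apply P.S_sub_norm_le hA hd iuv ipq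
      intro z hz
      have a1 := hp z hz
      have a2 := hq z hz
      have a3 := hBu z hz
      have a5 := hq' z hz
      have ee : u z * v z - (p * q).eval z =
          u z * (v z - q.eval z) + (u z - p.eval z) * q.eval z := by
        simp only [eval_mul]; ring
      rw [ee]
      calc ‖u z * (v z - q.eval z) + (u z - p.eval z) * q.eval z‖
          ≤ ‖u z‖ * ‖v z - q.eval z‖ + ‖u z - p.eval z‖ * ‖q.eval z‖ := by
            refine (norm_add_le _ _).trans ?_
            rw [norm_mul, norm_mul]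
        _ ≤ Bu * e + e * (Bv + 1) := by gcongr
        _ = e * (Bu + Bv + 1) := by ring
    have b2 : ‖P.S A u - P.S A (fun z => p.eval z)‖ ≤ c * e :=
      P.S_sub_norm_le hA hd iu ip hp
    have b3 : ‖P.S A v - P.S A (fun z => q.eval z)‖ ≤ c * e :=
      P.S_sub_norm_le hA hd iv iq hq
    have b4 : ‖P.S A u‖ ≤ c * Bu := P.S_norm_le' hA hd hBu
    have b5 : ‖P.S A (fun z => q.eval z)‖ ≤ c * (Bv + 1) := P.S_norm_le' hA hd hq'
    have e1 : P.S A (fun z => (p * q).eval z) =
        P.S A (fun z => p.eval z) * P.S A (fun z => q.eval z) := by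
      rw [P.S_poly hA hd, P.S_poly hA hd, P.S_poly hA hd, map_mul]
    have e2 : P.S A (fun z => u z * v z) - P.S A u * P.S A v =
        (P.S A (fun z => u z * v z) - P.S A (fun z => (p * q).eval z)) -
          (P.S A u - P.S A (fun z => p.eval z)) * P.S A (fun z => q.eval z) -
            P.S A u * (P.S A v - P.S A (fun z => q.eval z)) := by
      rw [e1]; noncomm_ring
    rw [e2]
    have t1 : ‖(P.S A u - P.S A (fun z => p.eval z)) * P.S A (fun z => q.eval z)‖ ≤
        (c * e) * (c * (Bv + 1)) :=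
      (norm_mul_le _ _).trans (mul_le_mul b2 b5 (norm_nonneg _) (by positivity))
    have t2 : ‖P.S A u * (P.S A v - P.S A (fun z => q.eval z))‖ ≤ (c * Bu) * (c * e) :=
      (norm_mul_le _ _).trans (mul_le_mul b4 b3 (norm_nonneg _) (by positivity))
    calc _ ≤ ‖P.S A (fun z => u z * v z) - P.S A (fun z => (p * q).eval z)‖ +
          ‖(P.S A u - P.S A (fun z => p.eval z)) * P.S A (fun z => q.eval z)‖ +
            ‖P.S A u * (P.S A v - P.S A (fun z => q.eval z))‖ :=
          (norm_sub_le _ _).trans (add_le_add_left (norm_sub_le _ _) _)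
      _ ≤ c * (e * (Bu + Bv + 1)) + (c * e) * (c * (Bv + 1)) + (c * Bu) * (c * e) := by
          gcongr
      _ = e * M := by rw [hM]; ring
  by_contra hne
  have hpos : 0 < ‖P.S A (fun z => u z * v z) - P.S A u * P.S A v‖ :=
    norm_pos_iff.2 (sub_ne_zero.2 hne)
  set x := ‖P.S A (fun z => u z * v z) - P.S A u * P.S A v‖ with hx
  set e : ℝ := min 1 (x / (2 * (M + 1))) with he
  have he0 : 0 < e := lt_min one_pos (by positivity)
  have h1 := key e he0 (min_le_left _ _)
  have h2 : e ≤ x / (2 * (M + 1)) := min_le_right _ _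
  have h3 : e * (2 * (M + 1)) ≤ x := by rwa [le_div_iff₀ (by positivity)] at h2
  nlinarith

end Operator

end Pgon
end Vale.Agent.Lib.P123
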