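import Vale.Agent.Lib.P123.CoreChain
import Vale.Agent.Lib.P123.Op2
import Vale.Agent.Lib.P123.Op3
import Vale.Agent.Lib.P123.OpAlg
import Vale.Agent.Lib.P123.AlphaOps
import Vale.Agent.Lib.P123.Final

/-!
Instantiation of the abstract chain data by the boundary calculus of a polygon.
-/

open Complex Polynomial MeasureTheory
open scoped ComplexConjugate InnerProductSpace

set_option linter.unusedSectionVars false

namespace Vale.Agent.Lib.P123

variable {N : ℕ} [NeZero N]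

namespace Pgon

variable {P : Pgon N} {H : Type*} [NormedAddCommGroup H] [InnerProductSpace ℂ H] [CompleteSpace H]
  {A : H →L[ℂ] H} {d : ℝ}

lemma opn_ne (P : Pgon N) : ∃ z, z ∈ P.opn := by
  refine ⟨P.tau 0 (P.len 0 / 2), 0, P.len 0 / 2, ?_, rfl⟩
  have := P.len_pos 0
  constructor <;> linarith

/-- `S (alpha u) = S (conj u)` on the class -/
theorem S_alpha_class {P₁ : Pgon N} {m : ℝ} (hm : 0 < m) (hrel : ∀ j z, P₁.dl j z = P.dl j z - m)
    (hA : P.Margin A d) (hA₁ : P₁.Margin A d) (hd : 0 < d) {u : ℂ → ℂ} (hu : P.InP u) :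
    P.S A (P.alpha u) = P.S A (fun z => conj (u z)) := by
  refine P.S_alpha_inP hA hd (fun p => ?_) hu
  obtain ⟨G, hG1, hG2, hG3⟩ := P.alpha_poly p
  rw [← P.S_alpha P₁ hm hrel hA hA₁ hd p hG2 hG3]
  exact P.S_congr_opn A (fun z hz => (hG1 z hz).symm)

/-- the best constant for polynomials with respect to the sup over the open sides -/
noncomputable def KK (P : Pgon N) (A : H →L[ℂ] H) : ℝ :=
  sSup {r | ∃ p : ℂ[X], (∀ z ∈ P.opn, ‖p.eval z‖ ≤ 1) ∧ r = ‖Polynomial.aeval A p‖}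

lemma KK_bdd (hA : P.Margin A d) (hd : 0 < d) :
    BddAbove {r | ∃ p : ℂ[X], (∀ z ∈ P.opn, ‖p.eval z‖ ≤ 1) ∧ r = ‖Polynomial.aeval A p‖} := by
  refine ⟨P.cS d * 1, ?_⟩
  rintro r ⟨p, hp, rfl⟩
  rw [← P.S_poly hA hd]
  exact P.S_norm_le' hA hd hp

lemma le_KK (hA : P.Margin A d) (hd : 0 < d) {p : ℂ[X]} (hp : ∀ z ∈ P.opn, ‖p.eval z‖ ≤ 1) :
    ‖Polynomial.aeval A p‖ ≤ KK P A :=
  le_csSup (KK_bdd hA hd) ⟨p, hp, rfl⟩

lemma KK_nonneg (hA : P.Margin A d) (hd : 0 < d) : 0 ≤ KK P A := by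
  have := le_KK hA hd (p := 0) (by simp)
  exact (norm_nonneg _).trans this

lemma poly_le_KK (hA : P.Margin A d) (hd : 0 < d) {p : ℂ[X]} {C : ℝ} (hC : 0 < C)
    (hp : ∀ z ∈ P.opn, ‖p.eval z‖ ≤ C) : ‖Polynomial.aeval A p‖ ≤ KK P A * C := by
  have h1 := le_KK hA hd (p := Polynomial.C ((C : ℂ)⁻¹) * p) (by
    intro z hz
    simp only [eval_mul, eval_C, norm_mul, norm_inv, Complex.norm_real, Real.norm_eq_abs,
      abs_of_pos hC]
    rw [inv_mul_le_iff₀ hC, mul_one]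
    exact hp z hz)
  rw [map_mul, Polynomial.aeval_C] at h1
  have e : (algebraMap ℂ (H →L[ℂ] H)) ((C : ℂ)⁻¹) * Polynomial.aeval A p =
      ((C : ℂ)⁻¹) • Polynomial.aeval A p := by
    rw [Algebra.algebraMap_eq_smul_one, smul_mul_assoc, one_mul]
  rw [e, norm_smul, norm_inv, Complex.norm_real, Real.norm_eq_abs, abs_of_pos hC,
    inv_mul_le_iff₀ hC] at h1
  linarith

/-- the bound on the class -/
theorem S_le_KK (hA : P.Margin A d) (hd : 0 < d) {u : ℂ → ℂ} {C : ℝ} (hu : P.InP u)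
    (hC : ∀ z ∈ P.opn, ‖u z‖ ≤ C) : ‖P.S A u‖ ≤ KK P A * C := by
  have hCA := P.cS_nonneg hd
  have hK := KK_nonneg hA hd
  apply le_of_forall_pos_le_add
  intro ε hε
  obtain ⟨z₀, hz₀⟩ := opn_ne P
  have hC0 : 0 ≤ C := (norm_nonneg _).trans (hC z₀ hz₀)
  set e := ε / (P.cS d + KK P A + 1) with he
  have hep : 0 < e := by positivity
  obtain ⟨p, hp⟩ := hu e hep
  have h1 : ‖P.S A u - P.S A (fun z => p.eval z)‖ ≤ P.cS d * e :=
    P.S_sub_norm_le hA hd (P.inP_integrable hu) (P.inP_integrable (P.inP_poly p)) hp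
  have h2 : ‖Polynomial.aeval A p‖ ≤ KK P A * (C + e) := by
    refine poly_le_KK hA hd (by positivity) (fun z hz => ?_)
    have : ‖p.eval z‖ ≤ ‖u z‖ + ‖u z - p.eval z‖ := by
      have := norm_sub_norm_le (p.eval z) (u z)
      rw [norm_sub_rev] at this
      linarith
    linarith [hC z hz, hp z hz]
  rw [P.S_poly hA hd] at h1
  have h3 : ‖P.S A u‖ ≤ ‖Polynomial.aeval A p‖ + P.cS d * e := by
    have := norm_sub_norm_le (P.S A u) (Polynomial.aeval A p)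
    linarith
  have h4 : (P.cS d + KK P A + 1) * e = ε := by
    rw [he]; field_simp
  nlinarith

/-- near extremal polynomials -/
lemma KK_near (hA : P.Margin A d) (hd : 0 < d) {η : ℝ} (hη : 0 < η) :
    ∃ p : ℂ[X], (∀ z ∈ P.opn, ‖p.eval z‖ ≤ 1) ∧ KK P A - η ≤ ‖P.S A (fun z => p.eval z)‖ := by
  have hne : {r | ∃ p : ℂ[X], (∀ z ∈ P.opn, ‖p.eval z‖ ≤ 1) ∧ r = ‖Polynomial.aeval A p‖}.Nonempty :=
    ⟨_, 0, by simp, rfl⟩
  obtain ⟨r, ⟨p, hp, rfl⟩, hr⟩ := exists_lt_of_lt_csSup hne (show KK P A - η < KK P A by linarith)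
  refine ⟨p, hp, ?_⟩
  rw [P.S_poly hA hd]
  exact hr.le

end Pgon

/-- The chain data of a polygon. -/
noncomputable def chainOf {H : Type*} [NormedAddCommGroup H] [InnerProductSpace ℂ H] [CompleteSpace H]
    {A : H →L[ℂ] H} {d m : ℝ} (P P₁ : Pgon N) (hm : 0 < m) (hrel : ∀ j z, P₁.dl j z = P.dl j z - m)
    (hA : P.Margin A d) (hA₁ : P₁.Margin A d) (hd : 0 < d) : ChainData H where
  X := P.opn
  InP := P.InP
  S := P.S A
  alpha := P.alpha
  K := Pgon.KK P A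
  good := fun f => ∃ p : ℂ[X], f = (fun z => p.eval z) ∧ ∀ z ∈ P.opn, ‖p.eval z‖ ≤ 1
  inP_one := P.inP_one
  inP_add := fun _ _ hu hv => P.inP_add hu hv
  inP_mul := fun _ _ hu hv => P.inP_mul hu hv
  inP_const_mul := fun a _ hu => P.inP_const_mul a hu
  inP_alpha := fun _ hu => P.inP_alpha hu
  S_add := fun _ _ hu hv => P.S_add hA hd (P.inP_integrable hu) (P.inP_integrable hv)
  S_const_mul := fun a u _ => P.S_const_mul A a u
  S_one := P.S_one hA hd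
  S_mul := fun _ _ hu hv => P.S_mul hA hd hu hv
  S_bound := fun _ _ hu hC => Pgon.S_le_KK hA hd hu hC
  S_congr := fun _ _ _ _ h => P.S_congr_opn A h
  alpha_add := fun _ _ hu hv z _ => P.alpha_add (P.inP_integrable hu) (P.inP_integrable hv) z
  alpha_const_mul := fun a u _ z _ => P.alpha_const_mul a u z
  alpha_one := fun z hz => P.alpha_one hz
  alpha_bound := fun _ _ _ hC z hz => P.alpha_norm_le hC hz
  phi_bound := fun u hu hC x y hx hy => by
    show ‖_ + ⟪P.S A (P.alpha u) y, x⟫_ℂ‖ ≤ 2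
    rw [Pgon.S_alpha_class hm hrel hA hA₁ hd hu]
    exact P.phi_bound hA hd (P.inP_integrable hu) hC (P.S_one hA hd) hx hy
  phi_cs := fun f h G hf hh hG hfb hhG x y z hx hy l hl => by
    show ‖⟪z, P.S A (fun w => f w * h w) x⟫_ℂ + ⟪P.S A (P.alpha (fun w => f w * h w)) z, x⟫_ℂ
      - ⟪z, P.S A h y⟫_ℂ - ⟪P.S A (P.alpha h) z, y⟫_ℂ‖ ≤
      (l / 2) * (⟪z, P.S A G z⟫_ℂ + ⟪P.S A (P.alpha G) z, z⟫_ℂ).re +
      (2 - (⟪y, P.S A f x⟫_ℂ + ⟪P.S A (P.alpha f) y, x⟫_ℂ).re) / l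
    rw [Pgon.S_alpha_class hm hrel hA hA₁ hd (P.inP_mul hf hh),
      Pgon.S_alpha_class hm hrel hA hA₁ hd hh,
      Pgon.S_alpha_class hm hrel hA hA₁ hd hG,
      Pgon.S_alpha_class hm hrel hA hA₁ hd hf]
    exact P.phi_cs_G hA hd (P.inP_integrable hf) (P.inP_integrable hh) (P.inP_integrable hG) hfb hhG
      (P.S_one hA hd) hx hy hl
  good_inP := by
    rintro f ⟨p, rfl, -⟩
    exact P.inP_poly p
  good_bd := by
    rintro f ⟨p, rfl, hp⟩
    exact hp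
  near := fun η hη => by
    obtain ⟨p, hp, hn⟩ := Pgon.KK_near hA hd hη
    exact ⟨_, ⟨p, rfl, hp⟩, hn⟩

/-- the polygon bound -/
theorem pgon_bound {H : Type*} [NormedAddCommGroup H] [InnerProductSpace ℂ H] [CompleteSpace H]
    {A : H →L[ℂ] H} {d m : ℝ} (P P₁ : Pgon N) (hm : 0 < m) (hrel : ∀ j z, P₁.dl j z = P.dl j z - m)
    (hA : P.Margin A d) (hA₁ : P₁.Margin A d) (hd : 0 < d) : Pgon.KK P A ≤ 117 / 50 :=
  chain_bound (chainOf P P₁ hm hrel hA hA₁ hd)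

/-- the bound for polynomials on the numerical range -/
theorem numrange_bound {H : Type*} [NormedAddCommGroup H] [InnerProductSpace ℂ H] [CompleteSpace H]
    [Nontrivial H] (A : H →L[ℂ] H) (p : ℂ[X]) {s : ℝ}
    (hs : ∀ x : H, ‖x‖ = 1 → ‖p.eval ⟪x, A x⟫_ℂ‖ ≤ s) :
    ‖Polynomial.aeval A p‖ ≤ 117 / 50 * s := by
  refine final_deduction A (by norm_num) p ?_ hs
  intro N hN P P₁ m d hm hd hrel hA hA₁ B hB
  have hK := pgon_bound P P₁ hm hrel hA hA₁ hd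
  obtain ⟨z₀, hz₀⟩ := Pgon.opn_ne P
  have hB0 : 0 ≤ B := (norm_nonneg _).trans (hB z₀ hz₀)
  have h1 : ‖Polynomial.aeval A p‖ ≤ Pgon.KK P A * B := by
    rw [← P.S_poly hA hd]
    exact Pgon.S_le_KK hA hd (P.inP_poly p) hB
  exact h1.trans (mul_le_mul_of_nonneg_right hK hB0)

end Vale.Agent.Lib.P123
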