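import Vale.Agent.Lib.P123.CoreChain

/-!
The sharp abstract bound. Iterating the Cauchy-Schwarz form of the positive functional on the powers
of an almost extremal function gives a linear recursion with ratio the constant itself, which
forces the constant to be at most two.
-/

open scoped ComplexConjugate InnerProductSpace

namespace Vale.Agent.Lib.P123

namespace ChainData

variable {H : Type*} [NormedAddCommGroup H] [InnerProductSpace ℂ H]

variable {D : ChainData H} {f : ℂ → ℂ} {x y v : H} {r ι η : ℝ}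

/-- The basic step. -/
lemma Ext.step (E : D.Ext f x y v r ι η) {u : ℂ → ℂ} (hu : D.InP u) (hb : ∀ z ∈ D.X, ‖u z‖ ≤ 1) :
    (⟪x, D.S (fun z => (f z * u z) * D.alpha (fun w => f w * u w) z) x⟫_ℂ).re / D.K -
        (⟪x, D.S (fun z => u z * D.alpha u z) x⟫_ℂ).re ≤
      (2 - (⟪y, D.S f x⟫_ℂ + ⟪D.S (D.alpha f) y, x⟫_ℂ).re) / (D.K - 1) + η * D.K ^ 2 + 3 * ι := by
  have hK2 := E.hKpos
  have hKpos : 0 < D.K := by linarith
  have hl : 0 < D.K - 1 := by linarith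
  have hfb := D.good_bd f E.good_f
  have hfu : D.InP (fun w => f w * u w) := D.inP_mul f u E.inP hu
  have hfub : ∀ z ∈ D.X, ‖f z * u z‖ ≤ 1 := by
    intro z hz
    rw [norm_mul]
    calc ‖f z‖ * ‖u z‖ ≤ 1 * 1 := mul_le_mul (hfb z hz) (hb z hz) (norm_nonneg _) zero_le_one
      _ = 1 := one_mul 1
  have hau : D.InP (D.alpha u) := D.inP_alpha u hu
  have haub : ∀ z ∈ D.X, ‖D.alpha u z‖ ≤ 1 := D.alpha_bound u 1 hu hb
  have hafu : D.InP (D.alpha (fun w => f w * u w)) := D.inP_alpha _ hfu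
  have hafub : ∀ z ∈ D.X, ‖D.alpha (fun w => f w * u w) z‖ ≤ 1 := D.alpha_bound _ 1 hfu hfub
  have hw1 : D.InP (fun z => u z * D.alpha (fun w => f w * u w) z) := D.inP_mul _ _ hu hafu
  have hw1b : ∀ z ∈ D.X, ‖u z * D.alpha (fun w => f w * u w) z‖ ≤ 1 := by
    intro z hz
    rw [norm_mul]
    calc ‖u z‖ * ‖D.alpha (fun w => f w * u w) z‖ ≤ 1 * 1 :=
          mul_le_mul (hb z hz) (hafub z hz) (norm_nonneg _) zero_le_one
      _ = 1 := one_mul 1
  have hw2 : D.InP (fun z => u z * D.alpha u z) := D.inP_mul _ _ hu hau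
  have hw2b : ∀ z ∈ D.X, ‖u z * D.alpha u z‖ ≤ 1 := by
    intro z hz
    rw [norm_mul]
    calc ‖u z‖ * ‖D.alpha u z‖ ≤ 1 * 1 :=
          mul_le_mul (hb z hz) (haub z hz) (norm_nonneg _) zero_le_one
      _ = 1 := one_mul 1
  have hG : ∀ z ∈ D.X, ‖u z‖ ^ 2 ≤ ((fun _ => (1 : ℂ)) z).re := by
    intro z hz
    have := pow_le_pow_left₀ (norm_nonneg _) (hb z hz) 2
    simpa using this
  set z : H := D.S u y with hz
  have hcs := D.phi_cs f u (fun _ => (1 : ℂ)) E.inP hu D.inP_one hfb hG x y z E.hx E.hy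
    (D.K - 1) hl
  have hs1 : D.S (D.alpha (fun _ => (1 : ℂ))) = 1 := by
    rw [← D.S_one]
    exact D.S_congr _ _ (D.inP_alpha _ D.inP_one) D.inP_one (fun z hz => D.alpha_one z hz)
  rw [hs1, D.S_one] at hcs
  simp only [one_apply_eq_self] at hcs
  have hzz : (⟪z, z⟫_ℂ).re = ‖z‖ ^ 2 := by
    rw [inner_self_eq_norm_sq_to_K]
    norm_cast
  have hzz' : ⟪z, z⟫_ℂ = ((‖z‖ ^ 2 : ℝ) : ℂ) := by
    rw [inner_self_eq_norm_sq_to_K]
    norm_cast
  have e1 : ⟪z, D.S (fun w => f w * u w) x⟫_ℂ = (r : ℂ) * ((‖z‖ ^ 2 : ℝ) : ℂ) := by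
    rw [D.S_mul_apply E.inP hu, D.S_comm_apply E.inP hu, E.hTx, map_smul, inner_smul_right, ← hz,
      hzz']
  have e3 : ⟪z, D.S u y⟫_ℂ = ((‖z‖ ^ 2 : ℝ) : ℂ) := by
    rw [← hz, hzz']
  have e2 : (⟪D.S (D.alpha (fun w => f w * u w)) z, x⟫_ℂ).re =
      (⟪x, D.S (fun w => u w * D.alpha (fun w => f w * u w) w) y⟫_ℂ).re := by
    rw [inner_re_comm, D.S_mul_apply hu hafu, hz, D.S_comm_apply hu hafu]
  have e4 : (⟪D.S (D.alpha u) z, y⟫_ℂ).re = (⟪y, D.S (fun w => u w * D.alpha u w) y⟫_ℂ).re := by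
    rw [inner_re_comm, D.S_mul_apply hu hau, hz, D.S_comm_apply hu hau]
  have h0 := (Complex.re_le_norm _).trans hcs
  simp only [Complex.sub_re, Complex.add_re] at h0
  rw [e1, e2, e3, e4] at h0
  have e5 : ((r : ℂ) * ((‖z‖ ^ 2 : ℝ) : ℂ)).re = r * ‖z‖ ^ 2 := by
    rw [← Complex.ofReal_mul, Complex.ofReal_re]
  have e6 : (((‖z‖ ^ 2 : ℝ) : ℂ)).re = ‖z‖ ^ 2 := Complex.ofReal_re _
  rw [e5, e6] at h0
  have h1 := E.lc hw1 hw1b zero_le_one
  rw [mul_one] at h1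
  have h2 := (Complex.abs_re_le_norm _).trans h1
  rw [Complex.sub_re, Complex.div_ofReal_re] at h2
  have h3 := (abs_le.mp h2).1
  have e7 : (fun z => f z * (u z * D.alpha (fun w => f w * u w) z)) =
      (fun z => (f z * u z) * D.alpha (fun w => f w * u w) z) := by
    funext z
    ring
  rw [e7] at h3
  have h4 := E.lb hw2 hw2b zero_le_one
  rw [mul_one] at h4
  have h5 := (Complex.abs_re_le_norm _).trans h4
  rw [Complex.sub_re] at h5
  have h6 := (abs_le.mp h5).2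
  have hzn : ‖z‖ ≤ D.K := by
    have h7 : ‖D.S u‖ ≤ D.K := by
      simpa using D.S_bound u 1 hu hb
    calc ‖z‖ ≤ ‖D.S u‖ * ‖y‖ := (D.S u).le_opNorm y
      _ ≤ D.K := by rw [E.hy, mul_one]; exact h7
  have hzn2 : ‖z‖ ^ 2 ≤ D.K ^ 2 := pow_le_pow_left₀ (norm_nonneg _) hzn 2
  have h8 : (D.K - r) * ‖z‖ ^ 2 ≤ η * D.K ^ 2 :=
    mul_le_mul (by linarith [E.hr1]) hzn2 (by positivity) E.hη0
  have h9 : (D.K - 1) / 2 * (‖z‖ ^ 2 + ‖z‖ ^ 2) = (D.K - 1) * ‖z‖ ^ 2 := by ring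
  rw [h9] at h0
  simp only [Complex.add_re]
  have h10 : (⟪x, D.S (fun z => (f z * u z) * D.alpha (fun w => f w * u w) z) x⟫_ℂ).re / D.K ≤
      (⟪x, D.S (fun w => u w * D.alpha (fun w => f w * u w) w) y⟫_ℂ).re + ι := by linarith
  linarith

/-- The powers of `f`, beginning with `f` itself. -/
noncomputable def Wn (f : ℂ → ℂ) : ℕ → ℂ → ℂ
  | 0 => f
  | n + 1 => fun z => f z * Wn f n z

lemma Ext.wn_inP (E : D.Ext f x y v r ι η) : ∀ n, D.InP (Wn f n)
  | 0 => E.inP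
  | n + 1 => D.inP_mul f (Wn f n) E.inP (E.wn_inP n)

lemma Ext.wn_bd (E : D.Ext f x y v r ι η) : ∀ n, ∀ z ∈ D.X, ‖Wn f n z‖ ≤ 1
  | 0 => D.good_bd f E.good_f
  | n + 1 => fun z hz => by
    show ‖f z * Wn f n z‖ ≤ 1
    rw [norm_mul]
    calc ‖f z‖ * ‖Wn f n z‖ ≤ 1 * 1 :=
          mul_le_mul (D.good_bd f E.good_f z hz) (E.wn_bd n z hz) (norm_nonneg _) zero_le_one
      _ = 1 := one_mul 1

/-- The sequence of the recursion. -/
noncomputable def aSeq (D : ChainData H) (f : ℂ → ℂ) (x : H) (n : ℕ) : ℝ :=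
  (⟪x, D.S (fun z => Wn f n z * D.alpha (Wn f n) z) x⟫_ℂ).re

lemma Ext.aSeq_lower (E : D.Ext f x y v r ι η) (n : ℕ) : -(1 + ι) ≤ aSeq D f x n := by
  have hw : D.InP (fun z => Wn f n z * D.alpha (Wn f n) z) :=
    D.inP_mul _ _ (E.wn_inP n) (D.inP_alpha _ (E.wn_inP n))
  have hwb : ∀ z ∈ D.X, ‖Wn f n z * D.alpha (Wn f n) z‖ ≤ 1 := by
    intro z hz
    rw [norm_mul]
    calc ‖Wn f n z‖ * ‖D.alpha (Wn f n) z‖ ≤ 1 * 1 :=
          mul_le_mul (E.wn_bd n z hz) (D.alpha_bound _ 1 (E.wn_inP n) (E.wn_bd n) z hz)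
            (norm_nonneg _) zero_le_one
      _ = 1 := one_mul 1
  have h1 := E.la hw hwb
  rw [mul_one] at h1
  have h2 := (Complex.abs_re_le_norm _).trans h1
  exact (abs_le.mp h2).1

lemma Ext.aSeq_step (E : D.Ext f x y v r ι η) (n : ℕ) :
    aSeq D f x (n + 1) / D.K - aSeq D f x n ≤
      (2 - (⟪y, D.S f x⟫_ℂ + ⟪D.S (D.alpha f) y, x⟫_ℂ).re) / (D.K - 1) + η * D.K ^ 2 + 3 * ι :=
  E.step (E.wn_inP n) (E.wn_bd n)

/-- The first term of the sequence and the defect of the bound on the functional. -/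
lemma Ext.defect (E : D.Ext f x y v r ι η) :
    0 ≤ 2 - (⟪y, D.S f x⟫_ℂ + ⟪D.S (D.alpha f) y, x⟫_ℂ).re ∧
      2 - (⟪y, D.S f x⟫_ℂ + ⟪D.S (D.alpha f) y, x⟫_ℂ).re ≤
        2 - D.K + η + ι - aSeq D f x 0 / D.K := by
  obtain ⟨h1, h2⟩ := E.phi1
  refine ⟨h1, h2.trans (le_of_eq ?_)⟩
  have h5 : (⟪x, D.S (D.Ph f) x⟫_ℂ).re - 1 =
      (⟪x, D.S (fun z => f z * D.alpha f z) x⟫_ℂ).re := by
    rw [E.L_ph]
    simp
  rw [h5]
  rfl

/-- The recursion in closed form. -/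
lemma rec_bound {K Dq τ : ℝ} {a : ℕ → ℝ} (hK : 1 < K) (hDq : 0 ≤ Dq) (hτ : 0 ≤ τ)
    (hstep : ∀ n, a (n + 1) / K - a n ≤ Dq / (K - 1) + τ) (n : ℕ) :
    a n ≤ K ^ n * (a 0 + K * (Dq / (K - 1) + τ) / (K - 1)) := by
  have hm : 0 < K - 1 := by linarith
  have hKpos : 0 < K := by linarith
  set s : ℝ := K * (Dq / (K - 1) + τ) / (K - 1) with hs
  have hs0 : 0 ≤ s := by positivity
  have key : ∀ n, a n + s ≤ K ^ n * (a 0 + s) := by
    intro n
    induction n with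
    | zero => simp
    | succ n ih =>
      have h1 := hstep n
      have h2 : a (n + 1) ≤ K * a n + K * (Dq / (K - 1) + τ) := by
        have h3 : a (n + 1) / K ≤ a n + (Dq / (K - 1) + τ) := by linarith
        rw [div_le_iff₀ hKpos] at h3
        linarith
      have h4 : K * (Dq / (K - 1) + τ) = (K - 1) * s := by
        rw [hs]
        field_simp
      have h5 : a (n + 1) + s ≤ K * (a n + s) := by
        rw [h4] at h2
        nlinarith
      calc a (n + 1) + s ≤ K * (a n + s) := h5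
        _ ≤ K * (K ^ n * (a 0 + s)) := mul_le_mul_of_nonneg_left ih hKpos.le
        _ = K ^ (n + 1) * (a 0 + s) := by ring
  have h1 := key n
  linarith

/-- Arithmetic of the final contradiction. -/
lemma first_bound {K Dq τ a ι' : ℝ} (hK : 2 < K) (hDq0 : 0 ≤ Dq)
    (hDq : Dq ≤ 2 - K + ι' - a / K) (hτ : 0 ≤ τ) :
    a + K * (Dq / (K - 1) + τ) / (K - 1) ≤ K * (2 - K + ι' + τ) := by
  have hKpos : 0 < K := by linarith
  have hm : 1 < K - 1 := by linarith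
  have hm0 : 0 < K - 1 := by linarith
  set m : ℝ := K - 1 with hmdef
  have h1 : a ≤ K * (2 - K + ι') := by
    have h2 : a / K ≤ 2 - K + ι' := by linarith
    rw [div_le_iff₀ hKpos] at h2
    linarith
  have h2 : K * Dq ≤ K * (2 - K + ι') - a := by
    have h3 := mul_le_mul_of_nonneg_left hDq hKpos.le
    have h4 : K * (2 - K + ι' - a / K) = K * (2 - K + ι') - a := by
      field_simp
    rw [h4] at h3
    exact h3
  have h3 : K * (Dq / m + τ) / m = K * Dq / m ^ 2 + K * τ / m := by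
    field_simp
  rw [h3]
  have h5 : K * Dq / m ^ 2 ≤ (K * (2 - K + ι') - a) / m ^ 2 :=
    div_le_div_of_nonneg_right h2 (by positivity)
  have h6 : K * τ / m ≤ K * τ := by
    rw [div_le_iff₀ hm0]
    have : 0 ≤ K * τ := by positivity
    nlinarith
  have h7 : a + (K * (2 - K + ι') - a) / m ^ 2 ≤ K * (2 - K + ι') := by
    have h8 : 1 < m ^ 2 := by nlinarith
    have h9 : 0 < m ^ 2 := by positivity
    have h10 : a + (K * (2 - K + ι') - a) / m ^ 2 - K * (2 - K + ι') =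
        (a - K * (2 - K + ι')) * (m ^ 2 - 1) / m ^ 2 := by
      field_simp
      ring
    have h11 : (a - K * (2 - K + ι')) * (m ^ 2 - 1) / m ^ 2 ≤ 0 :=
      div_nonpos_of_nonpos_of_nonneg
        (mul_nonpos_of_nonpos_of_nonneg (by linarith) (by linarith)) h9.le
    linarith
  have h12 : K * (2 - K + ι' + τ) = K * (2 - K + ι') + K * τ := by ring
  rw [h12]
  linarith

end ChainData

/-- The abstract bound: the constant of a chain data is at most two. -/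
theorem two_bound {H : Type*} [NormedAddCommGroup H] [InnerProductSpace ℂ H] [CompleteSpace H]
    (D : ChainData H) : D.K ≤ 2 := by
  by_contra hcon
  push Not at hcon
  have hK2 : 2 < D.K := hcon
  have hKpos : 0 < D.K := by linarith
  set δ : ℝ := D.K - 2 with hδ
  have hδ0 : 0 < δ := by rw [hδ]; linarith
  set ι : ℝ := min 1 (δ / (2 * (D.K ^ 2 + 5))) with hι
  have hι0 : 0 < ι := lt_min one_pos (by positivity)
  have hι1 : ι ≤ 1 := min_le_left _ _
  have hι2 : ι ≤ δ / (2 * (D.K ^ 2 + 5)) := min_le_right _ _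
  obtain ⟨f, x, y, v, r, η, E⟩ := D.exists_ext hK2 hι0 hι1
  have hη0 := E.hη0
  have hηι := E.hηι
  obtain ⟨hDq0, hDq⟩ := E.defect
  set Dq : ℝ := 2 - (⟪y, D.S f x⟫_ℂ + ⟪D.S (D.alpha f) y, x⟫_ℂ).re with hDqdef
  set τ : ℝ := η * D.K ^ 2 + 3 * ι with hτ
  have hτ0 : 0 ≤ τ := by positivity
  have hstep : ∀ n, ChainData.aSeq D f x (n + 1) / D.K - ChainData.aSeq D f x n ≤
      Dq / (D.K - 1) + τ := by
    intro n
    have := E.aSeq_step n
    rw [hτ]
    linarith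
  have hrec := ChainData.rec_bound (by linarith : 1 < D.K) hDq0 hτ0 hstep
  have hfirst := ChainData.first_bound (a := ChainData.aSeq D f x 0) (ι' := η + ι) hK2 hDq0
    (by linarith) hτ0
  have hsmall : 2 - D.K + (η + ι) + τ ≤ -(δ / 2) := by
    have h1 : τ ≤ ι * D.K ^ 2 + 3 * ι := by
      rw [hτ]
      have := mul_le_mul_of_nonneg_right hηι (by positivity : 0 ≤ D.K ^ 2)
      linarith
    have h2 : ι * (2 * (D.K ^ 2 + 5)) ≤ δ := by
      rw [le_div_iff₀ (by positivity)] at hι2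
      exact hι2
    have h3 : 2 - D.K = -δ := by rw [hδ]; ring
    rw [h3]
    nlinarith
  have hneg : ChainData.aSeq D f x 0 +
      D.K * (Dq / (D.K - 1) + τ) / (D.K - 1) ≤ -(D.K * (δ / 2)) := by
    refine hfirst.trans ?_
    have := mul_le_mul_of_nonneg_left hsmall hKpos.le
    linarith
  have hκ : 0 < D.K * (δ / 2) := by positivity
  obtain ⟨n, hn⟩ := pow_unbounded_of_one_lt (2 / (D.K * (δ / 2))) (by linarith : 1 < D.K)
  have h1 := hrec n
  have h2 := E.aSeq_lower n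
  have hpow : 0 < D.K ^ n := by positivity
  have h3 : D.K ^ n * (ChainData.aSeq D f x 0 + D.K * (Dq / (D.K - 1) + τ) / (D.K - 1)) ≤
      D.K ^ n * (-(D.K * (δ / 2))) := mul_le_mul_of_nonneg_left hneg hpow.le
  have h4 : 2 < D.K ^ n * (D.K * (δ / 2)) := by
    rw [div_lt_iff₀ hκ] at hn
    exact hn
  nlinarith

end Vale.Agent.Lib.P123
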