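import Vale.Agent.Lib.P123.Assembly
import Vale.Agent.Lib.P123.CoreTwo

/-!
The sharp bound for polygons and for the numerical range.
-/

open Complex Polynomial
open scoped InnerProductSpace

namespace Vale.Agent.Lib.P123

variable {N : ℕ} [NeZero N]

/-- the polygon bound -/
theorem pgon_bound_two {H : Type*} [NormedAddCommGroup H] [InnerProductSpace ℂ H] [CompleteSpace H]
    {A : H →L[ℂ] H} {d m : ℝ} (P P₁ : Pgon N) (hm : 0 < m) (hrel : ∀ j z, P₁.dl j z = P.dl j z - m)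
    (hA : P.Margin A d) (hA₁ : P₁.Margin A d) (hd : 0 < d) : Pgon.KK P A ≤ 2 :=
  two_bound (chainOf P P₁ hm hrel hA hA₁ hd)

/-- the bound for polynomials on the numerical range -/
theorem numrange_bound_two {H : Type*} [NormedAddCommGroup H] [InnerProductSpace ℂ H]
    [CompleteSpace H] [Nontrivial H] (A : H →L[ℂ] H) (p : ℂ[X]) {s : ℝ}
    (hs : ∀ x : H, ‖x‖ = 1 → ‖p.eval ⟪x, A x⟫_ℂ‖ ≤ s) :
    ‖Polynomial.aeval A p‖ ≤ 2 * s := by
  refine final_deduction A (by norm_num) p ?_ hs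
  intro N hN P P₁ m d hm hd hrel hA hA₁ B hB
  have hK := pgon_bound_two P P₁ hm hrel hA hA₁ hd
  obtain ⟨z₀, hz₀⟩ := Pgon.opn_ne P
  have hB0 : 0 ≤ B := (norm_nonneg _).trans (hB z₀ hz₀)
  have h1 : ‖Polynomial.aeval A p‖ ≤ Pgon.KK P A * B := by
    rw [← P.S_poly hA hd]
    exact Pgon.S_le_KK hA hd (P.inP_poly p) hB
  exact h1.trans (mul_le_mul_of_nonneg_right hK hB0)

end Vale.Agent.Lib.P123
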