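import Vale.Agent.Lib.P123.BuildTH

/-!
A polygon with equally rotating normals around the numerical range.
-/

open Complex
open scoped ComplexConjugate InnerProductSpace

set_option linter.unusedSectionVars false

namespace Vale.Agent.Lib.P123
namespace Build

section Sup

variable (K : Set ℂ)

/-- support function of `K` -/
noncomputable def sup (u : ℂ) : ℝ := sSup ((fun z => (conj u * z).re) '' K)

variable {K}

lemma re_conj_mul_le (u z : ℂ) : (conj u * z).re ≤ ‖u‖ * ‖z‖ := by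
  calc (conj u * z).re ≤ ‖conj u * z‖ := Complex.re_le_norm _
    _ = ‖u‖ * ‖z‖ := by rw [norm_mul, Complex.norm_conj]

lemma bdd {M : ℝ} (hM : ∀ z ∈ K, ‖z‖ ≤ M) (u : ℂ) :
    BddAbove ((fun z => (conj u * z).re) '' K) := by
  refine ⟨‖u‖ * M, ?_⟩
  rintro _ ⟨z, hz, rfl⟩
  exact (re_conj_mul_le u z).trans (by gcongr; exact hM z hz)

lemma le_sup {M : ℝ} (hM : ∀ z ∈ K, ‖z‖ ≤ M) (u : ℂ) {z : ℂ} (hz : z ∈ K) :
    (conj u * z).re ≤ sup K u :=
  le_csSup (bdd hM u) ⟨z, hz, rfl⟩

lemma sup_le_of (hK : K.Nonempty) {u : ℂ} {c : ℝ} (h : ∀ z ∈ K, (conj u * z).re ≤ c) :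
    sup K u ≤ c := by
  apply csSup_le (hK.image _)
  rintro _ ⟨z, hz, rfl⟩
  exact h z hz

lemma re_lin {A B C : ℝ} {a b c : ℂ} (h : (A : ℂ) * a + (B : ℂ) * b + (C : ℂ) * c = 0) (z : ℂ) :
    A * (conj a * z).re + B * (conj b * z).re + C * (conj c * z).re = 0 := by
  have h1 : (A : ℂ) * (conj a * z) + (B : ℂ) * (conj b * z) + (C : ℂ) * (conj c * z) = 0 := by
    have h2 : conj ((A : ℂ) * a + (B : ℂ) * b + (C : ℂ) * c) = 0 := by rw [h]; simp
    simp only [map_add, map_mul, Complex.conj_ofReal] at h2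
    linear_combination z * h2
  have h3 := congrArg Complex.re h1
  simpa [Complex.add_re, Complex.mul_re] using h3

/-- the three term inequality -/
lemma three_term (hK : K.Nonempty) {M : ℝ} (hM : ∀ z ∈ K, ‖z‖ ≤ M) {a b c : ℂ}
    (ha : ‖a‖ = 1) (hb : ‖b‖ = 1) (hc : ‖c‖ = 1) {A B C : ℝ} (hC : 0 ≤ C)
    (h : (A : ℂ) * a + (B : ℂ) * b + (C : ℂ) * c = 0) (hn : ¬(A < 0 ∧ B < 0))
    {r : ℝ} (hr : 0 ≤ r) :
    0 ≤ A * (sup K a + r) + B * (sup K b + r) + C * (sup K c + r) := by
  have hlin := re_lin h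
  by_cases hA : A < 0
  · have hB : 0 ≤ B := by
      by_contra hB
      exact hn ⟨hA, not_le.mp hB⟩
    have h1 : sup K a ≤ (B * sup K b + C * sup K c) / (-A) := by
      apply sup_le_of hK
      intro z hz
      rw [le_div_iff₀ (by linarith)]
      have h2 := le_sup hM b hz
      have h3 := le_sup hM c hz
      have h4 := hlin z
      nlinarith [mul_le_mul_of_nonneg_left h2 hB, mul_le_mul_of_nonneg_left h3 hC]
    have h1' : sup K a * (-A) ≤ B * sup K b + C * sup K c := (le_div_iff₀ (by linarith)).mp h1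
    have h5 : -A ≤ B + C := by
      have h6 : ((-A : ℝ) : ℂ) * a = (B : ℂ) * b + (C : ℂ) * c := by
        push_cast
        linear_combination -h
      have h7 := congrArg norm h6
      rw [norm_mul, ha, Complex.norm_real, Real.norm_of_nonneg (by linarith), mul_one] at h7
      rw [h7]
      refine (norm_add_le _ _).trans ?_
      simp [hb, hc, Real.norm_of_nonneg hB, Real.norm_of_nonneg hC]
    nlinarith [mul_nonneg (by linarith : 0 ≤ A + B + C) hr]
  · have hA' : 0 ≤ A := not_lt.mp hA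
    by_cases hB : B < 0
    · have h1 : sup K b ≤ (A * sup K a + C * sup K c) / (-B) := by
        apply sup_le_of hK
        intro z hz
        rw [le_div_iff₀ (by linarith)]
        have h2 := le_sup hM a hz
        have h3 := le_sup hM c hz
        have h4 := hlin z
        nlinarith [mul_le_mul_of_nonneg_left h2 hA', mul_le_mul_of_nonneg_left h3 hC]
      have h1' : sup K b * (-B) ≤ A * sup K a + C * sup K c := (le_div_iff₀ (by linarith)).mp h1
      have h5 : -B ≤ A + C := by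
        have h6 : ((-B : ℝ) : ℂ) * b = (A : ℂ) * a + (C : ℂ) * c := by
          push_cast
          linear_combination -h
        have h7 := congrArg norm h6
        rw [norm_mul, hb, Complex.norm_real, Real.norm_of_nonneg (by linarith), mul_one] at h7
        rw [h7]
        refine (norm_add_le _ _).trans ?_
        simp [ha, hc, Real.norm_of_nonneg hA', Real.norm_of_nonneg hC]
      nlinarith [mul_nonneg (by linarith : 0 ≤ A + B + C) hr]
    · have hB' : 0 ≤ B := not_lt.mp hB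
      obtain ⟨z, hz⟩ := hK
      have h2 := le_sup hM a hz
      have h3 := le_sup hM b hz
      have h4 := le_sup hM c hz
      have h5 := hlin z
      have h6 := mul_le_mul_of_nonneg_left h2 hA'
      have h7 := mul_le_mul_of_nonneg_left h3 hB'
      have h8 := mul_le_mul_of_nonneg_left h4 hC
      nlinarith [mul_nonneg hA' hr, mul_nonneg hB' hr, mul_nonneg hC hr]

end Sup

section Poly

variable {N : ℕ} [NeZero N]

/-- the normals -/
noncomputable def nrm (j : ZMod N) : ℂ := (ZMod.toCircle j : ℂ)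

lemma nrm_norm (j : ZMod N) : ‖nrm j‖ = 1 := Circle.norm_coe _

lemma nrm_conj_mul (j : ZMod N) : conj (nrm j) * nrm j = 1 := by
  rw [mul_comm, Complex.mul_conj, Complex.normSq_eq_norm_sq, nrm_norm]; simp

lemma nrm_add (j l : ZMod N) : nrm (j + l) = nrm j * nrm l := by
  simp [nrm, AddChar.map_add_eq_mul]

lemma nrm_inj : Function.Injective (nrm : ZMod N → ℂ) := by
  intro a b h
  apply ZMod.injective_toCircle (N := N)
  exact Circle.ext h

/-- the rotation angle -/
noncomputable def Dl (N : ℕ) : ℝ := 2 * Real.pi / N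

lemma E_eq (x : ℝ) : exp ((x : ℂ) * I) = (Real.cos x : ℂ) + (Real.sin x : ℂ) * I := by
  rw [Complex.exp_mul_I, Complex.ofReal_cos, Complex.ofReal_sin]

lemma nrm_eq (l : ZMod N) : nrm l = exp (((l.val * Dl N : ℝ) : ℂ) * I) := by
  rw [nrm, ZMod.toCircle_apply, Dl]
  congr 1
  have hN : (N : ℂ) ≠ 0 := by exact_mod_cast NeZero.ne N
  push_cast
  field_simp

lemma nrm_one (hN : 1 < N) : nrm (1 : ZMod N) = exp ((Dl N : ℂ) * I) := by
  rw [nrm_eq, ZMod.val_one'' (by omega)]
  simp

lemma nrm_pred (hN : 1 < N) (j : ZMod N) :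
    nrm (j - 1) = nrm j * exp (((-Dl N : ℝ) : ℂ) * I) := by
  have h1 : nrm j = nrm (j - 1) * exp ((Dl N : ℂ) * I) := by
    rw [← nrm_one hN, ← nrm_add, sub_add_cancel]
  rw [h1, mul_assoc, ← Complex.exp_add]
  push_cast
  simp

lemma nrm_succ (hN : 1 < N) (j : ZMod N) :
    nrm (j + 1) = nrm j * exp ((Dl N : ℂ) * I) := by
  rw [nrm_add, nrm_one hN]

lemma Dl_facts (hN : 5 ≤ N) :
    0 < Dl N ∧ Dl N < Real.pi / 2 ∧ 0 < Real.sin (Dl N) ∧ 0 < Real.cos (Dl N) ∧
      Real.cos (Dl N) < 1 := by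
  have hpi := Real.pi_pos
  have hN' : (5 : ℝ) ≤ N := by exact_mod_cast hN
  have h0 : 0 < Dl N := by unfold Dl; positivity
  have h1 : Dl N < Real.pi / 2 := by
    unfold Dl
    rw [div_lt_iff₀ (by linarith)]
    nlinarith
  refine ⟨h0, h1, ?_, ?_, ?_⟩
  · exact Real.sin_pos_of_pos_of_lt_pi h0 (by linarith)
  · exact Real.cos_pos_of_mem_Ioo ⟨by linarith, h1⟩
  · have := Real.cos_lt_cos_of_nonneg_of_le_pi_div_two (le_refl 0) h1.le h0
    simpa using this

variable (K : Set ℂ) (r : ℝ)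

/-- the offset support values -/
noncomputable def hh (j : ZMod N) : ℝ := sup K (nrm j) + r

/-- tangential coordinate of the vertex -/
noncomputable def bt (j : ZMod N) : ℝ :=
  (hh K r j * Real.cos (Dl N) - hh K r (j - 1)) / Real.sin (Dl N)

/-- vertices -/
noncomputable def vx (j : ZMod N) : ℂ := nrm j * ((hh K r j : ℂ) + (bt K r j : ℂ) * I)

/-- side lengths -/
noncomputable def ln (j : ZMod N) : ℝ :=
  (hh K r (j + 1) + hh K r (j - 1) - 2 * hh K r j * Real.cos (Dl N)) / Real.sin (Dl N)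

lemma vx_re (j : ZMod N) : (conj (nrm j) * vx K r j).re = hh K r j := by
  have : conj (nrm j) * vx K r j = (hh K r j : ℂ) + (bt K r j : ℂ) * I := by
    rw [vx, ← mul_assoc, nrm_conj_mul, one_mul]
  rw [this]
  simp

lemma vx_step (hN : 5 ≤ N) (j : ZMod N) :
    vx K r (j + 1) = vx K r j + (ln K r j : ℂ) * (I * nrm j) := by
  obtain ⟨-, -, hs, -, -⟩ := Dl_facts hN
  have hs' : Real.sin (Dl N) ≠ 0 := hs.ne'
  have key : exp ((Dl N : ℂ) * I) * ((hh K r (j + 1) : ℂ) + (bt K r (j + 1) : ℂ) * I) =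
      (hh K r j : ℂ) + (bt K r j : ℂ) * I + (ln K r j : ℂ) * I := by
    rw [E_eq]
    have hb1 : bt K r (j + 1) =
        (hh K r (j + 1) * Real.cos (Dl N) - hh K r j) / Real.sin (Dl N) := by
      rw [bt, add_sub_cancel_right]
    have hsc := Real.sin_sq_add_cos_sq (Dl N)
    apply Complex.ext
    · simp only [Complex.add_re, Complex.mul_re, Complex.ofReal_re, Complex.ofReal_im, Complex.I_re,
        Complex.I_im, Complex.add_im, Complex.mul_im]
      rw [hb1]
      field_simp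
      ring
    · simp only [Complex.add_re, Complex.mul_re, Complex.ofReal_re, Complex.ofReal_im, Complex.I_re,
        Complex.I_im, Complex.add_im, Complex.mul_im]
      rw [hb1, bt, ln]
      field_simp
      linear_combination (hh K r (j + 1)) * hsc
  rw [vx, nrm_succ (by omega), mul_assoc, key, vx]
  ring

variable {K r}

lemma sup_nrm_le {M : ℝ} (hK : K.Nonempty) (hM : ∀ z ∈ K, ‖z‖ ≤ M) (j : ZMod N) :
    sup K (nrm j) ≤ M := by
  apply sup_le_of hK
  intro z hz
  refine (re_conj_mul_le _ _).trans ?_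
  rw [nrm_norm, one_mul]
  exact hM z hz

lemma ln_pos (hN : 5 ≤ N) (hK : K.Nonempty) {M : ℝ} (hM : ∀ z ∈ K, ‖z‖ ≤ M) (hr : 0 < r)
    (j : ZMod N) : 0 < ln K r j := by
  obtain ⟨-, -, hs, hc, hc1⟩ := Dl_facts hN
  have hN1 : 1 < N := by omega
  apply div_pos _ hs
  have hid : ((1 : ℝ) : ℂ) * nrm (j + 1) + ((1 : ℝ) : ℂ) * nrm (j - 1) +
      ((-(2 * Real.cos (Dl N)) : ℝ) : ℂ) * nrm j = 0 := by
    rw [nrm_succ hN1, nrm_pred hN1, E_eq, E_eq, Real.cos_neg, Real.sin_neg]
    push_cast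
    ring
  have hlin := re_lin hid
  have h1 : sup K (nrm j) ≤ (sup K (nrm (j + 1)) + sup K (nrm (j - 1))) /
      (2 * Real.cos (Dl N)) := by
    apply sup_le_of hK
    intro z hz
    rw [le_div_iff₀ (by linarith)]
    have h2 := le_sup hM (nrm (j + 1)) hz
    have h3 := le_sup hM (nrm (j - 1)) hz
    have h4 := hlin z
    nlinarith
  have h1' := (le_div_iff₀ (by linarith)).mp h1
  simp only [hh]
  nlinarith [mul_pos hr (sub_pos.mpr hc1)]

lemma conv_aux (hN : 5 ≤ N) (hK : K.Nonempty) {M : ℝ} (hM : ∀ z ∈ K, ‖z‖ ≤ M) (hr : 0 < r)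
    (k j : ZMod N) : (conj (nrm k) * vx K r j).re ≤ hh K r k := by
  obtain ⟨hD0, -, hs, -, -⟩ := Dl_facts hN
  have hN1 : 1 < N := by omega
  set D := Dl N with hD
  set m := (k - j).val with hm
  have hmN : m < N := ZMod.val_lt _
  set θ : ℝ := m * D with hθ
  have hk : nrm k = nrm j * exp ((θ : ℂ) * I) := by
    have h1 : j + (k - j) = k := by ring
    calc nrm k = nrm (j + (k - j)) := by rw [h1]
      _ = nrm j * nrm (k - j) := nrm_add _ _
      _ = _ := by rw [nrm_eq (k - j)]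
  have hp := nrm_pred hN1 j
  have hid : ((Real.sin θ : ℝ) : ℂ) * nrm (j - 1) + ((-Real.sin (θ + D) : ℝ) : ℂ) * nrm j +
      ((Real.sin D : ℝ) : ℂ) * nrm k = 0 := by
    rw [hk, hp, E_eq, E_eq, Real.cos_neg, Real.sin_neg, Real.sin_add]
    push_cast
    ring
  have hn : ¬(Real.sin θ < 0 ∧ -Real.sin (θ + D) < 0) := by
    rintro ⟨h1, h2⟩
    have hpi := Real.pi_pos
    have hND : (N : ℝ) * D = 2 * Real.pi := by
      rw [hD, Dl]
      have : (N : ℝ) ≠ 0 := by exact_mod_cast NeZero.ne N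
      field_simp
    have hθ0 : 0 ≤ θ := by positivity
    have hθ1 : θ + D ≤ 2 * Real.pi := by
      rw [← hND, hθ]
      have : ((m : ℝ) + 1) ≤ N := by exact_mod_cast hmN
      nlinarith
    have hθ2 : Real.pi < θ := by
      by_contra hle
      have := Real.sin_nonneg_of_nonneg_of_le_pi hθ0 (not_lt.mp hle)
      linarith
    have h3 : Real.sin (θ + D) ≤ 0 := by
      have h4 : Real.sin (θ + D - 2 * Real.pi) ≤ 0 :=
        Real.sin_nonpos_of_nonpos_of_neg_pi_le (by linarith) (by linarith)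
      rwa [Real.sin_sub_two_pi] at h4
    linarith
  have h3 := three_term hK hM (nrm_norm (j - 1)) (nrm_norm j) (nrm_norm k) hs.le hid hn hr.le
  have hre : (conj (nrm k) * vx K r j).re =
      Real.cos θ * hh K r j + Real.sin θ * bt K r j := by
    have : conj (nrm k) * vx K r j =
        conj (exp ((θ : ℂ) * I)) * ((hh K r j : ℂ) + (bt K r j : ℂ) * I) := by
      rw [vx, hk, map_mul]
      calc conj (nrm j) * conj (exp ((θ : ℂ) * I)) * (nrm j * ((hh K r j : ℂ) + (bt K r j : ℂ) * I))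
          = (conj (nrm j) * nrm j) * (conj (exp ((θ : ℂ) * I)) *
              ((hh K r j : ℂ) + (bt K r j : ℂ) * I)) := by ring
        _ = _ := by rw [nrm_conj_mul, one_mul]
    rw [this, E_eq]
    generalize Real.cos θ = ca
    generalize Real.sin θ = sa
    simp [Complex.mul_re, Complex.add_re, Complex.add_im, Complex.mul_im]
  rw [hre, bt, ← hD]
  have h4 : Real.cos θ * hh K r j + Real.sin θ *
      ((hh K r j * Real.cos D - hh K r (j - 1)) / Real.sin D) =
      (Real.sin (θ + D) * hh K r j - Real.sin θ * hh K r (j - 1)) / Real.sin D := by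
    rw [Real.sin_add]
    field_simp
    ring
  rw [h4, div_le_iff₀ hs]
  simp only [hh] at h3 ⊢
  linarith

/-- the polygon -/
noncomputable def mk (hN : 5 ≤ N) (hK : K.Nonempty) {M : ℝ} (hM : ∀ z ∈ K, ‖z‖ ≤ M)
    (hr : 0 < r) : Pgon N where
  v := vx K r
  n := nrm
  len := ln K r
  three_le := by omega
  n_norm := nrm_norm
  len_pos := ln_pos hN hK hM hr
  step := vx_step K r hN
  rot := fun j => nrm_succ (by omega) j
  conv := by
    intro j k
    have h1 := conv_aux hN hK hM hr j k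
    have h2 := vx_re K r j
    rw [mul_sub, Complex.sub_re, h2]
    linarith
  center := hK.some
  center_pos := by
    intro j
    have h1 := le_sup hM (nrm j) hK.some_mem
    have h2 := vx_re K r j
    rw [mul_sub, Complex.sub_re, h2]
    simp only [hh]
    linarith
  n_inj := nrm_inj

lemma mk_dl (hN : 5 ≤ N) (hK : K.Nonempty) {M : ℝ} (hM : ∀ z ∈ K, ‖z‖ ≤ M)
    (hr : 0 < r) (j : ZMod N) (z : ℂ) :
    (mk hN hK hM hr).dl j z = sup K (nrm j) + r - (conj (nrm j) * z).re := by
  have h2 := vx_re K r j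
  simp only [Pgon.dl, mk]
  rw [mul_sub, Complex.sub_re, h2, hh]

/-- every direction is close to a normal -/
lemma exists_near (e : ℂ) (he : ‖e‖ = 1) : ∃ j : ZMod N, ‖nrm j - e‖ ≤ Dl N := by
  have hpi := Real.pi_pos
  have hNpos : (0 : ℝ) < N := by exact_mod_cast Nat.pos_of_ne_zero (NeZero.ne N)
  have hD : 0 < Dl N := by unfold Dl; positivity
  obtain ⟨φ, hφ0, hφ1, hφ⟩ : ∃ φ : ℝ, 0 ≤ φ ∧ φ < 2 * Real.pi ∧ e = exp ((φ : ℂ) * I) := by
    have h1 := Complex.norm_mul_exp_arg_mul_I e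
    rw [he] at h1
    simp only [Complex.ofReal_one, one_mul] at h1
    by_cases h0 : 0 ≤ Complex.arg e
    · exact ⟨Complex.arg e, h0, by linarith [Complex.arg_le_pi e], h1.symm⟩
    · refine ⟨Complex.arg e + 2 * Real.pi, by linarith [Complex.neg_pi_lt_arg e],
        by linarith [not_le.mp h0], h1.symm.trans ?_⟩
      push_cast
      rw [add_mul, Complex.exp_add, Complex.exp_two_pi_mul_I, mul_one]
  set i := ⌊φ / Dl N⌋₊ with hi
  have hi1 : (i : ℝ) ≤ φ / Dl N := Nat.floor_le (by positivity)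
  have hi2 : φ / Dl N < i + 1 := Nat.lt_floor_add_one _
  have hiN : i < N := by
    have h1 : φ / Dl N < N := by
      rw [div_lt_iff₀ hD, Dl]
      field_simp
      linarith
    have : (i : ℝ) < N := lt_of_le_of_lt hi1 h1
    exact_mod_cast this
  refine ⟨(i : ZMod N), ?_⟩
  rw [nrm_eq, ZMod.val_natCast_of_lt hiN, hφ]
  have h2 : exp (((i * Dl N : ℝ) : ℂ) * I) - exp ((φ : ℂ) * I) =
      exp ((φ : ℂ) * I) * (exp (I * ((i * Dl N - φ : ℝ) : ℂ)) - 1) := by
    rw [mul_sub, ← Complex.exp_add, mul_one]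
    congr 2
    push_cast
    ring
  rw [h2, norm_mul, Complex.norm_exp_ofReal_mul_I, one_mul]
  refine Real.norm_exp_I_mul_ofReal_sub_one_le.trans ?_
  rw [Real.norm_eq_abs, abs_le]
  have h3 : (i : ℝ) * Dl N ≤ φ := by
    rwa [le_div_iff₀ hD] at hi1
  have h4 : φ < (i + 1) * Dl N := by
    rwa [div_lt_iff₀ hD] at hi2
  constructor <;> nlinarith

lemma re_sub_bound {e n : ℂ} {d : ℝ} (hd : ‖n - e‖ ≤ d) (w : ℂ) :
    |(conj n * w).re - (conj e * w).re| ≤ d * ‖w‖ := by
  have h1 : (conj n * w).re - (conj e * w).re = (conj (n - e) * w).re := by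
    rw [map_sub, sub_mul, Complex.sub_re]
  rw [h1]
  refine (Complex.abs_re_le_norm _).trans ?_
  rw [norm_mul, Complex.norm_conj]
  gcongr

/-- a point of the polygon is close to the convex set -/
lemma closeness (hK : K.Nonempty) (hconv : Convex ℝ K) {M : ℝ} (hM : ∀ z ∈ K, ‖z‖ ≤ M)
    (hM0 : 0 ≤ M) (hr : 0 ≤ r) {ρ : ℝ} (hρ : 0 < ρ) (hD1 : Dl N ≤ 1 / 2)
    (hD2 : r + Dl N * (3 * M + 2 * r) ≤ ρ / 2) {z : ℂ}
    (hz : ∀ j : ZMod N, (conj (nrm j) * z).re ≤ sup K (nrm j) + r) :
    ∃ w ∈ K, ‖z - w‖ ≤ ρ := by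
  have hD0 : 0 ≤ Dl N := by unfold Dl; positivity
  -- size of z
  have hzn : ‖z‖ ≤ 2 * (M + r) := by
    by_cases h0 : z = 0
    · rw [h0, norm_zero]; nlinarith
    · have hzpos : 0 < ‖z‖ := norm_pos_iff.mpr h0
      set e : ℂ := z / (‖z‖ : ℂ) with he
      have hne : (‖z‖ : ℂ) ≠ 0 := by exact_mod_cast hzpos.ne'
      have he1 : ‖e‖ = 1 := by
        rw [he, norm_div, Complex.norm_real, norm_norm, div_self hzpos.ne']
      obtain ⟨j, hj⟩ := exists_near (N := N) e he1
      have h1 := re_sub_bound hj z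
      have h2 : (conj e * z).re = ‖z‖ := by
        have : conj e * z = (‖z‖ : ℂ) := by
          rw [he, map_div₀, Complex.conj_ofReal, div_mul_eq_mul_div, mul_comm, Complex.mul_conj,
            Complex.normSq_eq_norm_sq]
          push_cast
          field_simp
        rw [this]; simp
      have h3 := hz j
      have h4 := sup_nrm_le hK hM j
      have h5 := (abs_le.mp h1).1
      nlinarith [norm_nonneg z]
  -- nearest point
  have hCne : (closure K).Nonempty := hK.closure
  have hCconv : Convex ℝ (closure K) := hconv.closure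
  obtain ⟨y, hy, hyz⟩ := exists_norm_eq_iInf_of_complete_convex hCne
    isClosed_closure.isComplete hCconv z
  have hob := (norm_eq_iInf_iff_real_inner_le_zero hCconv hy).mp hyz
  have hd : ‖z - y‖ ≤ ρ / 2 := by
    by_cases h0 : z - y = 0
    · rw [h0, norm_zero]; linarith
    · have hdpos : 0 < ‖z - y‖ := norm_pos_iff.mpr h0
      set d := ‖z - y‖ with hd
      have hne : (d : ℂ) ≠ 0 := by exact_mod_cast hdpos.ne'
      set e : ℂ := (z - y) / (d : ℂ) with he
      have he1 : ‖e‖ = 1 := by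
        rw [he, norm_div, Complex.norm_real, Real.norm_of_nonneg hdpos.le]
        exact div_self hdpos.ne'
      have hzy : z - y = (d : ℂ) * e := by
        rw [he]; field_simp
      obtain ⟨j, hj⟩ := exists_near (N := N) e he1
      have h1 : ∀ w ∈ K, (conj e * w).re ≤ (conj e * y).re := by
        intro w hw
        have h2 := hob w (subset_closure hw)
        rw [Complex.inner, hzy, map_mul, Complex.conj_ofReal] at h2
        have h3 : ((w - y) * ((d : ℂ) * conj e)).re = d * ((conj e * w).re - (conj e * y).re) := by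
          have : (w - y) * ((d : ℂ) * conj e) = (d : ℂ) * (conj e * w - conj e * y) := by ring
          rw [this, Complex.mul_re]
          simp
        rw [h3] at h2
        have h4 : (conj e * w).re - (conj e * y).re ≤ 0 := by
          by_contra hc
          have := mul_pos hdpos (not_le.mp hc)
          linarith
        linarith
      have h2 : sup K (nrm j) ≤ (conj e * y).re + Dl N * M := by
        apply sup_le_of hK
        intro w hw
        have h3 := (abs_le.mp (re_sub_bound hj w)).2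
        have h4 := h1 w hw
        have h5 : Dl N * ‖w‖ ≤ Dl N * M := by
          gcongr
          exact hM w hw
        linarith
      have h3 := (abs_le.mp (re_sub_bound hj z)).1
      have h4 := hz j
      have h5 : d = (conj e * z).re - (conj e * y).re := by
        have h6 : conj e * (z - y) = (d : ℂ) := by
          rw [hzy, mul_left_comm, mul_comm (conj e), Complex.mul_conj, Complex.normSq_eq_norm_sq,
            he1]
          simp
        have h7 := congrArg Complex.re h6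
        rw [mul_sub, Complex.sub_re] at h7
        simpa using h7.symm
      have h6 : Dl N * ‖z‖ ≤ Dl N * (2 * (M + r)) := by gcongr
      nlinarith
  obtain ⟨w, hw, hyw⟩ := Metric.mem_closure_iff.mp hy (ρ / 2) (by linarith)
  refine ⟨w, hw, ?_⟩
  rw [dist_eq_norm] at hyw
  calc ‖z - w‖ = ‖(z - y) + (y - w)‖ := by rw [sub_add_sub_cancel]
    _ ≤ ‖z - y‖ + ‖y - w‖ := norm_add_le _ _
    _ ≤ ρ := by linarith

end Poly

section Main

variable {H : Type*} [NormedAddCommGroup H] [InnerProductSpace ℂ H]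

lemma numRange_nonempty [Nontrivial H] (A : H →L[ℂ] H) : (numRange A).Nonempty := by
  obtain ⟨x, hx⟩ := exists_ne (0 : H)
  have hn : ‖x‖ ≠ 0 := norm_ne_zero_iff.mpr hx
  refine ⟨_, ((‖x‖⁻¹ : ℝ) : ℂ) • x, ?_, rfl⟩
  rw [norm_smul, Complex.norm_real, norm_inv, norm_norm, inv_mul_cancel₀ hn]

lemma numRange_bound (A : H →L[ℂ] H) : ∀ z ∈ numRange A, ‖z‖ ≤ ‖A‖ := by
  rintro _ ⟨x, hx, rfl⟩
  calc ‖⟪x, A x⟫_ℂ‖ ≤ ‖x‖ * ‖A x‖ := norm_inner_le_norm _ _
    _ ≤ ‖x‖ * (‖A‖ * ‖x‖) := by gcongr; exact A.le_opNorm x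
    _ = ‖A‖ := by rw [hx]; ring

end Main

end Build

/-- A polygon (with a slightly smaller parallel copy) around the numerical range and within `ρ`
of it. -/
theorem exists_pgon {H : Type*} [NormedAddCommGroup H] [InnerProductSpace ℂ H] [CompleteSpace H]
    [Nontrivial H] (A : H →L[ℂ] H) {ρ : ℝ} (hρ : 0 < ρ) :
    ∃ (N : ℕ) (_ : NeZero N) (P P₁ : Pgon N) (m d : ℝ), 0 < m ∧ 0 < d ∧
      (∀ j z, P₁.dl j z = P.dl j z - m) ∧ P.Margin A d ∧ P₁.Margin A d ∧
      (∀ z ∈ P.Q, ∃ x : H, ‖x‖ = 1 ∧ ‖z - ⟪x, A x⟫_ℂ‖ ≤ ρ) := by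
  open Build in
  have hKne := numRange_nonempty A
  have hKb := numRange_bound A
  have hconv := convex_numRange A
  set M := ‖A‖ with hMdef
  have hM0 : 0 ≤ M := norm_nonneg _
  set m := ρ / 16 with hm
  have hm0 : 0 < m := by positivity
  set r := 2 * m with hr
  have hr0 : 0 < r := by positivity
  have hpi := Real.pi_pos
  obtain ⟨N0, hN0⟩ := exists_nat_ge (2 * Real.pi * max 4 (4 * (3 * M + 2 * r) / ρ))
  let N := N0 + 13
  have hNZ : NeZero N := ⟨by simp [N]⟩
  have hN5 : 5 ≤ N := by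
    show 5 ≤ N0 + 13
    omega
  have hNr : (N0 : ℝ) + 13 = N := by simp [N]
  have hNpos : (0 : ℝ) < N := by rw [← hNr]; positivity
  have hN1 : 2 * Real.pi * max 4 (4 * (3 * M + 2 * r) / ρ) ≤ N := by
    rw [← hNr]; linarith
  have hDN : Dl N * (N : ℝ) = 2 * Real.pi := by
    rw [Dl]; field_simp
  have hD0 : 0 < Dl N := by unfold Dl; positivity
  have hD1 : Dl N ≤ 1 / 2 := by
    have h1 : 2 * Real.pi * 4 ≤ N :=
      le_trans (by gcongr; exact le_max_left _ _) hN1
    unfold Dl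
    rw [div_le_iff₀ hNpos]
    linarith
  have hD2 : Dl N * (3 * M + 2 * r) ≤ ρ / 4 := by
    have h1 : 2 * Real.pi * (4 * (3 * M + 2 * r) / ρ) ≤ N :=
      le_trans (by gcongr; exact le_max_right _ _) hN1
    have h2 : 2 * Real.pi * (4 * (3 * M + 2 * r)) ≤ N * ρ := by
      have : 2 * Real.pi * (4 * (3 * M + 2 * r) / ρ) = 2 * Real.pi * (4 * (3 * M + 2 * r)) / ρ := by
        ring
      rw [this, div_le_iff₀ hρ] at h1
      exact h1
    unfold Dl
    rw [div_mul_eq_mul_div, div_le_iff₀ hNpos]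
    linarith
  refine ⟨N, hNZ, mk hN5 hKne hKb hr0, mk hN5 hKne hKb hm0, m, m, hm0, hm0, ?_, ?_, ?_, ?_⟩
  · intro j z
    rw [mk_dl, mk_dl]
    rw [hr]; ring
  · intro j x hx
    rw [mk_dl]
    have h1 := le_sup hKb (nrm j) (⟨x, hx, rfl⟩ : ⟪x, A x⟫_ℂ ∈ numRange A)
    rw [hr]
    linarith
  · intro j x hx
    rw [mk_dl]
    have h1 := le_sup hKb (nrm j) (⟨x, hx, rfl⟩ : ⟪x, A x⟫_ℂ ∈ numRange A)
    linarith
  · intro z hz
    have hz' : ∀ j : ZMod N, (conj (nrm j) * z).re ≤ sup (numRange A) (nrm j) + r := by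
      intro j
      have := hz j
      rw [mk_dl] at this
      linarith
    have h2 : r + Dl N * (3 * M + 2 * r) ≤ ρ / 2 := by
      rw [hr, hm] at hD2 ⊢
      linarith
    obtain ⟨w, ⟨x, hx, rfl⟩, hw⟩ := closeness hKne hconv hKb hM0 hr0.le hρ hD1 h2 hz'
    exact ⟨x, hx, hw⟩

end Vale.Agent.Lib.P123
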