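import Vale.Agent.Lib.P123.Defs

/-!
The Toeplitz-Hausdorff theorem: the numerical range of a bounded operator is convex.
-/

open Complex
open scoped ComplexConjugate InnerProductSpace

namespace Vale.Agent.Lib.P123
namespace Build

variable {H : Type*} [NormedAddCommGroup H] [InnerProductSpace ℂ H]

/-- the numerical range -/
def numRange (A : H →L[ℂ] H) : Set ℂ := {z | ∃ x : H, ‖x‖ = 1 ∧ z = ⟪x, A x⟫_ℂ}

lemma th_choose (p q : ℂ) : ∃ w : ℂ, ‖w‖ = 1 ∧ (w * p + conj w * q).im = 0 := by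
  by_cases hd : p - conj q = 0
  · refine ⟨1, by simp, ?_⟩
    have hp : p = conj q := sub_eq_zero.mp hd
    simp [hp]
  · have hn : (‖p - conj q‖ : ℂ) ≠ 0 := by
      simpa using hd
    refine ⟨conj (p - conj q) / (‖p - conj q‖ : ℂ), ?_, ?_⟩
    · rw [norm_div, Complex.norm_conj, Complex.norm_real, norm_norm]
      exact div_self (by simpa using hd)
    · set w := conj (p - conj q) / (‖p - conj q‖ : ℂ) with hw
      have h1 : w * (p - conj q) = (‖p - conj q‖ : ℂ) := by
        rw [hw, div_mul_eq_mul_div, mul_comm, Complex.mul_conj, Complex.normSq_eq_norm_sq]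
        push_cast
        field_simp
      have h2 : (w * (p - conj q)).im = 0 := by
        rw [h1]; simp
      have h3 : (conj w * q).im = -(w * conj q).im := by
        have : conj w * q = conj (w * conj q) := by simp
        rw [this, Complex.conj_im]
      have h4 : (w * p).im - (w * conj q).im = 0 := by
        have := h2
        rw [mul_sub, Complex.sub_im] at this
        exact this
      rw [Complex.add_im, h3]
      linarith

lemma th_core (B : H →L[ℂ] H) {x y : H} (hx : ‖x‖ = 1) (hy : ‖y‖ = 1)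
    (h0 : ⟪x, B x⟫_ℂ = 0) (h1 : ⟪y, B y⟫_ℂ = 1) {t : ℝ} (ht0 : 0 ≤ t) (ht1 : t ≤ 1) :
    ∃ z : H, ‖z‖ = 1 ∧ ⟪z, B z⟫_ℂ = (t : ℂ) := by
  classical
  obtain ⟨w, hw1, hw2⟩ := th_choose (⟪x, B y⟫_ℂ) (⟪y, B x⟫_ℂ)
  set p := ⟪x, B y⟫_ℂ with hp
  set q := ⟪y, B x⟫_ℂ with hq
  have hww : conj w * w = 1 := by
    rw [mul_comm, Complex.mul_conj, Complex.normSq_eq_norm_sq, hw1]; simp
  let z : ℝ → H := fun s => ((1 - s : ℝ) : ℂ) • x + ((s : ℂ) * w) • y
  have hval : ∀ s : ℝ, ⟪z s, B (z s)⟫_ℂ =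
      (((1 - s) * s : ℝ) : ℂ) * (w * p + conj w * q) + ((s ^ 2 : ℝ) : ℂ) := by
    intro s
    simp only [z, map_add, map_smul, inner_add_left, inner_add_right, inner_smul_left,
      inner_smul_right, h0, h1, ← hp, ← hq, map_mul, Complex.conj_ofReal]
    push_cast
    linear_combination (s : ℂ) ^ 2 * hww
  have him : ∀ s : ℝ, (⟪z s, B (z s)⟫_ℂ).im = 0 := by
    intro s
    rw [hval s, Complex.add_im, Complex.mul_im, Complex.ofReal_im, Complex.ofReal_im,
      Complex.ofReal_re, hw2]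
    ring
  have hreal : ∀ s : ℝ, ⟪z s, B (z s)⟫_ℂ = ((⟪z s, B (z s)⟫_ℂ).re : ℂ) := by
    intro s
    apply Complex.ext <;> simp [him s]
  have hne : ∀ s : ℝ, z s ≠ 0 := by
    intro s hs
    by_cases hs1 : (1 - s : ℝ) = 0
    · have hs' : s = 1 := by linarith
      subst hs'
      have : w • y = 0 := by
        have := hs
        simpa [z] using this
      have hw0 : w ≠ 0 := by
        intro h; rw [h] at hw1; simp at hw1
      rcases smul_eq_zero.mp this with h | h
      · exact hw0 h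
      · rw [h] at hy; simp at hy
    · have hc : ((1 - s : ℝ) : ℂ) ≠ 0 := by exact_mod_cast hs1
      set c : ℂ := -(((1 - s : ℝ) : ℂ)⁻¹ * ((s : ℂ) * w)) with hcdef
      have hxy : x = c • y := by
        have h2 : ((1 - s : ℝ) : ℂ) • x = -(((s : ℂ) * w) • y) := eq_neg_of_add_eq_zero_left hs
        calc x = ((1 - s : ℝ) : ℂ)⁻¹ • (((1 - s : ℝ) : ℂ) • x) := by
              rw [smul_smul, inv_mul_cancel₀ hc, one_smul]
          _ = c • y := by
              rw [h2, smul_neg, smul_smul, hcdef, neg_smul]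
      have h3 : conj c * c = 0 := by
        have : ⟪x, B x⟫_ℂ = conj c * c := by
          rw [hxy, map_smul, inner_smul_left, inner_smul_right, h1, mul_one]
        rw [← this, h0]
      have h4 : c = 0 := by
        rcases mul_eq_zero.mp h3 with h | h
        · simpa using h
        · exact h
      rw [h4, zero_smul] at hxy
      rw [hxy] at hx; simp at hx
  have hcont : Continuous z := by
    simp only [z]
    fun_prop
  let G : ℝ → ℝ := fun s => (⟪z s, B (z s)⟫_ℂ).re / ‖z s‖ ^ 2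
  have hGc : ContinuousOn G (Set.Icc 0 1) := by
    apply ContinuousOn.div
    · apply Continuous.continuousOn
      exact Complex.continuous_re.comp (Continuous.inner hcont (B.continuous.comp hcont))
    · exact (hcont.norm.pow 2).continuousOn
    · intro s _
      exact pow_ne_zero 2 (norm_ne_zero_iff.mpr (hne s))
  have hz0 : z 0 = x := by simp [z]
  have hz1 : z 1 = w • y := by simp [z]
  have hG0 : G 0 = 0 := by
    simp only [G, hz0, h0]; simp
  have hG1 : G 1 = 1 := by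
    simp only [G, hz1, norm_smul, hw1, hy]
    rw [map_smul, inner_smul_left, inner_smul_right, h1, mul_one, hww]
    simp
  have hiv := intermediate_value_Icc (zero_le_one' ℝ) hGc
  have ht : t ∈ Set.Icc (G 0) (G 1) := by rw [hG0, hG1]; exact ⟨ht0, ht1⟩
  obtain ⟨s, -, hs⟩ := hiv ht
  have hr : ‖z s‖ ≠ 0 := norm_ne_zero_iff.mpr (hne s)
  refine ⟨((‖z s‖⁻¹ : ℝ) : ℂ) • z s, ?_, ?_⟩
  · rw [norm_smul, Complex.norm_real, norm_inv, norm_norm]
    exact inv_mul_cancel₀ hr
  · rw [map_smul, inner_smul_left, inner_smul_right, hreal s]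
    simp only [Complex.conj_ofReal]
    have : t = (⟪z s, B (z s)⟫_ℂ).re / ‖z s‖ ^ 2 := hs.symm
    rw [this]
    push_cast
    field_simp

/-- Toeplitz-Hausdorff. -/
theorem convex_numRange (A : H →L[ℂ] H) : Convex ℝ (numRange A) := by
  rw [convex_iff_forall_pos]
  rintro _ ⟨x, hx, rfl⟩ _ ⟨y, hy, rfl⟩ a b ha hb hab
  by_cases hne : ⟪y, A y⟫_ℂ = ⟪x, A x⟫_ℂ
  · refine ⟨x, hx, ?_⟩
    rw [hne, Complex.real_smul, Complex.real_smul, ← add_mul]
    have : ((a : ℂ) + (b : ℂ)) = 1 := by exact_mod_cast hab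
    rw [this, one_mul]
  · set a0 := ⟪x, A x⟫_ℂ with ha0
    set b0 := ⟪y, A y⟫_ℂ with hb0
    have hd : b0 - a0 ≠ 0 := sub_ne_zero.mpr hne
    let B : H →L[ℂ] H := (b0 - a0)⁻¹ • (A - a0 • (1 : H →L[ℂ] H))
    have hB : ∀ u : H, ‖u‖ = 1 → ⟪u, B u⟫_ℂ = (b0 - a0)⁻¹ * (⟪u, A u⟫_ℂ - a0) := by
      intro u hu
      have huu : ⟪u, u⟫_ℂ = 1 := by
        rw [inner_self_eq_norm_sq_to_K, hu]; simp
      simp [B, hu]
    have h0 : ⟪x, B x⟫_ℂ = 0 := by
      rw [hB x hx, ← ha0]; simp
    have h1 : ⟪y, B y⟫_ℂ = 1 := by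
      rw [hB y hy, ← hb0]; exact inv_mul_cancel₀ hd
    obtain ⟨z, hz, hzv⟩ := th_core B hx hy h0 h1 hb.le (by linarith)
    refine ⟨z, hz, ?_⟩
    rw [hB z hz] at hzv
    have hza : ⟪z, A z⟫_ℂ = a0 + (b : ℂ) * (b0 - a0) := by
      have h2 : ⟪z, A z⟫_ℂ - a0 = (b : ℂ) * (b0 - a0) := by
        rw [← hzv, mul_comm (b0 - a0)⁻¹, mul_assoc, inv_mul_cancel₀ hd, mul_one]
      linear_combination h2
    rw [hza, Complex.real_smul, Complex.real_smul]
    have : (a : ℂ) = 1 - (b : ℂ) := by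
      have : ((a : ℂ) + (b : ℂ)) = 1 := by exact_mod_cast hab
      linear_combination this
    rw [this]
    ring

end Build
end Vale.Agent.Lib.P123
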