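import Mathlib

/-!
The abstract extremal inequality behind the absolute improvement of the Crouzeix-Palencia bound.
-/

open scoped ComplexConjugate InnerProductSpace

namespace Vale.Agent.Lib.P123

/-- Abstract data of the functional calculus on the boundary of a polygon. -/
structure CoreData (H : Type*) [NormedAddCommGroup H] [InnerProductSpace ℂ H] where
  X : Set ℂ
  InP : (ℂ → ℂ) → Prop
  S : (ℂ → ℂ) → (H →L[ℂ] H)
  alpha : (ℂ → ℂ) → (ℂ → ℂ)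
  K : ℝ
  good : (ℂ → ℂ) → Prop
  c : ℝ
  c_pos : 0 < c
  c_le : c ≤ 1
  inP_one : InP (fun _ => 1)
  inP_add : ∀ u v, InP u → InP v → InP (fun z => u z + v z)
  inP_mul : ∀ u v, InP u → InP v → InP (fun z => u z * v z)
  inP_const_mul : ∀ (a : ℂ) u, InP u → InP (fun z => a * u z)
  inP_alpha : ∀ u, InP u → InP (alpha u)
  S_add : ∀ u v, InP u → InP v → S (fun z => u z + v z) = S u + S v
  S_const_mul : ∀ (a : ℂ) u, InP u → S (fun z => a * u z) = a • S u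
  S_one : S (fun _ => 1) = 1
  S_mul : ∀ u v, InP u → InP v → S (fun z => u z * v z) = S u * S v
  S_bound : ∀ u C, InP u → (∀ z ∈ X, ‖u z‖ ≤ C) → ‖S u‖ ≤ K * C
  alpha_bound : ∀ u C, InP u → (∀ z ∈ X, ‖u z‖ ≤ C) → ∀ z ∈ X, ‖alpha u z‖ ≤ C
  /-- `‖⟪y, S u x⟫ + ⟪S (alpha u) y, x⟫‖ ≤ 2 ‖u‖` -/
  phi_bound : ∀ u, InP u → (∀ z ∈ X, ‖u z‖ ≤ 1) → ∀ x y : H, ‖x‖ = 1 → ‖y‖ = 1 →
    ‖⟪y, S u x⟫_ℂ + ⟪S (alpha u) y, x⟫_ℂ‖ ≤ 2
  phi_cs : ∀ f h C, InP f → InP h → (∀ z ∈ X, ‖f z‖ ≤ 1) → (∀ z ∈ X, ‖h z‖ ≤ C) →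
    ∀ x y : H, ‖x‖ = 1 → ‖y‖ = 1 → ∀ l : ℝ, 0 < l →
    ‖⟪y, S (fun z => f z * h z) x⟫_ℂ + ⟪S (alpha (fun z => f z * h z)) y, x⟫_ℂ
        - ⟪y, S h y⟫_ℂ - ⟪S (alpha h) y, y⟫_ℂ‖
      ≤ C * (l + (2 - (⟪y, S f x⟫_ℂ + ⟪S (alpha f) y, x⟫_ℂ).re) / l)
  good_inP : ∀ f, good f → InP f
  good_bd : ∀ f, good f → ∀ z ∈ X, ‖f z‖ ≤ 1
  /-- near-extremal elements exist -/
  near : ∀ η > 0, ∃ f, good f ∧ K - η ≤ ‖S f‖
  /-- the pointwise bound of `f * alpha (f h) + alpha h` -/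
  eb : ∀ f, good f → ∀ h C, InP h → (∀ z ∈ X, ‖h z‖ ≤ C) → ∀ z ∈ X,
    ‖f z * alpha (fun w => f w * h w) z + alpha h z‖ ^ 2
      ≤ 2 * C ^ 2 * (1 + f z * alpha f z).re
  /-- the universal inequality -/
  ui : ∀ f, good f → ∀ z ∈ X,
    c ≤ (1 + f z * alpha f z).re + (alpha (fun w => 1 + f w * alpha f w) z).re

namespace CoreData

variable {H : Type*} [NormedAddCommGroup H] [InnerProductSpace ℂ H]

variable (D : CoreData H)

lemma S_comm {u v : ℂ → ℂ} (hu : D.InP u) (hv : D.InP v) : D.S u * D.S v = D.S v * D.S u := by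
  rw [← D.S_mul u v hu hv, ← D.S_mul v u hv hu]
  congr 1
  funext z
  exact mul_comm _ _

lemma S_mul_apply {u v : ℂ → ℂ} (hu : D.InP u) (hv : D.InP v) (w : H) :
    D.S (fun z => u z * v z) w = D.S u (D.S v w) := by
  rw [D.S_mul u v hu hv]
  rfl

lemma S_comm_apply {u v : ℂ → ℂ} (hu : D.InP u) (hv : D.InP v) (w : H) :
    D.S u (D.S v w) = D.S v (D.S u w) := by
  have := D.S_comm hu hv
  calc D.S u (D.S v w) = (D.S u * D.S v) w := rfl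
    _ = (D.S v * D.S u) w := by rw [this]
    _ = _ := rfl

/-- Norm bound of a matrix coefficient. -/
lemma inner_le {u : ℂ → ℂ} {C : ℝ} (hu : D.InP u) (hb : ∀ z ∈ D.X, ‖u z‖ ≤ C) {a b : H}
    (ha : ‖a‖ = 1) (hb' : ‖b‖ = 1) :
    ‖⟪a, D.S u b⟫_ℂ‖ ≤ D.K * C := by
  calc ‖⟪a, D.S u b⟫_ℂ‖ ≤ ‖a‖ * ‖D.S u b‖ := norm_inner_le_norm _ _
    _ ≤ ‖D.S u‖ * ‖b‖ := by
      rw [ha, one_mul]
      exact (D.S u).le_opNorm b
    _ ≤ D.K * C := by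
      rw [hb', mul_one]
      exact D.S_bound u C hu hb

/-- An almost extremal configuration. -/
structure Ext (f : ℂ → ℂ) (x y v : H) (r ι η : ℝ) : Prop where
  good_f : D.good f
  hx : ‖x‖ = 1
  hy : ‖y‖ = 1
  hTx : D.S f x = (r : ℂ) • y
  hr1 : D.K - η ≤ r
  hr2 : r ≤ D.K
  hv : ∀ w : H, ⟪y, D.S f w⟫_ℂ = (D.K : ℂ) * ⟪x, w⟫_ℂ + ⟪v, w⟫_ℂ
  hvn : ‖v‖ ≤ ι
  hη0 : 0 ≤ η
  hηι : η ≤ ι
  hKpos : 2 < D.K

section ExtLemmas

variable {D} {f : ℂ → ℂ} {x y v : H} {r ι η : ℝ}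

lemma Ext.inP (E : D.Ext f x y v r ι η) : D.InP f := D.good_inP f E.good_f

lemma Ext.bd_mul (E : D.Ext f x y v r ι η) {u : ℂ → ℂ} {C : ℝ}
    (hb : ∀ z ∈ D.X, ‖u z‖ ≤ C) : ∀ z ∈ D.X, ‖f z * u z‖ ≤ C := by
  intro z hz
  have hu := hb z hz
  rw [norm_mul]
  calc ‖f z‖ * ‖u z‖ ≤ 1 * ‖u z‖ :=
        mul_le_mul_of_nonneg_right (D.good_bd f E.good_f z hz) (norm_nonneg _)
    _ ≤ C := by rw [one_mul]; exact hu

lemma Ext.ι_nonneg (E : D.Ext f x y v r ι η) : 0 ≤ ι := E.hη0.trans E.hηι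

/-- coefficient with `v` -/
lemma Ext.v_le (E : D.Ext f x y v r ι η) {u : ℂ → ℂ} {C : ℝ} (hu : D.InP u)
    (hb : ∀ z ∈ D.X, ‖u z‖ ≤ C) : ‖⟪v, D.S u x⟫_ℂ‖ ≤ ι * (D.K * C) := by
  have h1 : ‖D.S u x‖ ≤ D.K * C := by
    calc ‖D.S u x‖ ≤ ‖D.S u‖ * ‖x‖ := (D.S u).le_opNorm x
      _ ≤ D.K * C := by
        rw [E.hx, mul_one]
        exact D.S_bound u C hu hb
  calc ‖⟪v, D.S u x⟫_ℂ‖ ≤ ‖v‖ * ‖D.S u x‖ := norm_inner_le_norm _ _
    _ ≤ ι * (D.K * C) := mul_le_mul E.hvn h1 (norm_nonneg _) E.ι_nonneg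

/-- (d) -/
lemma Ext.ld (E : D.Ext f x y v r ι η) {u : ℂ → ℂ} {C : ℝ} (hu : D.InP u)
    (hb : ∀ z ∈ D.X, ‖u z‖ ≤ C) :
    ‖⟪y, D.S (fun z => f z * u z) x⟫_ℂ - (D.K : ℂ) * ⟪x, D.S u x⟫_ℂ‖ ≤ ι * (D.K * C) := by
  rw [D.S_mul_apply E.inP hu, E.hv, add_sub_cancel_left]
  exact E.v_le hu hb

lemma Ext.K_pos (E : D.Ext f x y v r ι η) : 0 < D.K := by
  have := E.hKpos
  linarith

/-- (a) -/
lemma Ext.la (E : D.Ext f x y v r ι η) {u : ℂ → ℂ} {C : ℝ} (hu : D.InP u)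
    (hb : ∀ z ∈ D.X, ‖u z‖ ≤ C) :
    ‖⟪x, D.S u x⟫_ℂ‖ ≤ (1 + ι) * C := by
  have hKpos := E.K_pos
  have h1 := E.ld hu hb
  have h2 : ‖⟪y, D.S (fun z => f z * u z) x⟫_ℂ‖ ≤ D.K * C :=
    D.inner_le (D.inP_mul f u E.inP hu) (E.bd_mul hb) E.hy E.hx
  have h3 : ‖(D.K : ℂ) * ⟪x, D.S u x⟫_ℂ‖ ≤ D.K * C + ι * (D.K * C) := by
    have e : (D.K : ℂ) * ⟪x, D.S u x⟫_ℂ = ⟪y, D.S (fun z => f z * u z) x⟫_ℂ -
        (⟪y, D.S (fun z => f z * u z) x⟫_ℂ - (D.K : ℂ) * ⟪x, D.S u x⟫_ℂ) := by ring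
    rw [e]
    exact (norm_sub_le _ _).trans (add_le_add h2 h1)
  rw [norm_mul, Complex.norm_real, Real.norm_eq_abs, abs_of_pos hKpos] at h3
  have h4 : D.K * ‖⟪x, D.S u x⟫_ℂ‖ ≤ D.K * ((1 + ι) * C) := by
    calc _ ≤ _ := h3
      _ = _ := by ring
  exact le_of_mul_le_mul_left h4 hKpos

/-- (b) -/
lemma Ext.lb (E : D.Ext f x y v r ι η) {u : ℂ → ℂ} {C : ℝ} (hu : D.InP u)
    (hb : ∀ z ∈ D.X, ‖u z‖ ≤ C) (hC : 0 ≤ C) :
    ‖⟪y, D.S u y⟫_ℂ - ⟪x, D.S u x⟫_ℂ‖ ≤ 2 * ι * C := by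
  have hKpos := E.K_pos
  have h0 : (r : ℂ) * ⟪y, D.S u y⟫_ℂ = (D.K : ℂ) * ⟪x, D.S u x⟫_ℂ + ⟪v, D.S u x⟫_ℂ := by
    rw [← E.hv, ← D.S_comm_apply hu E.inP, E.hTx, map_smul, inner_smul_right]
  have hL' : ‖⟪y, D.S u y⟫_ℂ‖ ≤ D.K * C := D.inner_le hu hb E.hy E.hy
  have hV := E.v_le hu hb
  have e : (D.K : ℂ) * (⟪y, D.S u y⟫_ℂ - ⟪x, D.S u x⟫_ℂ) =
      ((D.K - r : ℝ) : ℂ) * ⟪y, D.S u y⟫_ℂ + ⟪v, D.S u x⟫_ℂ := by
    push_cast
    linear_combination h0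
  have h1 : D.K * ‖⟪y, D.S u y⟫_ℂ - ⟪x, D.S u x⟫_ℂ‖ ≤ η * (D.K * C) + ι * (D.K * C) := by
    have h2 : D.K * ‖⟪y, D.S u y⟫_ℂ - ⟪x, D.S u x⟫_ℂ‖ =
        ‖(D.K : ℂ) * (⟪y, D.S u y⟫_ℂ - ⟪x, D.S u x⟫_ℂ)‖ := by
      rw [norm_mul, Complex.norm_real, Real.norm_eq_abs, abs_of_pos hKpos]
    rw [h2, e]
    refine (norm_add_le _ _).trans (add_le_add ?_ hV)
    rw [norm_mul, Complex.norm_real, Real.norm_eq_abs, abs_of_nonneg (by linarith [E.hr2])]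
    exact mul_le_mul (by linarith [E.hr1]) hL' (norm_nonneg _) E.hη0
  have h3 : D.K * ‖⟪y, D.S u y⟫_ℂ - ⟪x, D.S u x⟫_ℂ‖ ≤ D.K * (2 * ι * C) := by
    have : η * (D.K * C) ≤ ι * (D.K * C) :=
      mul_le_mul_of_nonneg_right E.hηι (by positivity)
    nlinarith
  exact le_of_mul_le_mul_left h3 hKpos

/-- (c) -/
lemma Ext.lc (E : D.Ext f x y v r ι η) {u : ℂ → ℂ} {C : ℝ} (hu : D.InP u)
    (hb : ∀ z ∈ D.X, ‖u z‖ ≤ C) (hC : 0 ≤ C) :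
    ‖⟪x, D.S u y⟫_ℂ - ⟪x, D.S (fun z => f z * u z) x⟫_ℂ / (D.K : ℂ)‖ ≤ ι * C := by
  have hKpos := E.K_pos
  have hKc : (D.K : ℂ) ≠ 0 := by exact_mod_cast hKpos.ne'
  have h0 : ⟪x, D.S (fun z => f z * u z) x⟫_ℂ = (r : ℂ) * ⟪x, D.S u y⟫_ℂ := by
    rw [D.S_mul_apply E.inP hu, D.S_comm_apply E.inP hu, E.hTx, map_smul, inner_smul_right]
  have hM : ‖⟪x, D.S u y⟫_ℂ‖ ≤ D.K * C := D.inner_le hu hb E.hx E.hy
  have e : ⟪x, D.S u y⟫_ℂ - ⟪x, D.S (fun z => f z * u z) x⟫_ℂ / (D.K : ℂ) =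
      (((D.K - r) / D.K : ℝ) : ℂ) * ⟪x, D.S u y⟫_ℂ := by
    rw [h0]
    push_cast
    field_simp
  rw [e, norm_mul, Complex.norm_real, Real.norm_eq_abs,
    abs_of_nonneg (div_nonneg (by linarith [E.hr2]) hKpos.le)]
  have h1 : (D.K - r) / D.K ≤ η / D.K :=
    div_le_div_of_nonneg_right (by linarith [E.hr1]) hKpos.le
  calc (D.K - r) / D.K * ‖⟪x, D.S u y⟫_ℂ‖ ≤ η / D.K * (D.K * C) :=
        mul_le_mul h1 hM (norm_nonneg _) (div_nonneg E.hη0 hKpos.le)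
    _ = η * C := by field_simp
    _ ≤ ι * C := mul_le_mul_of_nonneg_right E.hηι hC

lemma Ext.L_one (E : D.Ext f x y v r ι η) : ⟪x, x⟫_ℂ = 1 := by
  rw [inner_self_eq_norm_sq_to_K, E.hx]
  simp

/-- (e) positivity -/
lemma Ext.le_pos (E : D.Ext f x y v r ι η) {F : ℂ → ℂ} {B t : ℝ} (hF : D.InP F)
    (hre : ∀ z ∈ D.X, 0 ≤ (F z).re) (hbd : ∀ z ∈ D.X, ‖F z‖ ≤ B) (ht : 0 < t) :
    -(ι / t) - t * B ^ 2 * (1 + ι) / 2 ≤ (⟪x, D.S F x⟫_ℂ).re := by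
  have hι := E.ι_nonneg
  set C : ℝ := 1 + t ^ 2 * B ^ 2 / 2 with hCdef
  have hC : 0 ≤ C := by positivity
  let u : ℂ → ℂ := fun z => 1 + ((-t : ℝ) : ℂ) * F z
  have hu : D.InP u := D.inP_add _ _ D.inP_one (D.inP_const_mul _ _ hF)
  have hub : ∀ z ∈ D.X, ‖u z‖ ≤ C := by
    intro z hz
    have h1 : ‖u z‖ ^ 2 ≤ C ^ 2 := by
      have hnorm : ‖u z‖ ^ 2 = 1 - 2 * t * (F z).re + t ^ 2 * ‖F z‖ ^ 2 := by
        rw [← Complex.normSq_eq_norm_sq, ← Complex.normSq_eq_norm_sq]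
        simp only [u, Complex.normSq_apply, Complex.add_re, Complex.one_re, Complex.mul_re,
          Complex.ofReal_re, Complex.ofReal_im, Complex.add_im, Complex.one_im, Complex.mul_im]
        ring
      have h2 := hre z hz
      have h3 := hbd z hz
      have h4 : ‖F z‖ ^ 2 ≤ B ^ 2 := pow_le_pow_left₀ (norm_nonneg _) h3 2
      have h5 : t ^ 2 * ‖F z‖ ^ 2 ≤ t ^ 2 * B ^ 2 := mul_le_mul_of_nonneg_left h4 (by positivity)
      have h6 : 0 ≤ t * (F z).re := mul_nonneg ht.le h2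
      rw [hnorm, hCdef]
      nlinarith [sq_nonneg (t ^ 2 * B ^ 2)]
    exact (abs_le_of_sq_le_sq' h1 hC).2
  have hL := E.la hu hub
  have hS : D.S u = 1 + ((-t : ℝ) : ℂ) • D.S F := by
    have h1 := D.S_add (fun _ => 1) (fun z => ((-t : ℝ) : ℂ) * F z) D.inP_one
      (D.inP_const_mul _ _ hF)
    rw [show u = fun z => (1 : ℂ) + ((-t : ℝ) : ℂ) * F z from rfl, h1, D.S_one,
      D.S_const_mul _ _ hF]
  have hval : ⟪x, D.S u x⟫_ℂ = 1 - (t : ℂ) * ⟪x, D.S F x⟫_ℂ := by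
    rw [hS]
    simp only [_root_.add_apply, one_apply_eq_self,
      _root_.smul_apply, inner_add_right, inner_smul_right, E.L_one]
    push_cast
    ring
  have hre2 : 1 - t * (⟪x, D.S F x⟫_ℂ).re ≤ (1 + ι) * C := by
    refine le_trans ?_ hL
    refine le_trans (le_of_eq ?_) (Complex.re_le_norm _)
    rw [hval]
    simp
  have h7 : -ι - t ^ 2 * B ^ 2 * (1 + ι) / 2 ≤ t * (⟪x, D.S F x⟫_ℂ).re := by
    rw [hCdef] at hre2
    nlinarith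
  have e : -(ι / t) - t * B ^ 2 * (1 + ι) / 2 =
      (-ι - t ^ 2 * B ^ 2 * (1 + ι) / 2) / t := by
    field_simp
  rw [e, div_le_iff₀ ht]
  linarith

end ExtLemmas

lemma exists_ext [CompleteSpace H] (hK : 2 < D.K) {ι : ℝ} (hι : 0 < ι) (hι1 : ι ≤ 1) :
    ∃ f x y v r η, D.Ext f x y v r ι η := by
  have hKpos : 0 < D.K := by linarith
  set η : ℝ := ι ^ 2 / (2 * D.K) with hη
  have hη0 : 0 < η := by positivity
  have hηι : η ≤ ι := by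
    rw [hη, div_le_iff₀ (by positivity)]
    nlinarith
  obtain ⟨f, hgood, hnear⟩ := D.near (η / 2) (by positivity)
  have hTle : ‖D.S f‖ ≤ D.K := by
    simpa using D.S_bound f 1 (D.good_inP f hgood) (D.good_bd f hgood)
  have hlt : D.K - η < ‖D.S f‖ := by linarith
  obtain ⟨x0, hx0, hx0T⟩ := (D.S f).exists_lt_apply_of_lt_opNorm hlt
  have hKη : 0 < D.K - η := by linarith
  have hx0ne : x0 ≠ 0 := by
    rintro rfl
    simp only [map_zero, norm_zero] at hx0T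
    linarith
  have hx0pos : 0 < ‖x0‖ := norm_pos_iff.mpr hx0ne
  set x : H := ((‖x0‖⁻¹ : ℝ) : ℂ) • x0 with hx
  have hxn : ‖x‖ = 1 := by
    rw [hx, norm_smul, Complex.norm_real, Real.norm_eq_abs, abs_of_pos (by positivity)]
    field_simp
  have hTxn : D.K - η < ‖D.S f x‖ := by
    rw [hx, map_smul, norm_smul, Complex.norm_real, Real.norm_eq_abs, abs_of_pos (by positivity)]
    have h1 : 1 ≤ ‖x0‖⁻¹ := (one_le_inv₀ hx0pos).mpr hx0.le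
    have h2 : 0 ≤ ‖D.S f x0‖ := norm_nonneg _
    nlinarith
  set r : ℝ := ‖D.S f x‖ with hr
  have hrpos : 0 < r := by linarith
  have hr2 : r ≤ D.K := by
    calc r ≤ ‖D.S f‖ * ‖x‖ := (D.S f).le_opNorm x
      _ ≤ D.K := by rw [hxn, mul_one]; exact hTle
  set y : H := ((r⁻¹ : ℝ) : ℂ) • D.S f x with hy
  have hyn : ‖y‖ = 1 := by
    rw [hy, norm_smul, Complex.norm_real, Real.norm_eq_abs, abs_of_pos (by positivity), ← hr]
    field_simp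
  have hTxy : D.S f x = (r : ℂ) • y := by
    rw [hy, smul_smul, ← Complex.ofReal_mul, mul_inv_cancel₀ hrpos.ne']
    simp
  set v : H := ContinuousLinearMap.adjoint (D.S f) y - (D.K : ℂ) • x with hv
  have hvw : ∀ w : H, ⟪y, D.S f w⟫_ℂ = (D.K : ℂ) * ⟪x, w⟫_ℂ + ⟪v, w⟫_ℂ := by
    intro w
    have e1 : ⟪v, w⟫_ℂ = ⟪y, D.S f w⟫_ℂ - (D.K : ℂ) * ⟪x, w⟫_ℂ := by
      rw [hv, inner_sub_left, ContinuousLinearMap.adjoint_inner_left, inner_smul_left x w,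
        Complex.conj_ofReal]
    rw [e1]
    ring
  have hyTx : ⟪y, D.S f x⟫_ℂ = (r : ℂ) := by
    rw [hTxy, inner_smul_right, inner_self_eq_norm_sq_to_K, hyn]
    simp
  have hvn : ‖v‖ ≤ ι := by
    have h1 : ‖ContinuousLinearMap.adjoint (D.S f) y‖ ≤ D.K := by
      calc _ ≤ ‖ContinuousLinearMap.adjoint (D.S f)‖ * ‖y‖ :=
            (ContinuousLinearMap.adjoint (D.S f)).le_opNorm y
        _ ≤ D.K := by
          rw [hyn, mul_one, LinearIsometryEquiv.norm_map]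
          exact hTle
    have h2 : ‖v‖ ^ 2 = ‖ContinuousLinearMap.adjoint (D.S f) y‖ ^ 2 - 2 * (D.K * r) + D.K ^ 2 := by
      rw [hv, @norm_sub_sq ℂ, inner_smul_right, ContinuousLinearMap.adjoint_inner_left, hyTx,
        norm_smul, hxn, Complex.norm_real, Real.norm_eq_abs, abs_of_pos hKpos]
      simp only [RCLike.re_to_complex, Complex.mul_re, Complex.ofReal_re, Complex.ofReal_im,
        mul_zero, sub_zero, mul_one]
    have h3 : ‖v‖ ^ 2 ≤ ι ^ 2 := by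
      have h4 : ‖ContinuousLinearMap.adjoint (D.S f) y‖ ^ 2 ≤ D.K ^ 2 :=
        pow_le_pow_left₀ (norm_nonneg _) h1 2
      have h5 : 2 * D.K * η = ι ^ 2 := by
        rw [hη]
        field_simp
      have h6 : D.K * (D.K - r) ≤ D.K * η := mul_le_mul_of_nonneg_left (by linarith) hKpos.le
      rw [h2]
      nlinarith
    exact (abs_le_of_sq_le_sq' h3 hι.le).2
  exact ⟨f, x, y, v, r, η, hgood, hxn, hyn, hTxy, by linarith, hr2, hvw, hvn, hη0.le, hηι, hK⟩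

lemma inner_re_comm (a b : H) : (⟪a, b⟫_ℂ).re = (⟪b, a⟫_ℂ).re := inner_re_symm (𝕜 := ℂ) a b

/-- The function `P0 = 1 + f alpha f`. -/
noncomputable def Ph (f : ℂ → ℂ) : ℂ → ℂ := fun z => 1 + f z * D.alpha f z

section Main

variable {D} {f : ℂ → ℂ} {x y v : H} {r ι η : ℝ}

lemma Ext.fg_inP (E : D.Ext f x y v r ι η) : D.InP (fun z => f z * D.alpha f z) :=
  D.inP_mul f _ E.inP (D.inP_alpha f E.inP)

lemma Ext.fg_bd (E : D.Ext f x y v r ι η) : ∀ z ∈ D.X, ‖f z * D.alpha f z‖ ≤ 1 :=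
  E.bd_mul (D.alpha_bound f 1 E.inP (D.good_bd f E.good_f))

lemma Ext.ph_inP (E : D.Ext f x y v r ι η) : D.InP (D.Ph f) :=
  D.inP_add _ _ D.inP_one E.fg_inP

lemma Ext.ph_bd (E : D.Ext f x y v r ι η) : ∀ z ∈ D.X, ‖D.Ph f z‖ ≤ 2 := by
  intro z hz
  calc ‖D.Ph f z‖ ≤ ‖(1 : ℂ)‖ + ‖f z * D.alpha f z‖ := norm_add_le _ _
    _ ≤ 2 := by
      rw [norm_one]
      linarith [E.fg_bd z hz]

lemma Ext.ph_re (E : D.Ext f x y v r ι η) : ∀ z ∈ D.X, 0 ≤ (D.Ph f z).re := by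
  intro z hz
  have h1 : |(f z * D.alpha f z).re| ≤ ‖f z * D.alpha f z‖ := Complex.abs_re_le_norm _
  have h3 := (abs_le.mp (h1.trans (E.fg_bd z hz))).1
  simp only [Ph, Complex.add_re, Complex.one_re]
  linarith

lemma Ext.ph_sq (E : D.Ext f x y v r ι η) {z : ℂ} (hz : z ∈ D.X) :
    ‖D.Ph f z‖ ^ 2 ≤ 2 * (D.Ph f z).re := by
  have h1 := E.fg_bd z hz
  set a : ℂ := f z * D.alpha f z with ha
  have h2 : ‖D.Ph f z‖ ^ 2 = 1 + 2 * a.re + ‖a‖ ^ 2 := by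
    rw [← Complex.normSq_eq_norm_sq, ← Complex.normSq_eq_norm_sq]
    simp only [Ph, ← ha, Complex.normSq_apply, Complex.add_re, Complex.one_re, Complex.add_im,
      Complex.one_im]
    ring
  have h3 : ‖a‖ ^ 2 ≤ 1 := by
    have := pow_le_pow_left₀ (norm_nonneg _) h1 2
    simpa using this
  have h4 : (D.Ph f z).re = 1 + a.re := by
    simp [Ph, ha]
  rw [h2, h4]
  linarith

lemma Ext.L_ph (E : D.Ext f x y v r ι η) :
    ⟪x, D.S (D.Ph f) x⟫_ℂ = 1 + ⟪x, D.S (fun z => f z * D.alpha f z) x⟫_ℂ := by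
  have h1 : D.Ph f = fun z => (fun _ => (1 : ℂ)) z + (fun z => f z * D.alpha f z) z := rfl
  rw [h1, D.S_add _ _ D.inP_one E.fg_inP, D.S_one]
  simp only [_root_.add_apply, one_apply_eq_self, inner_add_right, E.L_one]

lemma Ext.y_y (E : D.Ext f x y v r ι η) : ⟪y, y⟫_ℂ = 1 := by
  rw [inner_self_eq_norm_sq_to_K, E.hy]
  simp

/-- First use of the bound on the functional `phi`. -/
lemma Ext.phi1 (E : D.Ext f x y v r ι η) :
    0 ≤ 2 - (⟪y, D.S f x⟫_ℂ + ⟪D.S (D.alpha f) y, x⟫_ℂ).re ∧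
      2 - (⟪y, D.S f x⟫_ℂ + ⟪D.S (D.alpha f) y, x⟫_ℂ).re ≤
        2 - D.K + η + ι - ((⟪x, D.S (D.Ph f) x⟫_ℂ).re - 1) / D.K := by
  have hfb := D.good_bd f E.good_f
  constructor
  · have h1 := D.phi_bound f E.inP hfb x y E.hx E.hy
    have h2 := (Complex.re_le_norm (⟪y, D.S f x⟫_ℂ + ⟪D.S (D.alpha f) y, x⟫_ℂ)).trans h1
    linarith
  · have hyTx : ⟪y, D.S f x⟫_ℂ = (r : ℂ) := by
      rw [E.hTx, inner_smul_right, E.y_y, mul_one]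
    have h1 := E.lc (D.inP_alpha f E.inP) (D.alpha_bound f 1 E.inP hfb) zero_le_one
    rw [mul_one] at h1
    have h2 := (Complex.abs_re_le_norm _).trans h1
    rw [Complex.sub_re, Complex.div_ofReal_re] at h2
    have h3 := (abs_le.mp h2).1
    have h4 := inner_re_comm (D.S (D.alpha f) y) x
    have h5 : (⟪x, D.S (D.Ph f) x⟫_ℂ).re - 1 =
        (⟪x, D.S (fun z => f z * D.alpha f z) x⟫_ℂ).re := by
      rw [E.L_ph]
      simp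
    rw [h5, Complex.add_re, hyTx, Complex.ofReal_re, h4]
    linarith [E.hr1]

/-- Positivity for `P0`. -/
lemma Ext.omega_lower (E : D.Ext f x y v r ι η) {t : ℝ} (ht : 0 < t) :
    -(ι / t) - t * 2 ^ 2 * (1 + ι) / 2 ≤ (⟪x, D.S (D.Ph f) x⟫_ℂ).re :=
  E.le_pos E.ph_inP E.ph_re E.ph_bd ht

/-- The function `E = f alpha (f P0) + alpha P0`. -/
noncomputable def Eh (D : CoreData H) (f : ℂ → ℂ) : ℂ → ℂ :=
  fun z => f z * D.alpha (fun w => f w * D.Ph f w) z + D.alpha (D.Ph f) z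

lemma Ext.fh_inP (E : D.Ext f x y v r ι η) : D.InP (fun w => f w * D.Ph f w) :=
  D.inP_mul f _ E.inP E.ph_inP

lemma Ext.fh_bd (E : D.Ext f x y v r ι η) : ∀ z ∈ D.X, ‖f z * D.Ph f z‖ ≤ 2 :=
  E.bd_mul E.ph_bd

lemma Ext.u2_inP (E : D.Ext f x y v r ι η) : D.InP (D.alpha (fun w => f w * D.Ph f w)) :=
  D.inP_alpha _ E.fh_inP

lemma Ext.u2_bd (E : D.Ext f x y v r ι η) :
    ∀ z ∈ D.X, ‖D.alpha (fun w => f w * D.Ph f w) z‖ ≤ 2 :=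
  D.alpha_bound _ 2 E.fh_inP E.fh_bd

lemma Ext.u4_inP (E : D.Ext f x y v r ι η) : D.InP (D.alpha (D.Ph f)) :=
  D.inP_alpha _ E.ph_inP

lemma Ext.u4_bd (E : D.Ext f x y v r ι η) : ∀ z ∈ D.X, ‖D.alpha (D.Ph f) z‖ ≤ 2 :=
  D.alpha_bound _ 2 E.ph_inP E.ph_bd

lemma Ext.f2_inP (E : D.Ext f x y v r ι η) :
    D.InP (fun z => f z * D.alpha (fun w => f w * D.Ph f w) z) :=
  D.inP_mul f _ E.inP E.u2_inP

lemma Ext.eh_inP (E : D.Ext f x y v r ι η) : D.InP (Eh D f) :=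
  D.inP_add _ _ E.f2_inP E.u4_inP

lemma Ext.L_eh (E : D.Ext f x y v r ι η) :
    ⟪x, D.S (Eh D f) x⟫_ℂ = ⟪x, D.S (fun z => f z * D.alpha (fun w => f w * D.Ph f w) z) x⟫_ℂ +
      ⟪x, D.S (D.alpha (D.Ph f)) x⟫_ℂ := by
  have h1 : Eh D f = fun z => (fun z => f z * D.alpha (fun w => f w * D.Ph f w) z) z +
      (D.alpha (D.Ph f)) z := rfl
  rw [h1, D.S_add _ _ E.f2_inP E.u4_inP]
  simp only [_root_.add_apply, inner_add_right]

lemma Ext.eh_sq (E : D.Ext f x y v r ι η) {z : ℂ} (hz : z ∈ D.X) :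
    ‖Eh D f z‖ ^ 2 ≤ 8 * (D.Ph f z).re := by
  have := D.eb f E.good_f (D.Ph f) 2 E.ph_inP E.ph_bd z hz
  calc ‖Eh D f z‖ ^ 2 ≤ _ := this
    _ = _ := by
      simp only [Ph]
      ring

/-- Lemma N. -/
lemma Ext.L_eh_up (E : D.Ext f x y v r ι η) {s : ℝ} (hs : 0 < s) :
    (⟪x, D.S (Eh D f) x⟫_ℂ).re ≤
      (ι + (⟪x, D.S (D.Ph f) x⟫_ℂ).re / 2) / s + 8 * s * (1 + ι) := by
  have hι := E.ι_nonneg
  let u : ℂ → ℂ := fun z => (1 + ((-(1 / 2) : ℝ) : ℂ) * D.Ph f z) + (s : ℂ) * Eh D f z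
  have hu1 : D.InP (fun z => 1 + ((-(1 / 2) : ℝ) : ℂ) * D.Ph f z) :=
    D.inP_add _ _ D.inP_one (D.inP_const_mul _ _ E.ph_inP)
  have hu2 : D.InP (fun z => (s : ℂ) * Eh D f z) := D.inP_const_mul _ _ E.eh_inP
  have hui : D.InP u := D.inP_add _ _ hu1 hu2
  have hub : ∀ z ∈ D.X, ‖u z‖ ≤ 1 + 8 * s ^ 2 := by
    intro z hz
    set w : ℝ := (D.Ph f z).re with hw
    have hw0 : 0 ≤ w := E.ph_re z hz
    have hp2 := E.ph_sq hz
    rw [← hw] at hp2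
    have hw2 : w ≤ 2 := (Complex.re_le_norm _).trans (E.ph_bd z hz)
    have h1 : ‖(1 : ℂ) + ((-(1 / 2) : ℝ) : ℂ) * D.Ph f z‖ ≤ 1 - w / 4 := by
      have h2 : ‖(1 : ℂ) + ((-(1 / 2) : ℝ) : ℂ) * D.Ph f z‖ ^ 2 = 1 - w + ‖D.Ph f z‖ ^ 2 / 4 := by
        rw [← Complex.normSq_eq_norm_sq, ← Complex.normSq_eq_norm_sq]
        simp only [hw, Complex.normSq_apply, Complex.add_re, Complex.one_re, Complex.mul_re,
          Complex.ofReal_re, Complex.ofReal_im, Complex.add_im, Complex.one_im, Complex.mul_im]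
        ring
      have h3 : ‖(1 : ℂ) + ((-(1 / 2) : ℝ) : ℂ) * D.Ph f z‖ ^ 2 ≤ (1 - w / 4) ^ 2 := by
        rw [h2]
        nlinarith [sq_nonneg w]
      exact (abs_le_of_sq_le_sq' h3 (by linarith)).2
    have h2 := E.eh_sq hz
    rw [← hw] at h2
    calc ‖u z‖ ≤ ‖(1 : ℂ) + ((-(1 / 2) : ℝ) : ℂ) * D.Ph f z‖ + ‖(s : ℂ) * Eh D f z‖ :=
          norm_add_le _ _
      _ ≤ 1 - w / 4 + s * ‖Eh D f z‖ := by
        rw [norm_mul, Complex.norm_real, Real.norm_eq_abs, abs_of_pos hs]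
        linarith
      _ ≤ 1 + 8 * s ^ 2 := by
        nlinarith [sq_nonneg (‖Eh D f z‖ - 16 * s)]
  have hLu := E.la hui hub
  have hval : ⟪x, D.S u x⟫_ℂ = 1 + ((-(1 / 2) : ℝ) : ℂ) * ⟪x, D.S (D.Ph f) x⟫_ℂ +
      (s : ℂ) * ⟪x, D.S (Eh D f) x⟫_ℂ := by
    rw [show u = fun z => (fun z => 1 + ((-(1 / 2) : ℝ) : ℂ) * D.Ph f z) z +
        (fun z => (s : ℂ) * Eh D f z) z from rfl,
      D.S_add _ _ hu1 hu2]
    rw [show (fun z => 1 + ((-(1 / 2) : ℝ) : ℂ) * D.Ph f z) = fun z => (fun _ => (1 : ℂ)) z +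
        (fun z => ((-(1 / 2) : ℝ) : ℂ) * D.Ph f z) z from rfl,
      D.S_add _ _ D.inP_one (D.inP_const_mul _ _ E.ph_inP), D.S_one,
      D.S_const_mul _ _ E.ph_inP, D.S_const_mul _ _ E.eh_inP]
    simp only [_root_.add_apply, one_apply_eq_self, _root_.smul_apply, inner_add_right,
      inner_smul_right, E.L_one]
  have hre : 1 - (⟪x, D.S (D.Ph f) x⟫_ℂ).re / 2 + s * (⟪x, D.S (Eh D f) x⟫_ℂ).re ≤
      (1 + ι) * (1 + 8 * s ^ 2) := by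
    refine le_trans (le_of_eq ?_) ((Complex.re_le_norm _).trans hLu)
    rw [hval]
    simp only [Complex.add_re, Complex.one_re, Complex.re_ofReal_mul]
    ring
  have e : (ι + (⟪x, D.S (D.Ph f) x⟫_ℂ).re / 2) / s + 8 * s * (1 + ι) =
      (ι + (⟪x, D.S (D.Ph f) x⟫_ℂ).re / 2 + 8 * s ^ 2 * (1 + ι)) / s := by
    field_simp
  rw [e, le_div_iff₀ hs]
  nlinarith

/-- Use of the Cauchy-Schwarz form of the functional `phi`. -/
lemma Ext.cs (E : D.Ext f x y v r ι η) {θ : ℝ} (hθ : 0 < θ) :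
    (⟪x, D.S (D.alpha (D.Ph f)) x⟫_ℂ).re + (⟪x, D.S (D.alpha (D.Ph f)) x⟫_ℂ).re / D.K ≤
      (D.K - 1) * (⟪x, D.S (D.Ph f) x⟫_ℂ).re + (⟪x, D.S (Eh D f) x⟫_ℂ).re / D.K +
        ι * (D.K * 2) + ι * 2 + 2 * ι * 2 + 2 * ι * 2 +
        2 * (θ + (2 - (⟪y, D.S f x⟫_ℂ + ⟪D.S (D.alpha f) y, x⟫_ℂ).re) / θ) := by
  have hcs := D.phi_cs f (D.Ph f) 2 E.inP E.ph_inP (D.good_bd f E.good_f) E.ph_bd x y
    E.hx E.hy θ hθ
  have h0 := (abs_le.mp ((Complex.abs_re_le_norm _).trans hcs)).1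
  simp only [Complex.sub_re, Complex.add_re] at h0
  have ha1 : (⟪y, D.S (fun z => f z * D.Ph f z) x⟫_ℂ).re ≤
      D.K * (⟪x, D.S (D.Ph f) x⟫_ℂ).re + ι * (D.K * 2) := by
    have h1 := E.ld E.ph_inP E.ph_bd
    have h2 := (Complex.abs_re_le_norm _).trans h1
    rw [Complex.sub_re, Complex.re_ofReal_mul] at h2
    linarith [(abs_le.mp h2).2]
  have ha2 : (⟪D.S (D.alpha (fun w => f w * D.Ph f w)) y, x⟫_ℂ).re ≤
      (⟪x, D.S (fun z => f z * D.alpha (fun w => f w * D.Ph f w) z) x⟫_ℂ).re / D.K + ι * 2 := by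
    have h1 := E.lc E.u2_inP E.u2_bd (by norm_num)
    have h2 := (Complex.abs_re_le_norm _).trans h1
    rw [Complex.sub_re, Complex.div_ofReal_re] at h2
    rw [inner_re_comm]
    linarith [(abs_le.mp h2).2]
  have ha3 : (⟪x, D.S (D.Ph f) x⟫_ℂ).re - 2 * ι * 2 ≤ (⟪y, D.S (D.Ph f) y⟫_ℂ).re := by
    have h1 := E.lb E.ph_inP E.ph_bd (by norm_num)
    have h2 := (Complex.abs_re_le_norm _).trans h1
    rw [Complex.sub_re] at h2
    linarith [(abs_le.mp h2).1]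
  have ha4 : (⟪x, D.S (D.alpha (D.Ph f)) x⟫_ℂ).re - 2 * ι * 2 ≤
      (⟪D.S (D.alpha (D.Ph f)) y, y⟫_ℂ).re := by
    have h1 := E.lb E.u4_inP E.u4_bd (by norm_num)
    have h2 := (Complex.abs_re_le_norm _).trans h1
    rw [Complex.sub_re] at h2
    rw [inner_re_comm (D.S (D.alpha (D.Ph f)) y) y]
    linarith [(abs_le.mp h2).1]
  have hE := congrArg Complex.re E.L_eh
  rw [Complex.add_re] at hE
  have e1 : (⟪x, D.S (fun z => f z * D.alpha (fun w => f w * D.Ph f w) z) x⟫_ℂ).re / D.K =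
      (⟪x, D.S (Eh D f) x⟫_ℂ).re / D.K - (⟪x, D.S (D.alpha (D.Ph f)) x⟫_ℂ).re / D.K := by
    rw [hE]
    ring
  rw [e1] at ha2
  simp only [Complex.add_re]
  linarith

/-- Use of the universal inequality. -/
lemma Ext.uni (E : D.Ext f x y v r ι η) {t : ℝ} (ht : 0 < t) :
    -(ι / t) - t * 5 ^ 2 * (1 + ι) / 2 ≤
      (⟪x, D.S (D.Ph f) x⟫_ℂ).re + (⟪x, D.S (D.alpha (D.Ph f)) x⟫_ℂ).re - D.c := by
  have hc0 := D.c_pos
  have hc1 := D.c_le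
  let F : ℂ → ℂ := fun z => (D.Ph f z + D.alpha (D.Ph f) z) + ((-D.c : ℝ) : ℂ) * 1
  have hF1 : D.InP (fun z => D.Ph f z + D.alpha (D.Ph f) z) := D.inP_add _ _ E.ph_inP E.u4_inP
  have hF2 : D.InP (fun _ => ((-D.c : ℝ) : ℂ) * 1) := D.inP_const_mul _ _ D.inP_one
  have hFi : D.InP F := D.inP_add _ _ hF1 hF2
  have hFre : ∀ z ∈ D.X, 0 ≤ (F z).re := by
    intro z hz
    have h1 := D.ui f E.good_f z hz
    simp only [F, Complex.add_re, mul_one, Complex.ofReal_re]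
    have h2 : (D.Ph f z).re = (1 + f z * D.alpha f z).re := rfl
    have h3 : (D.alpha (D.Ph f) z).re = (D.alpha (fun w => 1 + f w * D.alpha f w) z).re := rfl
    rw [h2, h3]
    linarith
  have hFb : ∀ z ∈ D.X, ‖F z‖ ≤ 5 := by
    intro z hz
    have h1 : ‖((-D.c : ℝ) : ℂ) * 1‖ ≤ 1 := by
      rw [mul_one, Complex.norm_real, Real.norm_eq_abs, abs_neg, abs_of_pos hc0]
      exact hc1
    calc ‖F z‖ ≤ ‖D.Ph f z + D.alpha (D.Ph f) z‖ + ‖((-D.c : ℝ) : ℂ) * 1‖ := norm_add_le _ _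
      _ ≤ ‖D.Ph f z‖ + ‖D.alpha (D.Ph f) z‖ + 1 := add_le_add (norm_add_le _ _) h1
      _ ≤ 5 := by linarith [E.ph_bd z hz, E.u4_bd z hz]
  have hfin := E.le_pos hFi hFre hFb ht
  have hLF : (⟪x, D.S F x⟫_ℂ).re = (⟪x, D.S (D.Ph f) x⟫_ℂ).re +
      (⟪x, D.S (D.alpha (D.Ph f)) x⟫_ℂ).re - D.c := by
    rw [show F = fun z => (fun z => D.Ph f z + D.alpha (D.Ph f) z) z +
        (fun z => ((-D.c : ℝ) : ℂ) * (fun _ => (1 : ℂ)) z) z from rfl,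
      D.S_add _ _ hF1 (D.inP_const_mul _ _ D.inP_one),
      D.S_add _ _ E.ph_inP E.u4_inP, D.S_const_mul _ _ D.inP_one, D.S_one]
    simp only [_root_.add_apply, one_apply_eq_self, _root_.smul_apply, inner_add_right,
      inner_smul_right, E.L_one, Complex.add_re, mul_one, Complex.ofReal_re]
    ring
  rw [hLF] at hfin
  exact hfin

end Main

/-- Pure real arithmetic at the end. -/
lemma final_arith {K c θ ρ ι η ω Dq LE LA q : ℝ}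
    (hq2 : q ^ 2 = 2) (hq0 : 0 ≤ q) (hK : 1 + q - θ ^ 2 < K)
    (hcθ : c = 100 * θ) (hθ0 : 0 < θ) (hθ1 : θ ≤ 1 / 100)
    (hρ : ρ = θ ^ 2 / (K + 1)) (hι : ι = ρ ^ 2) (hη0 : 0 ≤ η) (hηι : η ≤ ι)
    (hω1 : -(ι / ρ) - ρ * 2 ^ 2 * (1 + ι) / 2 ≤ ω)
    (hDq0 : 0 ≤ Dq) (hDq1 : Dq ≤ 2 - K + η + ι - (ω - 1) / K)
    (hLE : LE ≤ (ι + ω / 2) / θ + 8 * θ * (1 + ι))
    (hcs : LA + LA / K ≤ (K - 1) * ω + LE / K + ι * (K * 2) + ι * 2 + 2 * ι * 2 + 2 * ι * 2 +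
      2 * (θ + Dq / θ))
    (huni : -(ι / ρ) - ρ * 5 ^ 2 * (1 + ι) / 2 ≤ ω + LA - c) : False := by
  have hq1 : 1.41 < q := by nlinarith only [hq2, hq0]
  have hq3 : q < 1.42 := by nlinarith only [hq2, hq0]
  have hθ2 : θ ^ 2 ≤ 1 / 10000 := by nlinarith only [hθ0, hθ1]
  have hθsq0 : 0 < θ ^ 2 := by positivity
  have hθθ : θ ^ 2 ≤ θ / 100 := by nlinarith only [hθ0, hθ1]
  have hK2 : 2 < K := by linarith only [hK, hq1, hθ2]
  have hKpos : 0 < K := by linarith only [hK2]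
  have hρ0 : 0 < ρ := by rw [hρ]; positivity
  have hρK : ρ * (K + 1) = θ ^ 2 := by
    rw [hρ]
    field_simp
  have hρK0 : 0 < ρ * K := mul_pos hρ0 hKpos
  have hρθ : ρ ≤ θ ^ 2 := by linarith only [hρK, hρK0]
  have hρ1 : ρ ≤ 1 / 10000 := by linarith only [hρθ, hθ2]
  have hKρ : K * ρ ≤ θ ^ 2 := by linarith only [hρK, hρ0]
  have hι0 : 0 < ι := by rw [hι]; positivity
  have hιρ : ι ≤ ρ := by rw [hι]; nlinarith only [hρ0, hρ1]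
  have hι1 : ι ≤ 1 := by linarith only [hιρ, hρ1]
  have hιρ2 : ι / ρ = ρ := by
    rw [hι]
    field_simp
  rw [hιρ2] at hω1 huni
  have hρι : 0 ≤ ρ * (1 - ι) := mul_nonneg hρ0.le (by linarith only [hι1])
  have hpos1 : -(5 * ρ) ≤ ω := by linarith only [hω1, hρι, hρ0]
  have hsq : 2 - (K - 1) ^ 2 ≤ 3 * θ ^ 2 := by
    have h1 : q - θ ^ 2 < K - 1 := by linarith only [hK]
    have h2 : 0 < q - θ ^ 2 := by linarith only [hq1, hθ2]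
    have h3 : (q - θ ^ 2) ^ 2 ≤ (K - 1) ^ 2 := pow_le_pow_left₀ h2.le h1.le 2
    have h4 : 0 ≤ θ ^ 2 * (3 - 2 * q) := mul_nonneg hθsq0.le (by linarith only [hq3])
    have h5 : 0 ≤ (θ ^ 2) ^ 2 := sq_nonneg _
    linarith only [h3, h4, h5, hq2]
  have hKηι : K * (η + ι) ≤ 2 * ρ := by
    have h1 : K * (η + ι) ≤ K * (2 * ι) :=
      mul_le_mul_of_nonneg_left (by linarith only [hηι]) hKpos.le
    have h2 : K * (2 * ι) = 2 * ρ * (K * ρ) := by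
      rw [hι]
      ring
    have h3 : 2 * ρ * (K * ρ) ≤ 2 * ρ * 1 :=
      mul_le_mul_of_nonneg_left (by linarith only [hKρ, hθ2]) (by positivity)
    linarith only [h1, h2, h3]
  have hωup : ω ≤ 1 + K * (2 - K + η + ι) := by
    have h1 : (ω - 1) / K ≤ 2 - K + η + ι := by linarith only [hDq0, hDq1]
    rw [div_le_iff₀ hKpos] at h1
    linarith only [h1, mul_comm K (2 - K + η + ι)]
  have hω5 : ω ≤ 5 * θ ^ 2 := by
    linarith only [hωup, hsq, hKηι, hρθ]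
  have hK3 : K < 3 := by
    by_contra hk
    push Not at hk
    have h1 : 4 ≤ (K - 1) ^ 2 := by nlinarith only [hk]
    linarith only [h1, hωup, hKηι, hpos1, hρ1]
  have hDq2 : Dq ≤ 7 * θ ^ 2 := by
    have h1 : (1 - ω) / K ≤ (1 + 5 * ρ) / K :=
      div_le_div_of_nonneg_right (by linarith only [hpos1]) hKpos.le
    have h2 : (1 + 5 * ρ) / K = 1 / K + 5 * ρ / K := by ring
    have h3 : 5 * ρ / K ≤ 5 * ρ / 2 :=
      div_le_div_of_nonneg_left (by positivity) (by norm_num) hK2.le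
    have h4 : 2 - K + 1 / K ≤ 2 * θ ^ 2 := by
      have h5 : 2 - K + 1 / K = (K * (2 - K) + 1) / K := by
        field_simp
      rw [h5, div_le_iff₀ hKpos]
      have h6 : 0 ≤ θ ^ 2 * (K - 2) := mul_nonneg hθsq0.le (by linarith only [hK2])
      linarith only [hsq, h6, hθsq0]
    have h6 : (ω - 1) / K = -((1 - ω) / K) := by
      rw [← neg_div]
      congr 1
      ring
    rw [h6] at hDq1
    linarith only [hDq1, h1, h2, h3, h4, hηι, hιρ, hρθ, hρ0]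
  have hLE2 : LE ≤ 20 * θ := by
    have h1 : (ι + ω / 2) / θ ≤ 4 * θ := by
      rw [div_le_iff₀ hθ0]
      have h3 : θ ^ 2 = θ * θ := sq θ
      linarith only [hιρ, hρθ, hω5, h3, hθsq0]
    have h2 : 8 * θ * (1 + ι) ≤ 16 * θ := by
      have h3 : 0 ≤ θ * (1 - ι) := mul_nonneg hθ0.le (by linarith only [hι1])
      linarith only [h3]
    linarith only [hLE, h1, h2]
  have hLA : LA ≤ 27 * θ := by
    have h3 : Dq / θ ≤ 7 * θ := by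
      rw [div_le_iff₀ hθ0]
      have h3 : θ ^ 2 = θ * θ := sq θ
      linarith only [hDq2, h3]
    have h4 : LE / K ≤ 10 * θ := by
      rw [div_le_iff₀ hKpos]
      have h5 : 0 ≤ θ * (K - 2) := mul_nonneg hθ0.le (by linarith only [hK2])
      linarith only [hLE2, h5]
    have h5 : (K - 1) * ω ≤ θ / 5 := by
      have h6 : (K - 1) * ω ≤ (K - 1) * (5 * θ ^ 2) :=
        mul_le_mul_of_nonneg_left hω5 (by linarith only [hK2])
      have h7 : 0 ≤ θ ^ 2 * (3 - K) := mul_nonneg hθsq0.le (by linarith only [hK3])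
      linarith only [h6, h7, hθθ, hθ0]
    have h7 : ι * K ≤ ρ := by
      have h8 : ρ * (K * ρ) ≤ ρ * 1 :=
        mul_le_mul_of_nonneg_left (by linarith only [hKρ, hθ2]) hρ0.le
      rw [hι]
      linarith only [h8]
    have h8 : LA + LA / K ≤ 27 * θ := by
      linarith only [hcs, h3, h4, h5, h7, hιρ, hρθ, hθθ, hθ0]
    by_contra hcon2
    push Not at hcon2
    have h9 : 0 < LA := by linarith only [hcon2, hθ0]
    have h10 : 0 < LA / K := by positivity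
    linarith only [h8, h10, hcon2]
  have h3 : ρ * 5 ^ 2 * (1 + ι) / 2 ≤ 25 * ρ := by linarith only [hρι, hρ0]
  linarith only [huni, h3, hcθ, hω5, hLA, hρθ, hθθ, hθ0]

theorem core_bound_main [CompleteSpace H] : D.K ≤ 1 + Real.sqrt 2 - (D.c / 100) ^ 2 := by
  by_contra hcon
  push Not at hcon
  have hc0 := D.c_pos
  have hc1 := D.c_le
  set θ : ℝ := D.c / 100 with hθdef
  have hθ0 : 0 < θ := by positivity
  have hθ1 : θ ≤ 1 / 100 := by rw [hθdef]; linarith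
  have hq2 : Real.sqrt 2 ^ 2 = 2 := Real.sq_sqrt (by norm_num)
  have hq0 : 0 ≤ Real.sqrt 2 := Real.sqrt_nonneg _
  have hq1 : 1.41 < Real.sqrt 2 := by nlinarith
  have hθ2 : θ ^ 2 ≤ 1 / 10000 := by nlinarith
  have hK2 : 2 < D.K := by linarith
  have hρ0 : 0 < θ ^ 2 / (D.K + 1) := by
    have : 0 < D.K + 1 := by linarith
    positivity
  have hρ1 : θ ^ 2 / (D.K + 1) ≤ 1 := by
    rw [div_le_one (by linarith)]
    nlinarith
  have hι1 : (θ ^ 2 / (D.K + 1)) ^ 2 ≤ 1 := by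
    have := pow_le_pow_left₀ hρ0.le hρ1 2
    simpa using this
  obtain ⟨f, x, y, v, r, η, E⟩ := D.exists_ext hK2 (pow_pos hρ0 2) hι1
  exact final_arith hq2 hq0 hcon (by rw [hθdef]; ring) hθ0 hθ1 rfl rfl E.hη0 E.hηι
    (E.omega_lower hρ0) E.phi1.1 E.phi1.2 (E.L_eh_up hθ0) (E.cs hθ0) (E.uni hρ0)

end CoreData

theorem core_bound {H : Type*} [NormedAddCommGroup H] [InnerProductSpace ℂ H] [CompleteSpace H]
    (D : CoreData H) : D.K ≤ 1 + Real.sqrt 2 - (D.c / 100) ^ 2 :=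
  D.core_bound_main

end Vale.Agent.Lib.P123
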