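import Mathlib

/-!
The abstract two step extremal inequality: a Markov chain argument which improves the
Crouzeix-Palencia constant to an explicit number below `1 + √2`, with no geometric input.
-/

open scoped ComplexConjugate InnerProductSpace

namespace Vale.Agent.Lib.P123

/-- Abstract data of the functional calculus on the boundary of a polygon. -/
structure ChainData (H : Type*) [NormedAddCommGroup H] [InnerProductSpace ℂ H] where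
  X : Set ℂ
  InP : (ℂ → ℂ) → Prop
  S : (ℂ → ℂ) → (H →L[ℂ] H)
  alpha : (ℂ → ℂ) → (ℂ → ℂ)
  K : ℝ
  good : (ℂ → ℂ) → Prop
  inP_one : InP (fun _ => 1)
  inP_add : ∀ u v, InP u → InP v → InP (fun z => u z + v z)
  inP_mul : ∀ u v, InP u → InP v → InP (fun z => u z * v z)
  inP_const_mul : ∀ (a : ℂ) u, InP u → InP (fun z => a * u z)
  inP_alpha : ∀ u, InP u → InP (alpha u)
  S_add : ∀ u v, InP u → InP v → S (fun z => u z + v z) = S u + S v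
  S_const_mul : ∀ (a : ℂ) u, InP u → S (fun z => a * u z) = a • S u
  S_one : S (fun _ => 1) = 1
  S_mul : ∀ u v, InP u → InP v → S (fun z => u z * v z) = S u * S v
  S_bound : ∀ u C, InP u → (∀ z ∈ X, ‖u z‖ ≤ C) → ‖S u‖ ≤ K * C
  S_congr : ∀ u v, InP u → InP v → (∀ z ∈ X, u z = v z) → S u = S v
  alpha_add : ∀ u v, InP u → InP v → ∀ z ∈ X,
    alpha (fun w => u w + v w) z = alpha u z + alpha v z
  alpha_const_mul : ∀ (a : ℂ) u, InP u → ∀ z ∈ X, alpha (fun w => a * u w) z = conj a * alpha u z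
  alpha_one : ∀ z ∈ X, alpha (fun _ => 1) z = 1
  alpha_bound : ∀ u C, InP u → (∀ z ∈ X, ‖u z‖ ≤ C) → ∀ z ∈ X, ‖alpha u z‖ ≤ C
  /-- `‖⟪y, S u x⟫ + ⟪S (alpha u) y, x⟫‖ ≤ 2 ‖u‖` -/
  phi_bound : ∀ u, InP u → (∀ z ∈ X, ‖u z‖ ≤ 1) → ∀ x y : H, ‖x‖ = 1 → ‖y‖ = 1 →
    ‖⟪y, S u x⟫_ℂ + ⟪S (alpha u) y, x⟫_ℂ‖ ≤ 2
  /-- Cauchy-Schwarz for the positive operator valued density, weighted form. -/
  phi_cs : ∀ f h G, InP f → InP h → InP G → (∀ z ∈ X, ‖f z‖ ≤ 1) →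
    (∀ z ∈ X, ‖h z‖ ^ 2 ≤ (G z).re) → ∀ x y z : H, ‖x‖ = 1 → ‖y‖ = 1 → ∀ l : ℝ, 0 < l →
    ‖⟪z, S (fun w => f w * h w) x⟫_ℂ + ⟪S (alpha (fun w => f w * h w)) z, x⟫_ℂ
        - ⟪z, S h y⟫_ℂ - ⟪S (alpha h) z, y⟫_ℂ‖
      ≤ (l / 2) * (⟪z, S G z⟫_ℂ + ⟪S (alpha G) z, z⟫_ℂ).re
        + (2 - (⟪y, S f x⟫_ℂ + ⟪S (alpha f) y, x⟫_ℂ).re) / l
  good_inP : ∀ f, good f → InP f
  good_bd : ∀ f, good f → ∀ z ∈ X, ‖f z‖ ≤ 1
  /-- near-extremal elements exist -/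
  near : ∀ η > 0, ∃ f, good f ∧ K - η ≤ ‖S f‖

namespace ChainData

variable {H : Type*} [NormedAddCommGroup H] [InnerProductSpace ℂ H]

variable (D : ChainData H)

lemma S_comm {u v : ℂ → ℂ} (hu : D.InP u) (hv : D.InP v) : D.S u * D.S v = D.S v * D.S u := by
  rw [← D.S_mul u v hu hv, ← D.S_mul v u hv hu]
  congr 1
  funext z
  exact mul_comm _ _

lemma S_mul_apply {u v : ℂ → ℂ} (hu : D.InP u) (hv : D.InP v) (w : H) :
    D.S (fun z => u z * v z) w = D.S u (D.S v w) := by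
  rw [D.S_mul u v hu hv]
  rfl

lemma S_comm_apply {u v : ℂ → ℂ} (hu : D.InP u) (hv : D.InP v) (w : H) :
    D.S u (D.S v w) = D.S v (D.S u w) := by
  have := D.S_comm hu hv
  calc D.S u (D.S v w) = (D.S u * D.S v) w := rfl
    _ = (D.S v * D.S u) w := by rw [this]
    _ = _ := rfl

/-- Norm bound of a matrix coefficient. -/
lemma inner_le {u : ℂ → ℂ} {C : ℝ} (hu : D.InP u) (hb : ∀ z ∈ D.X, ‖u z‖ ≤ C) {a b : H}
    (ha : ‖a‖ = 1) (hb' : ‖b‖ = 1) :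
    ‖⟪a, D.S u b⟫_ℂ‖ ≤ D.K * C := by
  calc ‖⟪a, D.S u b⟫_ℂ‖ ≤ ‖a‖ * ‖D.S u b‖ := norm_inner_le_norm _ _
    _ ≤ ‖D.S u‖ * ‖b‖ := by
      rw [ha, one_mul]
      exact (D.S u).le_opNorm b
    _ ≤ D.K * C := by
      rw [hb', mul_one]
      exact D.S_bound u C hu hb

/-- An almost extremal configuration. -/
structure Ext (f : ℂ → ℂ) (x y v : H) (r ι η : ℝ) : Prop where
  good_f : D.good f
  hx : ‖x‖ = 1
  hy : ‖y‖ = 1
  hTx : D.S f x = (r : ℂ) • y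
  hr1 : D.K - η ≤ r
  hr2 : r ≤ D.K
  hv : ∀ w : H, ⟪y, D.S f w⟫_ℂ = (D.K : ℂ) * ⟪x, w⟫_ℂ + ⟪v, w⟫_ℂ
  hvn : ‖v‖ ≤ ι
  hη0 : 0 ≤ η
  hηι : η ≤ ι
  hKpos : 2 < D.K

section ExtLemmas

variable {D} {f : ℂ → ℂ} {x y v : H} {r ι η : ℝ}

lemma Ext.inP (E : D.Ext f x y v r ι η) : D.InP f := D.good_inP f E.good_f

lemma Ext.bd_mul (E : D.Ext f x y v r ι η) {u : ℂ → ℂ} {C : ℝ}
    (hb : ∀ z ∈ D.X, ‖u z‖ ≤ C) : ∀ z ∈ D.X, ‖f z * u z‖ ≤ C := by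
  intro z hz
  have hu := hb z hz
  rw [norm_mul]
  calc ‖f z‖ * ‖u z‖ ≤ 1 * ‖u z‖ :=
        mul_le_mul_of_nonneg_right (D.good_bd f E.good_f z hz) (norm_nonneg _)
    _ ≤ C := by rw [one_mul]; exact hu

lemma Ext.ι_nonneg (E : D.Ext f x y v r ι η) : 0 ≤ ι := E.hη0.trans E.hηι

/-- coefficient with `v` -/
lemma Ext.v_le (E : D.Ext f x y v r ι η) {u : ℂ → ℂ} {C : ℝ} (hu : D.InP u)
    (hb : ∀ z ∈ D.X, ‖u z‖ ≤ C) : ‖⟪v, D.S u x⟫_ℂ‖ ≤ ι * (D.K * C) := by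
  have h1 : ‖D.S u x‖ ≤ D.K * C := by
    calc ‖D.S u x‖ ≤ ‖D.S u‖ * ‖x‖ := (D.S u).le_opNorm x
      _ ≤ D.K * C := by
        rw [E.hx, mul_one]
        exact D.S_bound u C hu hb
  calc ‖⟪v, D.S u x⟫_ℂ‖ ≤ ‖v‖ * ‖D.S u x‖ := norm_inner_le_norm _ _
    _ ≤ ι * (D.K * C) := mul_le_mul E.hvn h1 (norm_nonneg _) E.ι_nonneg

/-- (d) -/
lemma Ext.ld (E : D.Ext f x y v r ι η) {u : ℂ → ℂ} {C : ℝ} (hu : D.InP u)
    (hb : ∀ z ∈ D.X, ‖u z‖ ≤ C) :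
    ‖⟪y, D.S (fun z => f z * u z) x⟫_ℂ - (D.K : ℂ) * ⟪x, D.S u x⟫_ℂ‖ ≤ ι * (D.K * C) := by
  rw [D.S_mul_apply E.inP hu, E.hv, add_sub_cancel_left]
  exact E.v_le hu hb

lemma Ext.K_pos (E : D.Ext f x y v r ι η) : 0 < D.K := by
  have := E.hKpos
  linarith

/-- (a) -/
lemma Ext.la (E : D.Ext f x y v r ι η) {u : ℂ → ℂ} {C : ℝ} (hu : D.InP u)
    (hb : ∀ z ∈ D.X, ‖u z‖ ≤ C) :
    ‖⟪x, D.S u x⟫_ℂ‖ ≤ (1 + ι) * C := by
  have hKpos := E.K_pos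
  have h1 := E.ld hu hb
  have h2 : ‖⟪y, D.S (fun z => f z * u z) x⟫_ℂ‖ ≤ D.K * C :=
    D.inner_le (D.inP_mul f u E.inP hu) (E.bd_mul hb) E.hy E.hx
  have h3 : ‖(D.K : ℂ) * ⟪x, D.S u x⟫_ℂ‖ ≤ D.K * C + ι * (D.K * C) := by
    have e : (D.K : ℂ) * ⟪x, D.S u x⟫_ℂ = ⟪y, D.S (fun z => f z * u z) x⟫_ℂ -
        (⟪y, D.S (fun z => f z * u z) x⟫_ℂ - (D.K : ℂ) * ⟪x, D.S u x⟫_ℂ) := by ring
    rw [e]
    exact (norm_sub_le _ _).trans (add_le_add h2 h1)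
  rw [norm_mul, Complex.norm_real, Real.norm_eq_abs, abs_of_pos hKpos] at h3
  have h4 : D.K * ‖⟪x, D.S u x⟫_ℂ‖ ≤ D.K * ((1 + ι) * C) := by
    calc _ ≤ _ := h3
      _ = _ := by ring
  exact le_of_mul_le_mul_left h4 hKpos

/-- (b) -/
lemma Ext.lb (E : D.Ext f x y v r ι η) {u : ℂ → ℂ} {C : ℝ} (hu : D.InP u)
    (hb : ∀ z ∈ D.X, ‖u z‖ ≤ C) (hC : 0 ≤ C) :
    ‖⟪y, D.S u y⟫_ℂ - ⟪x, D.S u x⟫_ℂ‖ ≤ 2 * ι * C := by
  have hKpos := E.K_pos
  have h0 : (r : ℂ) * ⟪y, D.S u y⟫_ℂ = (D.K : ℂ) * ⟪x, D.S u x⟫_ℂ + ⟪v, D.S u x⟫_ℂ := by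
    rw [← E.hv, ← D.S_comm_apply hu E.inP, E.hTx, map_smul, inner_smul_right]
  have hL' : ‖⟪y, D.S u y⟫_ℂ‖ ≤ D.K * C := D.inner_le hu hb E.hy E.hy
  have hV := E.v_le hu hb
  have e : (D.K : ℂ) * (⟪y, D.S u y⟫_ℂ - ⟪x, D.S u x⟫_ℂ) =
      ((D.K - r : ℝ) : ℂ) * ⟪y, D.S u y⟫_ℂ + ⟪v, D.S u x⟫_ℂ := by
    push_cast
    linear_combination h0
  have h1 : D.K * ‖⟪y, D.S u y⟫_ℂ - ⟪x, D.S u x⟫_ℂ‖ ≤ η * (D.K * C) + ι * (D.K * C) := by
    have h2 : D.K * ‖⟪y, D.S u y⟫_ℂ - ⟪x, D.S u x⟫_ℂ‖ =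
        ‖(D.K : ℂ) * (⟪y, D.S u y⟫_ℂ - ⟪x, D.S u x⟫_ℂ)‖ := by
      rw [norm_mul, Complex.norm_real, Real.norm_eq_abs, abs_of_pos hKpos]
    rw [h2, e]
    refine (norm_add_le _ _).trans (add_le_add ?_ hV)
    rw [norm_mul, Complex.norm_real, Real.norm_eq_abs, abs_of_nonneg (by linarith [E.hr2])]
    exact mul_le_mul (by linarith [E.hr1]) hL' (norm_nonneg _) E.hη0
  have h3 : D.K * ‖⟪y, D.S u y⟫_ℂ - ⟪x, D.S u x⟫_ℂ‖ ≤ D.K * (2 * ι * C) := by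
    have : η * (D.K * C) ≤ ι * (D.K * C) :=
      mul_le_mul_of_nonneg_right E.hηι (by positivity)
    nlinarith
  exact le_of_mul_le_mul_left h3 hKpos

/-- (c) -/
lemma Ext.lc (E : D.Ext f x y v r ι η) {u : ℂ → ℂ} {C : ℝ} (hu : D.InP u)
    (hb : ∀ z ∈ D.X, ‖u z‖ ≤ C) (hC : 0 ≤ C) :
    ‖⟪x, D.S u y⟫_ℂ - ⟪x, D.S (fun z => f z * u z) x⟫_ℂ / (D.K : ℂ)‖ ≤ ι * C := by
  have hKpos := E.K_pos
  have hKc : (D.K : ℂ) ≠ 0 := by exact_mod_cast hKpos.ne'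
  have h0 : ⟪x, D.S (fun z => f z * u z) x⟫_ℂ = (r : ℂ) * ⟪x, D.S u y⟫_ℂ := by
    rw [D.S_mul_apply E.inP hu, D.S_comm_apply E.inP hu, E.hTx, map_smul, inner_smul_right]
  have hM : ‖⟪x, D.S u y⟫_ℂ‖ ≤ D.K * C := D.inner_le hu hb E.hx E.hy
  have e : ⟪x, D.S u y⟫_ℂ - ⟪x, D.S (fun z => f z * u z) x⟫_ℂ / (D.K : ℂ) =
      (((D.K - r) / D.K : ℝ) : ℂ) * ⟪x, D.S u y⟫_ℂ := by
    rw [h0]
    push_cast
    field_simp
  rw [e, norm_mul, Complex.norm_real, Real.norm_eq_abs,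
    abs_of_nonneg (div_nonneg (by linarith [E.hr2]) hKpos.le)]
  have h1 : (D.K - r) / D.K ≤ η / D.K :=
    div_le_div_of_nonneg_right (by linarith [E.hr1]) hKpos.le
  calc (D.K - r) / D.K * ‖⟪x, D.S u y⟫_ℂ‖ ≤ η / D.K * (D.K * C) :=
        mul_le_mul h1 hM (norm_nonneg _) (div_nonneg E.hη0 hKpos.le)
    _ = η * C := by field_simp
    _ ≤ ι * C := mul_le_mul_of_nonneg_right E.hηι hC

lemma Ext.L_one (E : D.Ext f x y v r ι η) : ⟪x, x⟫_ℂ = 1 := by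
  rw [inner_self_eq_norm_sq_to_K, E.hx]
  simp

/-- (e) positivity -/
lemma Ext.le_pos (E : D.Ext f x y v r ι η) {F : ℂ → ℂ} {B t : ℝ} (hF : D.InP F)
    (hre : ∀ z ∈ D.X, 0 ≤ (F z).re) (hbd : ∀ z ∈ D.X, ‖F z‖ ≤ B) (ht : 0 < t) :
    -(ι / t) - t * B ^ 2 * (1 + ι) / 2 ≤ (⟪x, D.S F x⟫_ℂ).re := by
  have hι := E.ι_nonneg
  set C : ℝ := 1 + t ^ 2 * B ^ 2 / 2 with hCdef
  have hC : 0 ≤ C := by positivity
  let u : ℂ → ℂ := fun z => 1 + ((-t : ℝ) : ℂ) * F z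
  have hu : D.InP u := D.inP_add _ _ D.inP_one (D.inP_const_mul _ _ hF)
  have hub : ∀ z ∈ D.X, ‖u z‖ ≤ C := by
    intro z hz
    have h1 : ‖u z‖ ^ 2 ≤ C ^ 2 := by
      have hnorm : ‖u z‖ ^ 2 = 1 - 2 * t * (F z).re + t ^ 2 * ‖F z‖ ^ 2 := by
        rw [← Complex.normSq_eq_norm_sq, ← Complex.normSq_eq_norm_sq]
        simp only [u, Complex.normSq_apply, Complex.add_re, Complex.one_re, Complex.mul_re,
          Complex.ofReal_re, Complex.ofReal_im, Complex.add_im, Complex.one_im, Complex.mul_im]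
        ring
      have h2 := hre z hz
      have h3 := hbd z hz
      have h4 : ‖F z‖ ^ 2 ≤ B ^ 2 := pow_le_pow_left₀ (norm_nonneg _) h3 2
      have h5 : t ^ 2 * ‖F z‖ ^ 2 ≤ t ^ 2 * B ^ 2 := mul_le_mul_of_nonneg_left h4 (by positivity)
      have h6 : 0 ≤ t * (F z).re := mul_nonneg ht.le h2
      rw [hnorm, hCdef]
      nlinarith [sq_nonneg (t ^ 2 * B ^ 2)]
    exact (abs_le_of_sq_le_sq' h1 hC).2
  have hL := E.la hu hub
  have hS : D.S u = 1 + ((-t : ℝ) : ℂ) • D.S F := by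
    have h1 := D.S_add (fun _ => 1) (fun z => ((-t : ℝ) : ℂ) * F z) D.inP_one
      (D.inP_const_mul _ _ hF)
    rw [show u = fun z => (1 : ℂ) + ((-t : ℝ) : ℂ) * F z from rfl, h1, D.S_one,
      D.S_const_mul _ _ hF]
  have hval : ⟪x, D.S u x⟫_ℂ = 1 - (t : ℂ) * ⟪x, D.S F x⟫_ℂ := by
    rw [hS]
    simp only [_root_.add_apply, one_apply_eq_self,
      _root_.smul_apply, inner_add_right, inner_smul_right, E.L_one]
    push_cast
    ring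
  have hre2 : 1 - t * (⟪x, D.S F x⟫_ℂ).re ≤ (1 + ι) * C := by
    refine le_trans ?_ hL
    refine le_trans (le_of_eq ?_) (Complex.re_le_norm _)
    rw [hval]
    simp
  have h7 : -ι - t ^ 2 * B ^ 2 * (1 + ι) / 2 ≤ t * (⟪x, D.S F x⟫_ℂ).re := by
    rw [hCdef] at hre2
    nlinarith
  have e : -(ι / t) - t * B ^ 2 * (1 + ι) / 2 =
      (-ι - t ^ 2 * B ^ 2 * (1 + ι) / 2) / t := by
    field_simp
  rw [e, div_le_iff₀ ht]
  linarith

end ExtLemmas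

lemma exists_ext [CompleteSpace H] (hK : 2 < D.K) {ι : ℝ} (hι : 0 < ι) (hι1 : ι ≤ 1) :
    ∃ f x y v r η, D.Ext f x y v r ι η := by
  have hKpos : 0 < D.K := by linarith
  set η : ℝ := ι ^ 2 / (2 * D.K) with hη
  have hη0 : 0 < η := by positivity
  have hηι : η ≤ ι := by
    rw [hη, div_le_iff₀ (by positivity)]
    nlinarith
  obtain ⟨f, hgood, hnear⟩ := D.near (η / 2) (by positivity)
  have hTle : ‖D.S f‖ ≤ D.K := by
    simpa using D.S_bound f 1 (D.good_inP f hgood) (D.good_bd f hgood)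
  have hlt : D.K - η < ‖D.S f‖ := by linarith
  obtain ⟨x0, hx0, hx0T⟩ := (D.S f).exists_lt_apply_of_lt_opNorm hlt
  have hKη : 0 < D.K - η := by linarith
  have hx0ne : x0 ≠ 0 := by
    rintro rfl
    simp only [map_zero, norm_zero] at hx0T
    linarith
  have hx0pos : 0 < ‖x0‖ := norm_pos_iff.mpr hx0ne
  set x : H := ((‖x0‖⁻¹ : ℝ) : ℂ) • x0 with hx
  have hxn : ‖x‖ = 1 := by
    rw [hx, norm_smul, Complex.norm_real, Real.norm_eq_abs, abs_of_pos (by positivity)]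
    field_simp
  have hTxn : D.K - η < ‖D.S f x‖ := by
    rw [hx, map_smul, norm_smul, Complex.norm_real, Real.norm_eq_abs, abs_of_pos (by positivity)]
    have h1 : 1 ≤ ‖x0‖⁻¹ := (one_le_inv₀ hx0pos).mpr hx0.le
    have h2 : 0 ≤ ‖D.S f x0‖ := norm_nonneg _
    nlinarith
  set r : ℝ := ‖D.S f x‖ with hr
  have hrpos : 0 < r := by linarith
  have hr2 : r ≤ D.K := by
    calc r ≤ ‖D.S f‖ * ‖x‖ := (D.S f).le_opNorm x
      _ ≤ D.K := by rw [hxn, mul_one]; exact hTle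
  set y : H := ((r⁻¹ : ℝ) : ℂ) • D.S f x with hy
  have hyn : ‖y‖ = 1 := by
    rw [hy, norm_smul, Complex.norm_real, Real.norm_eq_abs, abs_of_pos (by positivity), ← hr]
    field_simp
  have hTxy : D.S f x = (r : ℂ) • y := by
    rw [hy, smul_smul, ← Complex.ofReal_mul, mul_inv_cancel₀ hrpos.ne']
    simp
  set v : H := ContinuousLinearMap.adjoint (D.S f) y - (D.K : ℂ) • x with hv
  have hvw : ∀ w : H, ⟪y, D.S f w⟫_ℂ = (D.K : ℂ) * ⟪x, w⟫_ℂ + ⟪v, w⟫_ℂ := by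
    intro w
    have e1 : ⟪v, w⟫_ℂ = ⟪y, D.S f w⟫_ℂ - (D.K : ℂ) * ⟪x, w⟫_ℂ := by
      rw [hv, inner_sub_left, ContinuousLinearMap.adjoint_inner_left, inner_smul_left x w,
        Complex.conj_ofReal]
    rw [e1]
    ring
  have hyTx : ⟪y, D.S f x⟫_ℂ = (r : ℂ) := by
    rw [hTxy, inner_smul_right, inner_self_eq_norm_sq_to_K, hyn]
    simp
  have hvn : ‖v‖ ≤ ι := by
    have h1 : ‖ContinuousLinearMap.adjoint (D.S f) y‖ ≤ D.K := by
      calc _ ≤ ‖ContinuousLinearMap.adjoint (D.S f)‖ * ‖y‖ :=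
            (ContinuousLinearMap.adjoint (D.S f)).le_opNorm y
        _ ≤ D.K := by
          rw [hyn, mul_one, LinearIsometryEquiv.norm_map]
          exact hTle
    have h2 : ‖v‖ ^ 2 = ‖ContinuousLinearMap.adjoint (D.S f) y‖ ^ 2 - 2 * (D.K * r) + D.K ^ 2 := by
      rw [hv, @norm_sub_sq ℂ, inner_smul_right, ContinuousLinearMap.adjoint_inner_left, hyTx,
        norm_smul, hxn, Complex.norm_real, Real.norm_eq_abs, abs_of_pos hKpos]
      simp only [RCLike.re_to_complex, Complex.mul_re, Complex.ofReal_re, Complex.ofReal_im,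
        mul_zero, sub_zero, mul_one]
    have h3 : ‖v‖ ^ 2 ≤ ι ^ 2 := by
      have h4 : ‖ContinuousLinearMap.adjoint (D.S f) y‖ ^ 2 ≤ D.K ^ 2 :=
        pow_le_pow_left₀ (norm_nonneg _) h1 2
      have h5 : 2 * D.K * η = ι ^ 2 := by
        rw [hη]
        field_simp
      have h6 : D.K * (D.K - r) ≤ D.K * η := mul_le_mul_of_nonneg_left (by linarith) hKpos.le
      rw [h2]
      nlinarith
    exact (abs_le_of_sq_le_sq' h3 hι.le).2
  exact ⟨f, x, y, v, r, η, hgood, hxn, hyn, hTxy, by linarith, hr2, hvw, hvn, hη0.le, hηι, hK⟩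

lemma inner_re_comm (a b : H) : (⟪a, b⟫_ℂ).re = (⟪b, a⟫_ℂ).re := inner_re_symm (𝕜 := ℂ) a b

/-- The function `P0 = 1 + f alpha f`. -/
noncomputable def Ph (f : ℂ → ℂ) : ℂ → ℂ := fun z => 1 + f z * D.alpha f z

/-- Positivity of `alpha` on functions with nonnegative real part. -/
lemma alpha_re_nonneg {F : ℂ → ℂ} {B : ℝ} (hF : D.InP F) (hre : ∀ z ∈ D.X, 0 ≤ (F z).re)
    (hbd : ∀ z ∈ D.X, ‖F z‖ ≤ B) {z : ℂ} (hz : z ∈ D.X) : 0 ≤ (D.alpha F z).re := by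
  have hB : 0 ≤ B ^ 2 := sq_nonneg B
  refine le_of_forall_pos_le_add ?_
  intro ε hε
  -- the parameter `t`
  obtain ⟨t, ht, htε⟩ : ∃ t : ℝ, 0 < t ∧ t * B ^ 2 / 2 ≤ ε := by
    refine ⟨ε / (B ^ 2 + 1), by positivity, ?_⟩
    have h1 : ε / (B ^ 2 + 1) * B ^ 2 ≤ ε := by
      rw [div_mul_eq_mul_div, div_le_iff₀ (by positivity)]
      nlinarith
    linarith
  set C : ℝ := 1 + t ^ 2 * B ^ 2 / 2 with hCdef
  have hC : 0 ≤ C := by positivity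
  let u : ℂ → ℂ := fun w => 1 + ((-t : ℝ) : ℂ) * F w
  have hu : D.InP u := D.inP_add _ _ D.inP_one (D.inP_const_mul _ _ hF)
  have hub : ∀ w ∈ D.X, ‖u w‖ ≤ C := by
    intro w hw
    have h1 : ‖u w‖ ^ 2 ≤ C ^ 2 := by
      have hnorm : ‖u w‖ ^ 2 = 1 - 2 * t * (F w).re + t ^ 2 * ‖F w‖ ^ 2 := by
        rw [← Complex.normSq_eq_norm_sq, ← Complex.normSq_eq_norm_sq]
        simp only [u, Complex.normSq_apply, Complex.add_re, Complex.one_re, Complex.mul_re,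
          Complex.ofReal_re, Complex.ofReal_im, Complex.add_im, Complex.one_im, Complex.mul_im]
        ring
      have h2 := hre w hw
      have h3 := hbd w hw
      have h4 : ‖F w‖ ^ 2 ≤ B ^ 2 := pow_le_pow_left₀ (norm_nonneg _) h3 2
      have h5 : t ^ 2 * ‖F w‖ ^ 2 ≤ t ^ 2 * B ^ 2 := mul_le_mul_of_nonneg_left h4 (by positivity)
      have h6 : 0 ≤ t * (F w).re := mul_nonneg ht.le h2
      rw [hnorm, hCdef]
      nlinarith [sq_nonneg (t ^ 2 * B ^ 2)]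
    exact (abs_le_of_sq_le_sq' h1 hC).2
  have h1 := D.alpha_bound u C hu hub z hz
  have h2 : D.alpha u z = 1 - (t : ℂ) * D.alpha F z := by
    rw [show u = fun w => (fun _ => (1 : ℂ)) w + (fun w => ((-t : ℝ) : ℂ) * F w) w from rfl,
      D.alpha_add _ _ D.inP_one (D.inP_const_mul _ _ hF) z hz, D.alpha_one z hz,
      D.alpha_const_mul _ _ hF z hz]
    simp only [Complex.conj_ofReal]
    push_cast
    ring
  have h3 : 1 - t * (D.alpha F z).re ≤ C := by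
    refine le_trans (le_of_eq ?_) ((Complex.re_le_norm _).trans h1)
    rw [h2]
    simp
  have h4 : -(t * B ^ 2 / 2) ≤ (D.alpha F z).re := by
    have h5 : t * (-(t * B ^ 2 / 2)) ≤ t * (D.alpha F z).re := by
      rw [hCdef] at h3
      nlinarith
    exact le_of_mul_le_mul_left h5 ht
  linarith

section Main

variable {D} {f : ℂ → ℂ} {x y v : H} {r ι η : ℝ}

lemma Ext.fg_inP (E : D.Ext f x y v r ι η) : D.InP (fun z => f z * D.alpha f z) :=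
  D.inP_mul f _ E.inP (D.inP_alpha f E.inP)

lemma Ext.fg_bd (E : D.Ext f x y v r ι η) : ∀ z ∈ D.X, ‖f z * D.alpha f z‖ ≤ 1 :=
  E.bd_mul (D.alpha_bound f 1 E.inP (D.good_bd f E.good_f))

lemma Ext.ph_inP (E : D.Ext f x y v r ι η) : D.InP (D.Ph f) :=
  D.inP_add _ _ D.inP_one E.fg_inP

lemma Ext.ph_bd (E : D.Ext f x y v r ι η) : ∀ z ∈ D.X, ‖D.Ph f z‖ ≤ 2 := by
  intro z hz
  calc ‖D.Ph f z‖ ≤ ‖(1 : ℂ)‖ + ‖f z * D.alpha f z‖ := norm_add_le _ _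
    _ ≤ 2 := by
      rw [norm_one]
      linarith [E.fg_bd z hz]

lemma Ext.ph_re (E : D.Ext f x y v r ι η) : ∀ z ∈ D.X, 0 ≤ (D.Ph f z).re := by
  intro z hz
  have h1 : |(f z * D.alpha f z).re| ≤ ‖f z * D.alpha f z‖ := Complex.abs_re_le_norm _
  have h3 := (abs_le.mp (h1.trans (E.fg_bd z hz))).1
  simp only [Ph, Complex.add_re, Complex.one_re]
  linarith

lemma Ext.ph_sq (E : D.Ext f x y v r ι η) {z : ℂ} (hz : z ∈ D.X) :
    ‖D.Ph f z‖ ^ 2 ≤ 2 * (D.Ph f z).re := by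
  have h1 := E.fg_bd z hz
  set a : ℂ := f z * D.alpha f z with ha
  have h2 : ‖D.Ph f z‖ ^ 2 = 1 + 2 * a.re + ‖a‖ ^ 2 := by
    rw [← Complex.normSq_eq_norm_sq, ← Complex.normSq_eq_norm_sq]
    simp only [Ph, ← ha, Complex.normSq_apply, Complex.add_re, Complex.one_re, Complex.add_im,
      Complex.one_im]
    ring
  have h3 : ‖a‖ ^ 2 ≤ 1 := by
    have := pow_le_pow_left₀ (norm_nonneg _) h1 2
    simpa using this
  have h4 : (D.Ph f z).re = 1 + a.re := by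
    simp [Ph, ha]
  rw [h2, h4]
  linarith

lemma Ext.L_ph (E : D.Ext f x y v r ι η) :
    ⟪x, D.S (D.Ph f) x⟫_ℂ = 1 + ⟪x, D.S (fun z => f z * D.alpha f z) x⟫_ℂ := by
  have h1 : D.Ph f = fun z => (fun _ => (1 : ℂ)) z + (fun z => f z * D.alpha f z) z := rfl
  rw [h1, D.S_add _ _ D.inP_one E.fg_inP, D.S_one]
  simp only [_root_.add_apply, one_apply_eq_self, inner_add_right, E.L_one]

lemma Ext.y_y (E : D.Ext f x y v r ι η) : ⟪y, y⟫_ℂ = 1 := by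
  rw [inner_self_eq_norm_sq_to_K, E.hy]
  simp

/-- First use of the bound on the functional `phi`. -/
lemma Ext.phi1 (E : D.Ext f x y v r ι η) :
    0 ≤ 2 - (⟪y, D.S f x⟫_ℂ + ⟪D.S (D.alpha f) y, x⟫_ℂ).re ∧
      2 - (⟪y, D.S f x⟫_ℂ + ⟪D.S (D.alpha f) y, x⟫_ℂ).re ≤
        2 - D.K + η + ι - ((⟪x, D.S (D.Ph f) x⟫_ℂ).re - 1) / D.K := by
  have hfb := D.good_bd f E.good_f
  constructor
  · have h1 := D.phi_bound f E.inP hfb x y E.hx E.hy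
    have h2 := (Complex.re_le_norm (⟪y, D.S f x⟫_ℂ + ⟪D.S (D.alpha f) y, x⟫_ℂ)).trans h1
    linarith
  · have hyTx : ⟪y, D.S f x⟫_ℂ = (r : ℂ) := by
      rw [E.hTx, inner_smul_right, E.y_y, mul_one]
    have h1 := E.lc (D.inP_alpha f E.inP) (D.alpha_bound f 1 E.inP hfb) zero_le_one
    rw [mul_one] at h1
    have h2 := (Complex.abs_re_le_norm _).trans h1
    rw [Complex.sub_re, Complex.div_ofReal_re] at h2
    have h3 := (abs_le.mp h2).1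
    have h4 := inner_re_comm (D.S (D.alpha f) y) x
    have h5 : (⟪x, D.S (D.Ph f) x⟫_ℂ).re - 1 =
        (⟪x, D.S (fun z => f z * D.alpha f z) x⟫_ℂ).re := by
      rw [E.L_ph]
      simp
    rw [h5, Complex.add_re, hyTx, Complex.ofReal_re, h4]
    linarith [E.hr1]


/-- Positivity for `P0`. -/
lemma Ext.omega_lower (E : D.Ext f x y v r ι η) {t : ℝ} (ht : 0 < t) :
    -(ι / t) - t * 2 ^ 2 * (1 + ι) / 2 ≤ (⟪x, D.S (D.Ph f) x⟫_ℂ).re :=
  E.le_pos E.ph_inP E.ph_re E.ph_bd ht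

lemma Ext.g_inP (E : D.Ext f x y v r ι η) : D.InP (D.alpha f) := D.inP_alpha f E.inP

lemma Ext.g_bd (E : D.Ext f x y v r ι η) : ∀ z ∈ D.X, ‖D.alpha f z‖ ≤ 1 :=
  D.alpha_bound f 1 E.inP (D.good_bd f E.good_f)

lemma Ext.f_bd (E : D.Ext f x y v r ι η) : ∀ z ∈ D.X, ‖f z‖ ≤ 1 := D.good_bd f E.good_f

lemma Ext.aph_inP (E : D.Ext f x y v r ι η) : D.InP (D.alpha (D.Ph f)) :=
  D.inP_alpha _ E.ph_inP

lemma Ext.aph_bd (E : D.Ext f x y v r ι η) : ∀ z ∈ D.X, ‖D.alpha (D.Ph f) z‖ ≤ 2 :=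
  D.alpha_bound _ 2 E.ph_inP E.ph_bd

/-- `alpha P0 = 1 + alpha (f g)` on `X`. -/
lemma Ext.aph_eq (E : D.Ext f x y v r ι η) {z : ℂ} (hz : z ∈ D.X) :
    D.alpha (D.Ph f) z = 1 + D.alpha (fun w => f w * D.alpha f w) z := by
  have h1 : D.Ph f = fun w => (fun _ => (1 : ℂ)) w + (fun w => f w * D.alpha f w) w := rfl
  rw [h1, D.alpha_add _ _ D.inP_one E.fg_inP z hz, D.alpha_one z hz]

lemma Ext.afg_inP (E : D.Ext f x y v r ι η) : D.InP (D.alpha (fun w => f w * D.alpha f w)) :=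
  D.inP_alpha _ E.fg_inP

/-- `S (alpha P0) = 1 + S (alpha (f g))`. -/
lemma Ext.S_aph (E : D.Ext f x y v r ι η) :
    D.S (D.alpha (D.Ph f)) = 1 + D.S (D.alpha (fun w => f w * D.alpha f w)) := by
  have h1 := D.S_congr (D.alpha (D.Ph f))
    (fun z => (fun _ => (1 : ℂ)) z + (D.alpha (fun w => f w * D.alpha f w)) z) E.aph_inP
    (D.inP_add _ _ D.inP_one E.afg_inP) (fun z hz => E.aph_eq hz)
  rw [h1, D.S_add _ _ D.inP_one E.afg_inP, D.S_one]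

/-- The pointwise inequality behind the chain argument. -/
lemma chain_pt {a b c : ℂ} {t : ℝ} (ht : 0 < t) (ha : ‖a‖ ≤ 1) (hb : ‖b‖ ≤ 1) (hc : ‖c‖ ≤ 1) :
    0 ≤ (a * c).re + (1 + t⁻¹) * (conj a * b).re + (1 + t) * (1 + (b * c).re) + t⁻¹ := by
  have ha2 : a.re ^ 2 + a.im ^ 2 ≤ 1 := by
    have := pow_le_pow_left₀ (norm_nonneg _) ha 2
    rw [← Complex.normSq_eq_norm_sq, Complex.normSq_apply] at this
    nlinarith
  have hb2 : b.re ^ 2 + b.im ^ 2 ≤ 1 := by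
    have := pow_le_pow_left₀ (norm_nonneg _) hb 2
    rw [← Complex.normSq_eq_norm_sq, Complex.normSq_apply] at this
    nlinarith
  have hc2 : c.re ^ 2 + c.im ^ 2 ≤ 1 := by
    have := pow_le_pow_left₀ (norm_nonneg _) hc 2
    rw [← Complex.normSq_eq_norm_sq, Complex.normSq_apply] at this
    nlinarith
  simp only [Complex.mul_re, Complex.conj_re, Complex.conj_im]
  set u : ℝ := t⁻¹ with hu
  have hu0 : 0 < u := by positivity
  have htu : t * u = 1 := by rw [hu]; field_simp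
  -- `x = a + b`, `y = b + conj c`
  set x1 := a.re + b.re
  set x2 := a.im + b.im
  set y1 := b.re + c.re
  set y2 := b.im - c.im
  have key : 0 ≤ u * (x1 + t * y1) ^ 2 + u * (x2 + t * y2) ^ 2 := by positivity
  have e1 : u * (x1 + t * y1) ^ 2 = u * x1 ^ 2 + 2 * (t * u) * x1 * y1 + (t * u) * t * y1 ^ 2 := by
    ring
  have e2 : u * (x2 + t * y2) ^ 2 = u * x2 ^ 2 + 2 * (t * u) * x2 * y2 + (t * u) * t * y2 ^ 2 := by
    ring
  rw [e1, e2, htu] at key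
  have hA : 0 ≤ u * (1 - (a.re ^ 2 + a.im ^ 2)) := mul_nonneg hu0.le (by linarith)
  have hB : 0 ≤ (u + t + 2) * (1 - (b.re ^ 2 + b.im ^ 2)) :=
    mul_nonneg (by positivity) (by linarith)
  have hC : 0 ≤ t * (1 - (c.re ^ 2 + c.im ^ 2)) := mul_nonneg ht.le (by linarith)
  simp only [x1, x2, y1, y2] at key
  nlinarith

/-- The chain inequality on `X`. -/
lemma Ext.chain (E : D.Ext f x y v r ι η) {t : ℝ} (ht : 0 < t) {z : ℂ} (hz : z ∈ D.X) :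
    1 - (1 + t⁻¹) * (D.Ph f z).re - (1 + t) * (D.alpha (D.Ph f) z).re ≤
      (conj (f z) * D.alpha (D.alpha f) z).re := by
  set a : ℂ := f z with ha
  have ha1 : ‖a‖ ≤ 1 := E.f_bd z hz
  have hu0 : 0 < t⁻¹ := by positivity
  -- the function of `w`
  let F1 : ℂ → ℂ := fun w => a * D.alpha f w
  let F2 : ℂ → ℂ := fun w => (((1 + t⁻¹ : ℝ) : ℂ) * conj a) * f w
  let F3 : ℂ → ℂ := fun w => ((1 + t : ℝ) : ℂ) * D.Ph f w
  let F4 : ℂ → ℂ := fun w => ((t⁻¹ : ℝ) : ℂ) * (fun _ => (1 : ℂ)) w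
  have h1 : D.InP F1 := D.inP_const_mul _ _ E.g_inP
  have h2 : D.InP F2 := D.inP_const_mul _ _ E.inP
  have h3 : D.InP F3 := D.inP_const_mul _ _ E.ph_inP
  have h4 : D.InP F4 := D.inP_const_mul _ _ D.inP_one
  let F12 : ℂ → ℂ := fun w => F1 w + F2 w
  have h12 : D.InP F12 := D.inP_add _ _ h1 h2
  let F123 : ℂ → ℂ := fun w => F12 w + F3 w
  have h123 : D.InP F123 := D.inP_add _ _ h12 h3
  let F : ℂ → ℂ := fun w => F123 w + F4 w
  have hF : D.InP F := D.inP_add _ _ h123 h4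
  have hre : ∀ w ∈ D.X, 0 ≤ (F w).re := by
    intro w hw
    have := chain_pt (a := a) (b := f w) (c := D.alpha f w) ht ha1 (E.f_bd w hw) (E.g_bd w hw)
    have e : (F w).re = (a * D.alpha f w).re + (1 + t⁻¹) * (conj a * f w).re +
        (1 + t) * (1 + (f w * D.alpha f w).re) + t⁻¹ := by
      simp only [F, F123, F12, F1, F2, F3, F4, Ph, Complex.add_re, Complex.one_re, mul_one]
      rw [mul_assoc, Complex.re_ofReal_mul, Complex.re_ofReal_mul, Complex.ofReal_re]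
      simp only [Complex.add_re, Complex.one_re]
    rw [e]
    exact this
  have hbd : ∀ w ∈ D.X, ‖F w‖ ≤ 1 + (1 + t⁻¹) + (1 + t) * 2 + t⁻¹ := by
    intro w hw
    have n1 : ‖F1 w‖ ≤ 1 := by
      simp only [F1, norm_mul]
      have := E.g_bd w hw
      nlinarith [norm_nonneg a, norm_nonneg (D.alpha f w)]
    have n2 : ‖F2 w‖ ≤ 1 + t⁻¹ := by
      simp only [F2, norm_mul, Complex.norm_conj, Complex.norm_real, Real.norm_eq_abs]
      rw [abs_of_pos (by positivity)]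
      have := E.f_bd w hw
      have h5 : ‖a‖ * ‖f w‖ ≤ 1 := by nlinarith [norm_nonneg a, norm_nonneg (f w)]
      calc (1 + t⁻¹) * ‖a‖ * ‖f w‖ = (1 + t⁻¹) * (‖a‖ * ‖f w‖) := by ring
        _ ≤ (1 + t⁻¹) * 1 := mul_le_mul_of_nonneg_left h5 (by positivity)
        _ = _ := by ring
    have n3 : ‖F3 w‖ ≤ (1 + t) * 2 := by
      simp only [F3, norm_mul, Complex.norm_real, Real.norm_eq_abs]
      rw [abs_of_pos (by positivity)]
      exact mul_le_mul_of_nonneg_left (E.ph_bd w hw) (by positivity)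
    have n4 : ‖F4 w‖ ≤ t⁻¹ := by
      simp only [F4, mul_one, Complex.norm_real, Real.norm_eq_abs]
      rw [abs_of_pos hu0]
    calc ‖F w‖ ≤ ‖F123 w‖ + ‖F4 w‖ := norm_add_le _ _
      _ ≤ ‖F12 w‖ + ‖F3 w‖ + ‖F4 w‖ := by gcongr; exact norm_add_le _ _
      _ ≤ ‖F1 w‖ + ‖F2 w‖ + ‖F3 w‖ + ‖F4 w‖ := by gcongr; exact norm_add_le _ _
      _ ≤ _ := by linarith
  have hpos := D.alpha_re_nonneg hF hre hbd hz
  have hval : D.alpha F z = conj a * D.alpha (D.alpha f) z +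
      (((1 + t⁻¹ : ℝ) : ℂ) * a) * D.alpha f z + ((1 + t : ℝ) : ℂ) * D.alpha (D.Ph f) z +
      ((t⁻¹ : ℝ) : ℂ) := by
    have s1 : D.alpha F z = D.alpha F123 z + D.alpha F4 z := D.alpha_add _ _ h123 h4 z hz
    have s2 : D.alpha F123 z = D.alpha F12 z + D.alpha F3 z := D.alpha_add _ _ h12 h3 z hz
    have s3 : D.alpha F12 z = D.alpha F1 z + D.alpha F2 z := D.alpha_add _ _ h1 h2 z hz
    have s4 : D.alpha F1 z = conj a * D.alpha (D.alpha f) z :=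
      D.alpha_const_mul _ _ E.g_inP z hz
    have s5 : D.alpha F2 z = conj (((1 + t⁻¹ : ℝ) : ℂ) * conj a) * D.alpha f z :=
      D.alpha_const_mul _ _ E.inP z hz
    have s6 : D.alpha F3 z = conj ((1 + t : ℝ) : ℂ) * D.alpha (D.Ph f) z :=
      D.alpha_const_mul _ _ E.ph_inP z hz
    have s7 : D.alpha F4 z = conj ((t⁻¹ : ℝ) : ℂ) * D.alpha (fun _ => (1 : ℂ)) z :=
      D.alpha_const_mul _ _ D.inP_one z hz
    rw [s1, s2, s3, s4, s5, s6, s7, D.alpha_one z hz]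
    simp only [map_mul, Complex.conj_ofReal, Complex.conj_conj, mul_one]
  rw [hval] at hpos
  have hph : (D.Ph f z).re = 1 + (a * D.alpha f z).re := by
    simp only [Ph, Complex.add_re, Complex.one_re, ha]
  rw [hph]
  simp only [Complex.add_re, Complex.ofReal_re] at hpos
  rw [mul_assoc, Complex.re_ofReal_mul, Complex.re_ofReal_mul] at hpos
  have hu1 : (1 + t⁻¹) * (1 + (a * D.alpha f z).re) =
      (1 + t⁻¹) * (a * D.alpha f z).re + 1 + t⁻¹ := by ring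
  rw [hu1]
  linarith



/-- The function `E = f alpha (f P0) + alpha P0`. -/
noncomputable def Eh (D : ChainData H) (f : ℂ → ℂ) : ℂ → ℂ :=
  fun z => f z * D.alpha (fun w => f w * D.Ph f w) z + D.alpha (D.Ph f) z

lemma Ext.fh_inP (E : D.Ext f x y v r ι η) : D.InP (fun w => f w * D.Ph f w) :=
  D.inP_mul f _ E.inP E.ph_inP

lemma Ext.fh_bd (E : D.Ext f x y v r ι η) : ∀ z ∈ D.X, ‖f z * D.Ph f z‖ ≤ 2 :=
  E.bd_mul E.ph_bd

lemma Ext.u2_inP (E : D.Ext f x y v r ι η) : D.InP (D.alpha (fun w => f w * D.Ph f w)) :=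
  D.inP_alpha _ E.fh_inP

lemma Ext.u2_bd (E : D.Ext f x y v r ι η) :
    ∀ z ∈ D.X, ‖D.alpha (fun w => f w * D.Ph f w) z‖ ≤ 2 :=
  D.alpha_bound _ 2 E.fh_inP E.fh_bd

lemma Ext.f2_inP (E : D.Ext f x y v r ι η) :
    D.InP (fun z => f z * D.alpha (fun w => f w * D.Ph f w) z) :=
  D.inP_mul f _ E.inP E.u2_inP

lemma Ext.eh_inP (E : D.Ext f x y v r ι η) : D.InP (Eh D f) :=
  D.inP_add _ _ E.f2_inP E.aph_inP

lemma Ext.eh_bd (E : D.Ext f x y v r ι η) : ∀ z ∈ D.X, ‖Eh D f z‖ ≤ 4 := by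
  intro z hz
  calc ‖Eh D f z‖ ≤ ‖f z * D.alpha (fun w => f w * D.Ph f w) z‖ + ‖D.alpha (D.Ph f) z‖ :=
        norm_add_le _ _
    _ ≤ 2 + 2 := add_le_add (E.bd_mul E.u2_bd z hz) (E.aph_bd z hz)
    _ = 4 := by norm_num

lemma Ext.L_eh (E : D.Ext f x y v r ι η) :
    ⟪x, D.S (Eh D f) x⟫_ℂ = ⟪x, D.S (fun z => f z * D.alpha (fun w => f w * D.Ph f w) z) x⟫_ℂ +
      ⟪x, D.S (D.alpha (D.Ph f)) x⟫_ℂ := by
  have h1 : Eh D f = fun z => (fun z => f z * D.alpha (fun w => f w * D.Ph f w) z) z +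
      (D.alpha (D.Ph f)) z := rfl
  rw [h1, D.S_add _ _ E.f2_inP E.aph_inP]
  simp only [_root_.add_apply, inner_add_right]

/-- Numbers in the right half plane with `|P|^2 ≤ 2 Re P`. -/
lemma re_mul_le {P Q : ℂ} {r : ℝ} (hr : 0 < r) (hP : ‖P‖ ^ 2 ≤ 2 * P.re) (hQ : ‖Q‖ ^ 2 ≤ 2 * Q.re) :
    (P * Q).re ≤ r * P.re + r⁻¹ * Q.re := by
  have hu0 : 0 < r⁻¹ := by positivity
  have hru : r * r⁻¹ = 1 := by field_simp
  have hP0 : 0 ≤ P.re := by nlinarith [sq_nonneg ‖P‖]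
  have hQ0 : 0 ≤ Q.re := by nlinarith [sq_nonneg ‖Q‖]
  have h1 : (P * Q).re ≤ ‖P‖ * ‖Q‖ := by
    rw [← norm_mul]
    exact Complex.re_le_norm _
  have h2 : (‖P‖ * ‖Q‖) ^ 2 ≤ (r * P.re + r⁻¹ * Q.re) ^ 2 := by
    have h3 : (‖P‖ * ‖Q‖) ^ 2 ≤ (2 * P.re) * (2 * Q.re) := by
      rw [mul_pow]
      exact mul_le_mul hP hQ (sq_nonneg _) (by linarith)
    have h4 : (r * P.re + r⁻¹ * Q.re) ^ 2 =
        (r * P.re - r⁻¹ * Q.re) ^ 2 + 4 * (r * r⁻¹) * P.re * Q.re := by ring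
    rw [h4, hru]
    nlinarith [sq_nonneg (r * P.re - r⁻¹ * Q.re)]
  have h5 : 0 ≤ r * P.re + r⁻¹ * Q.re := by positivity
  exact h1.trans (abs_le_of_sq_le_sq' h2 h5).2

lemma one_add_sq_le {b : ℂ} (hb : ‖b‖ ≤ 1) : ‖(1 : ℂ) + b‖ ^ 2 ≤ 2 * ((1 : ℂ) + b).re := by
  have h3 : ‖b‖ ^ 2 ≤ 1 := by
    have := pow_le_pow_left₀ (norm_nonneg _) hb 2
    simpa using this
  have h2 : ‖(1 : ℂ) + b‖ ^ 2 = 1 + 2 * b.re + ‖b‖ ^ 2 := by
    rw [← Complex.normSq_eq_norm_sq, ← Complex.normSq_eq_norm_sq]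
    simp only [Complex.normSq_apply, Complex.add_re, Complex.one_re, Complex.add_im,
      Complex.one_im]
    ring
  rw [h2]
  simp only [Complex.add_re, Complex.one_re]
  linarith

/-- The pointwise bound of `E`. -/
lemma Ext.eh_pt (E : D.Ext f x y v r ι η) {s : ℝ} (hs : 0 < s) {z : ℂ} (hz : z ∈ D.X) :
    (Eh D f z).re ≤ s * (D.Ph f z).re + s⁻¹ * (D.alpha (D.Ph f) z).re := by
  set a : ℂ := f z with ha
  have ha1 : ‖a‖ ≤ 1 := E.f_bd z hz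
  have hu0 : 0 < s⁻¹ := by positivity
  let F1 : ℂ → ℂ := fun w => (s : ℂ) * (fun _ => (1 : ℂ)) w
  let F2 : ℂ → ℂ := fun w => ((s : ℂ) * conj a) * f w
  let F3 : ℂ → ℂ := fun w => ((s⁻¹ - 1 : ℝ) : ℂ) * D.Ph f w
  let F4 : ℂ → ℂ := fun w => (-conj a) * (f w * D.Ph f w)
  have h1 : D.InP F1 := D.inP_const_mul _ _ D.inP_one
  have h2 : D.InP F2 := D.inP_const_mul _ _ E.inP
  have h3 : D.InP F3 := D.inP_const_mul _ _ E.ph_inP
  have h4 : D.InP F4 := D.inP_const_mul _ _ E.fh_inP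
  let F12 : ℂ → ℂ := fun w => F1 w + F2 w
  have h12 : D.InP F12 := D.inP_add _ _ h1 h2
  let F123 : ℂ → ℂ := fun w => F12 w + F3 w
  have h123 : D.InP F123 := D.inP_add _ _ h12 h3
  let F : ℂ → ℂ := fun w => F123 w + F4 w
  have hF : D.InP F := D.inP_add _ _ h123 h4
  have hFe : ∀ w, F w = (s : ℂ) * (1 + conj a * f w) + ((s⁻¹ : ℝ) : ℂ) * D.Ph f w -
      (1 + conj a * f w) * D.Ph f w := by
    intro w
    simp only [F, F123, F12, F1, F2, F3, F4]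
    push_cast
    ring
  have hb : ∀ w ∈ D.X, ‖conj a * f w‖ ≤ 1 := by
    intro w hw
    rw [norm_mul, Complex.norm_conj]
    have := E.f_bd w hw
    nlinarith [norm_nonneg a, norm_nonneg (f w)]
  have hre : ∀ w ∈ D.X, 0 ≤ (F w).re := by
    intro w hw
    have h5 := re_mul_le hs (one_add_sq_le (hb w hw)) (E.ph_sq hw)
    rw [hFe]
    simp only [Complex.sub_re, Complex.add_re, Complex.re_ofReal_mul] at h5 ⊢
    linarith
  have hbd : ∀ w ∈ D.X, ‖F w‖ ≤ s * 2 + s⁻¹ * 2 + 2 * 2 := by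
    intro w hw
    have n0 : ‖(1 : ℂ) + conj a * f w‖ ≤ 2 := by
      calc _ ≤ ‖(1 : ℂ)‖ + ‖conj a * f w‖ := norm_add_le _ _
        _ ≤ 2 := by rw [norm_one]; linarith [hb w hw]
    have n1 : ‖(s : ℂ) * (1 + conj a * f w)‖ ≤ s * 2 := by
      rw [norm_mul, Complex.norm_real, Real.norm_eq_abs, abs_of_pos hs]
      exact mul_le_mul_of_nonneg_left n0 hs.le
    have n2 : ‖((s⁻¹ : ℝ) : ℂ) * D.Ph f w‖ ≤ s⁻¹ * 2 := by
      rw [norm_mul, Complex.norm_real, Real.norm_eq_abs, abs_of_pos hu0]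
      exact mul_le_mul_of_nonneg_left (E.ph_bd w hw) hu0.le
    have n3 : ‖((1 : ℂ) + conj a * f w) * D.Ph f w‖ ≤ 2 * 2 := by
      rw [norm_mul]
      exact mul_le_mul n0 (E.ph_bd w hw) (norm_nonneg _) (by norm_num)
    rw [hFe]
    calc _ ≤ ‖(s : ℂ) * (1 + conj a * f w) + ((s⁻¹ : ℝ) : ℂ) * D.Ph f w‖ +
          ‖((1 : ℂ) + conj a * f w) * D.Ph f w‖ := norm_sub_le _ _
      _ ≤ ‖(s : ℂ) * (1 + conj a * f w)‖ + ‖((s⁻¹ : ℝ) : ℂ) * D.Ph f w‖ +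
          ‖((1 : ℂ) + conj a * f w) * D.Ph f w‖ := by gcongr; exact norm_add_le _ _
      _ ≤ _ := by linarith
  have hpos := D.alpha_re_nonneg hF hre hbd hz
  have hval : D.alpha F z = (s : ℂ) * 1 + ((s : ℂ) * a) * D.alpha f z +
      ((s⁻¹ - 1 : ℝ) : ℂ) * D.alpha (D.Ph f) z +
      (-a) * D.alpha (fun w => f w * D.Ph f w) z := by
    have s1 : D.alpha F z = D.alpha F123 z + D.alpha F4 z := D.alpha_add _ _ h123 h4 z hz
    have s2 : D.alpha F123 z = D.alpha F12 z + D.alpha F3 z := D.alpha_add _ _ h12 h3 z hz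
    have s3 : D.alpha F12 z = D.alpha F1 z + D.alpha F2 z := D.alpha_add _ _ h1 h2 z hz
    have s4 : D.alpha F1 z = conj (s : ℂ) * D.alpha (fun _ => (1 : ℂ)) z :=
      D.alpha_const_mul _ _ D.inP_one z hz
    have s5 : D.alpha F2 z = conj ((s : ℂ) * conj a) * D.alpha f z :=
      D.alpha_const_mul _ _ E.inP z hz
    have s6 : D.alpha F3 z = conj ((s⁻¹ - 1 : ℝ) : ℂ) * D.alpha (D.Ph f) z :=
      D.alpha_const_mul _ _ E.ph_inP z hz
    have s7 : D.alpha F4 z = conj (-conj a) * D.alpha (fun w => f w * D.Ph f w) z :=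
      D.alpha_const_mul _ _ E.fh_inP z hz
    rw [s1, s2, s3, s4, s5, s6, s7, D.alpha_one z hz]
    simp only [map_mul, map_neg, Complex.conj_ofReal, Complex.conj_conj]
  rw [hval] at hpos
  have e1 : (Eh D f z).re = (a * D.alpha (fun w => f w * D.Ph f w) z).re +
      (D.alpha (D.Ph f) z).re := by
    simp only [Eh, Complex.add_re, ha]
  have e2 : (D.Ph f z).re = 1 + (a * D.alpha f z).re := by
    simp only [Ph, Complex.add_re, Complex.one_re, ha]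
  rw [e1, e2]
  simp only [Complex.add_re, mul_one, Complex.ofReal_re, neg_mul, Complex.neg_re] at hpos
  rw [mul_assoc, Complex.re_ofReal_mul, Complex.re_ofReal_mul] at hpos
  have e3 : (s⁻¹ - 1) * (D.alpha (D.Ph f) z).re =
      s⁻¹ * (D.alpha (D.Ph f) z).re - (D.alpha (D.Ph f) z).re := by ring
  rw [e3] at hpos
  nlinarith

/-- The functional form of the bound of `E`. -/
lemma Ext.L_eh_up (E : D.Ext f x y v r ι η) {s t : ℝ} (hs : 0 < s) (ht : 0 < t) :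
    (⟪x, D.S (Eh D f) x⟫_ℂ).re ≤ s * (⟪x, D.S (D.Ph f) x⟫_ℂ).re +
      s⁻¹ * (⟪x, D.S (D.alpha (D.Ph f)) x⟫_ℂ).re +
      (ι / t + t * (s * 2 + s⁻¹ * 2 + 4) ^ 2 * (1 + ι) / 2) := by
  have hu0 : 0 < s⁻¹ := by positivity
  let F1 : ℂ → ℂ := fun w => (s : ℂ) * D.Ph f w
  let F2 : ℂ → ℂ := fun w => ((s⁻¹ : ℝ) : ℂ) * D.alpha (D.Ph f) w
  let F3 : ℂ → ℂ := fun w => ((-1 : ℝ) : ℂ) * Eh D f w
  have h1 : D.InP F1 := D.inP_const_mul _ _ E.ph_inP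
  have h2 : D.InP F2 := D.inP_const_mul _ _ E.aph_inP
  have h3 : D.InP F3 := D.inP_const_mul _ _ E.eh_inP
  let F12 : ℂ → ℂ := fun w => F1 w + F2 w
  have h12 : D.InP F12 := D.inP_add _ _ h1 h2
  let F : ℂ → ℂ := fun w => F12 w + F3 w
  have hF : D.InP F := D.inP_add _ _ h12 h3
  have hre : ∀ w ∈ D.X, 0 ≤ (F w).re := by
    intro w hw
    have := E.eh_pt hs hw
    simp only [F, F12, F1, F2, F3, Complex.add_re, Complex.re_ofReal_mul]
    linarith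
  have hbd : ∀ w ∈ D.X, ‖F w‖ ≤ s * 2 + s⁻¹ * 2 + 4 := by
    intro w hw
    have n1 : ‖F1 w‖ ≤ s * 2 := by
      simp only [F1]
      rw [norm_mul, Complex.norm_real, Real.norm_eq_abs, abs_of_pos hs]
      exact mul_le_mul_of_nonneg_left (E.ph_bd w hw) hs.le
    have n2 : ‖F2 w‖ ≤ s⁻¹ * 2 := by
      simp only [F2]
      rw [norm_mul, Complex.norm_real, Real.norm_eq_abs, abs_of_pos hu0]
      exact mul_le_mul_of_nonneg_left (E.aph_bd w hw) hu0.le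
    have n3 : ‖F3 w‖ ≤ 4 := by
      simp only [F3]
      rw [norm_mul, Complex.norm_real]
      simpa using E.eh_bd w hw
    calc ‖F w‖ ≤ ‖F12 w‖ + ‖F3 w‖ := norm_add_le _ _
      _ ≤ ‖F1 w‖ + ‖F2 w‖ + ‖F3 w‖ := by gcongr; exact norm_add_le _ _
      _ ≤ _ := by linarith
  have hfin := E.le_pos hF hre hbd ht
  have hL : (⟪x, D.S F x⟫_ℂ).re = s * (⟪x, D.S (D.Ph f) x⟫_ℂ).re +
      s⁻¹ * (⟪x, D.S (D.alpha (D.Ph f)) x⟫_ℂ).re - (⟪x, D.S (Eh D f) x⟫_ℂ).re := by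
    have s1 : D.S F = D.S F12 + D.S F3 := D.S_add _ _ h12 h3
    have s2 : D.S F12 = D.S F1 + D.S F2 := D.S_add _ _ h1 h2
    have s3 : D.S F1 = (s : ℂ) • D.S (D.Ph f) := D.S_const_mul _ _ E.ph_inP
    have s4 : D.S F2 = ((s⁻¹ : ℝ) : ℂ) • D.S (D.alpha (D.Ph f)) := D.S_const_mul _ _ E.aph_inP
    have s5 : D.S F3 = ((-1 : ℝ) : ℂ) • D.S (Eh D f) := D.S_const_mul _ _ E.eh_inP
    rw [s1, s2, s3, s4, s5]
    simp only [_root_.add_apply, _root_.smul_apply, inner_add_right, inner_smul_right,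
      Complex.add_re, Complex.re_ofReal_mul]
    ring
  rw [hL] at hfin
  linarith

/-- The weighted term of the Cauchy-Schwarz inequality with `G = 2 P0`. -/
lemma Ext.weight (E : D.Ext f x y v r ι η) {l : ℝ} (hl : 0 < l) :
    (l / 2) * (⟪y, D.S (fun z => (2 : ℂ) * D.Ph f z) y⟫_ℂ +
        ⟪D.S (D.alpha (fun z => (2 : ℂ) * D.Ph f z)) y, y⟫_ℂ).re ≤
      l * ((⟪x, D.S (D.Ph f) x⟫_ℂ).re + (⟪x, D.S (D.alpha (D.Ph f)) x⟫_ℂ).re + 8 * ι) := by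
  have h1 : D.S (D.alpha (fun z => (2 : ℂ) * D.Ph f z)) = (2 : ℂ) • D.S (D.alpha (D.Ph f)) := by
    rw [← D.S_const_mul _ _ E.aph_inP]
    refine D.S_congr _ _ (D.inP_alpha _ (D.inP_const_mul _ _ E.ph_inP))
      (D.inP_const_mul _ _ E.aph_inP) ?_
    intro z hz
    rw [D.alpha_const_mul _ _ E.ph_inP z hz]
    have h2c : (starRingEnd ℂ) (2 : ℂ) = 2 := by apply Complex.ext <;> simp
    rw [h2c]
  have h2 : D.S (fun z => (2 : ℂ) * D.Ph f z) = (2 : ℂ) • D.S (D.Ph f) :=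
    D.S_const_mul _ _ E.ph_inP
  rw [h1, h2]
  simp only [_root_.smul_apply, inner_smul_right, inner_smul_left, Complex.conj_ofReal]
  have h3 := E.lb E.ph_inP E.ph_bd (by norm_num)
  have h4 := E.lb E.aph_inP E.aph_bd (by norm_num)
  have h5 := (Complex.abs_re_le_norm _).trans h3
  have h6 := (Complex.abs_re_le_norm _).trans h4
  rw [Complex.sub_re] at h5 h6
  have h7 := (abs_le.mp h5).2
  have h8 := (abs_le.mp h6).2
  have h9 := inner_re_comm (D.S (D.alpha (D.Ph f)) y) y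
  have e : (2 * ⟪y, D.S (D.Ph f) y⟫_ℂ + (starRingEnd ℂ) 2 * ⟪D.S (D.alpha (D.Ph f)) y, y⟫_ℂ).re =
      2 * (⟪y, D.S (D.Ph f) y⟫_ℂ).re + 2 * (⟪D.S (D.alpha (D.Ph f)) y, y⟫_ℂ).re := by
    simp
  rw [e, h9]
  have : (l / 2) * (2 * (⟪y, D.S (D.Ph f) y⟫_ℂ).re + 2 * (⟪y, D.S (D.alpha (D.Ph f)) y⟫_ℂ).re) =
      l * ((⟪y, D.S (D.Ph f) y⟫_ℂ).re + (⟪y, D.S (D.alpha (D.Ph f)) y⟫_ℂ).re) := by ring
  rw [this]
  refine mul_le_mul_of_nonneg_left ?_ hl.le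
  linarith

/-- Near invariance: use of the Cauchy-Schwarz form of the functional `phi`, `z = y`. -/
lemma Ext.cs (E : D.Ext f x y v r ι η) {l : ℝ} (hl : 0 < l) :
    (⟪x, D.S (D.alpha (D.Ph f)) x⟫_ℂ).re + (⟪x, D.S (D.alpha (D.Ph f)) x⟫_ℂ).re / D.K ≤
      (D.K - 1) * (⟪x, D.S (D.Ph f) x⟫_ℂ).re + (⟪x, D.S (Eh D f) x⟫_ℂ).re / D.K +
        ι * (D.K * 2) + ι * 2 + 2 * ι * 2 + 2 * ι * 2 +
        l * ((⟪x, D.S (D.Ph f) x⟫_ℂ).re + (⟪x, D.S (D.alpha (D.Ph f)) x⟫_ℂ).re + 8 * ι) +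
        (2 - (⟪y, D.S f x⟫_ℂ + ⟪D.S (D.alpha f) y, x⟫_ℂ).re) / l := by
  have hG : ∀ z ∈ D.X, ‖D.Ph f z‖ ^ 2 ≤ ((2 : ℂ) * D.Ph f z).re := by
    intro z hz
    have := E.ph_sq hz
    simpa using this
  have hcs := D.phi_cs f (D.Ph f) (fun z => (2 : ℂ) * D.Ph f z) E.inP E.ph_inP
    (D.inP_const_mul _ _ E.ph_inP) (D.good_bd f E.good_f) hG x y y E.hx E.hy l hl
  have hw := E.weight hl
  have h0 := (abs_le.mp ((Complex.abs_re_le_norm _).trans hcs)).1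
  simp only [Complex.sub_re, Complex.add_re] at h0 hw
  have ha1 : (⟪y, D.S (fun z => f z * D.Ph f z) x⟫_ℂ).re ≤
      D.K * (⟪x, D.S (D.Ph f) x⟫_ℂ).re + ι * (D.K * 2) := by
    have h1 := E.ld E.ph_inP E.ph_bd
    have h2 := (Complex.abs_re_le_norm _).trans h1
    rw [Complex.sub_re, Complex.re_ofReal_mul] at h2
    linarith [(abs_le.mp h2).2]
  have ha2 : (⟪D.S (D.alpha (fun w => f w * D.Ph f w)) y, x⟫_ℂ).re ≤
      (⟪x, D.S (fun z => f z * D.alpha (fun w => f w * D.Ph f w) z) x⟫_ℂ).re / D.K + ι * 2 := by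
    have h1 := E.lc E.u2_inP E.u2_bd (by norm_num)
    have h2 := (Complex.abs_re_le_norm _).trans h1
    rw [Complex.sub_re, Complex.div_ofReal_re] at h2
    rw [inner_re_comm]
    linarith [(abs_le.mp h2).2]
  have ha3 : (⟪x, D.S (D.Ph f) x⟫_ℂ).re - 2 * ι * 2 ≤ (⟪y, D.S (D.Ph f) y⟫_ℂ).re := by
    have h1 := E.lb E.ph_inP E.ph_bd (by norm_num)
    have h2 := (Complex.abs_re_le_norm _).trans h1
    rw [Complex.sub_re] at h2
    linarith [(abs_le.mp h2).1]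
  have ha4 : (⟪x, D.S (D.alpha (D.Ph f)) x⟫_ℂ).re - 2 * ι * 2 ≤
      (⟪D.S (D.alpha (D.Ph f)) y, y⟫_ℂ).re := by
    have h1 := E.lb E.aph_inP E.aph_bd (by norm_num)
    have h2 := (Complex.abs_re_le_norm _).trans h1
    rw [Complex.sub_re] at h2
    rw [inner_re_comm (D.S (D.alpha (D.Ph f)) y) y]
    linarith [(abs_le.mp h2).1]
  have hE := congrArg Complex.re E.L_eh
  rw [Complex.add_re] at hE
  have e1 : (⟪x, D.S (fun z => f z * D.alpha (fun w => f w * D.Ph f w) z) x⟫_ℂ).re / D.K =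
      (⟪x, D.S (Eh D f) x⟫_ℂ).re / D.K - (⟪x, D.S (D.alpha (D.Ph f)) x⟫_ℂ).re / D.K := by
    rw [hE]
    ring
  rw [e1] at ha2
  simp only [Complex.add_re]
  linarith

/-- The key use of Cauchy-Schwarz, `z = x`, test function `alpha f`. -/
lemma Ext.three (E : D.Ext f x y v r ι η) {l : ℝ} (hl : 0 < l) :
    (⟪y, D.S (D.alpha (D.alpha f)) x⟫_ℂ).re ≤
      ((⟪x, D.S (D.Ph f) x⟫_ℂ).re - 1) * (1 - 1 / D.K) +
        ((⟪x, D.S (D.alpha (D.Ph f)) x⟫_ℂ).re - 1) + ι + l +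
        (2 - (⟪y, D.S f x⟫_ℂ + ⟪D.S (D.alpha f) y, x⟫_ℂ).re) / l := by
  have hKpos := E.K_pos
  have hG : ∀ z ∈ D.X, ‖D.alpha f z‖ ^ 2 ≤ ((fun _ => (1 : ℂ)) z).re := by
    intro z hz
    have := pow_le_pow_left₀ (norm_nonneg _) (E.g_bd z hz) 2
    simpa using this
  have hcs := D.phi_cs f (D.alpha f) (fun _ => (1 : ℂ)) E.inP E.g_inP D.inP_one
    (D.good_bd f E.good_f) hG x y x E.hx E.hy l hl
  have hs1 : D.S (D.alpha (fun _ => (1 : ℂ))) = 1 := by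
    rw [← D.S_one]
    exact D.S_congr _ _ (D.inP_alpha _ D.inP_one) D.inP_one (fun z hz => D.alpha_one z hz)
  rw [hs1, D.S_one] at hcs
  simp only [one_apply_eq_self, E.L_one] at hcs
  have h0 := (abs_le.mp ((Complex.abs_re_le_norm _).trans hcs)).1
  simp only [Complex.sub_re, Complex.add_re, Complex.one_re] at h0
  have e1 : (⟪x, D.S (fun w => f w * D.alpha f w) x⟫_ℂ).re = (⟪x, D.S (D.Ph f) x⟫_ℂ).re - 1 := by
    rw [E.L_ph]
    simp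
  have e2 : (⟪D.S (D.alpha (fun w => f w * D.alpha f w)) x, x⟫_ℂ).re =
      (⟪x, D.S (D.alpha (D.Ph f)) x⟫_ℂ).re - 1 := by
    rw [inner_re_comm, E.S_aph]
    simp only [_root_.add_apply, one_apply_eq_self, inner_add_right, E.L_one, Complex.add_re,
      Complex.one_re]
    ring
  have e3 : (⟪D.S (D.alpha (D.alpha f)) x, y⟫_ℂ).re = (⟪y, D.S (D.alpha (D.alpha f)) x⟫_ℂ).re :=
    inner_re_comm _ _
  have h1 := E.lc E.g_inP E.g_bd zero_le_one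
  rw [mul_one] at h1
  have h2 := (Complex.abs_re_le_norm _).trans h1
  rw [Complex.sub_re, Complex.div_ofReal_re, e1] at h2
  have h3 := (abs_le.mp h2).1
  rw [e1, e2, e3] at h0
  have e4 : ((⟪x, D.S (D.Ph f) x⟫_ℂ).re - 1) * (1 - 1 / D.K) =
      ((⟪x, D.S (D.Ph f) x⟫_ℂ).re - 1) - ((⟪x, D.S (D.Ph f) x⟫_ℂ).re - 1) / D.K := by
    ring
  rw [e4]
  simp only [Complex.add_re] at h0 ⊢
  linarith



/-- The pointwise bound of the test function in the functional step. -/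
lemma fn_pt {a b R : ℂ} {s B : ℝ} (ha : ‖a‖ ≤ 1) (hb : ‖b‖ ≤ 1) (hR : ‖R‖ ≤ B) (hs : 0 < s)
    (hs2 : 2 * s * B ≤ 1) (hch : R.re ≤ (conj a * b).re) :
    ‖a * (1 + (s : ℂ) * R) + ((-s : ℝ) : ℂ) * b‖ ≤ 1 + s ^ 2 * (B + 1) ^ 2 / 2 := by
  have hB : 0 ≤ B := (norm_nonneg _).trans hR
  have ha2 : a.re ^ 2 + a.im ^ 2 ≤ 1 := by
    have := pow_le_pow_left₀ (norm_nonneg _) ha 2
    rw [← Complex.normSq_eq_norm_sq, Complex.normSq_apply] at this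
    nlinarith
  have hb2 : b.re ^ 2 + b.im ^ 2 ≤ 1 := by
    have := pow_le_pow_left₀ (norm_nonneg _) hb 2
    rw [← Complex.normSq_eq_norm_sq, Complex.normSq_apply] at this
    nlinarith
  have hR2 : R.re ^ 2 + R.im ^ 2 ≤ B ^ 2 := by
    have := pow_le_pow_left₀ (norm_nonneg _) hR 2
    rw [← Complex.normSq_eq_norm_sq, Complex.normSq_apply] at this
    nlinarith
  have hRre : |R.re| ≤ B := (Complex.abs_re_le_norm _).trans hR
  have hRre1 := abs_le.mp hRre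
  -- the cross term
  have hcross : -(R.re * (conj a * b).re + R.im * (conj a * b).im) ≤ B := by
    have h1 : ‖conj R * (conj a * b)‖ ≤ B := by
      rw [norm_mul, norm_mul, Complex.norm_conj, Complex.norm_conj]
      have h2 : ‖a‖ * ‖b‖ ≤ 1 := by nlinarith [norm_nonneg a, norm_nonneg b]
      nlinarith [norm_nonneg R, norm_nonneg a, norm_nonneg b]
    have h3 := (abs_le.mp ((Complex.abs_re_le_norm _).trans h1)).1
    simp only [Complex.mul_re, Complex.conj_re, Complex.conj_im] at h3 ⊢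
    nlinarith
  set na : ℝ := a.re ^ 2 + a.im ^ 2 with hna
  set c := conj a * b with hc
  have hna0 : 0 ≤ na := by positivity
  have hsq : ‖a * (1 + (s : ℂ) * R) + ((-s : ℝ) : ℂ) * b‖ ^ 2 =
      na * (1 + 2 * s * R.re + s ^ 2 * (R.re ^ 2 + R.im ^ 2)) + s ^ 2 * (b.re ^ 2 + b.im ^ 2) -
        2 * s * c.re - 2 * s ^ 2 * (R.re * c.re + R.im * c.im) := by
    rw [← Complex.normSq_eq_norm_sq, Complex.normSq_apply]
    simp only [hc, hna, Complex.add_re, Complex.add_im, Complex.mul_re, Complex.mul_im,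
      Complex.one_re, Complex.one_im, Complex.ofReal_re, Complex.ofReal_im, Complex.conj_re,
      Complex.conj_im]
    ring
  have hfin : ‖a * (1 + (s : ℂ) * R) + ((-s : ℝ) : ℂ) * b‖ ^ 2 ≤
      (1 + s ^ 2 * (B + 1) ^ 2 / 2) ^ 2 := by
    rw [hsq]
    have hs0 : 0 ≤ s ^ 2 := sq_nonneg s
    have t1 : na * (s ^ 2 * (R.re ^ 2 + R.im ^ 2)) ≤ 1 * (s ^ 2 * B ^ 2) :=
      mul_le_mul ha2 (mul_le_mul_of_nonneg_left hR2 hs0) (by positivity) zero_le_one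
    have t2 : s ^ 2 * (b.re ^ 2 + b.im ^ 2) ≤ s ^ 2 * 1 := mul_le_mul_of_nonneg_left hb2 hs0
    have t3 : s ^ 2 * (-(R.re * c.re + R.im * c.im)) ≤ s ^ 2 * B :=
      mul_le_mul_of_nonneg_left hcross hs0
    have t4 : 2 * s * R.re ≤ 2 * s * c.re := mul_le_mul_of_nonneg_left hch (by positivity)
    have t5 : 0 ≤ (1 - na) * (1 + 2 * s * R.re) := by
      refine mul_nonneg (by linarith) ?_
      have : 2 * s * (-B) ≤ 2 * s * R.re := mul_le_mul_of_nonneg_left hRre1.1 (by positivity)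
      linarith
    have t6 : 0 ≤ (s ^ 2 * (B + 1) ^ 2 / 2) ^ 2 := sq_nonneg _
    nlinarith
  exact (abs_le_of_sq_le_sq' hfin (by positivity)).2

/-- Transfer of the chain inequality to the functional `⟪y, S · x⟫`. -/
lemma Ext.fn (E : D.Ext f x y v r ι η) {t s : ℝ} (ht : 0 < t) (hs : 0 < s)
    (hs2 : 2 * s * (1 + (1 + t⁻¹) * 2 + (1 + t) * 2) ≤ 1) :
    D.K * (1 - (1 + t⁻¹) * (⟪x, D.S (D.Ph f) x⟫_ℂ).re -
        (1 + t) * (⟪x, D.S (D.alpha (D.Ph f)) x⟫_ℂ).re) -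
      ι * (D.K * (1 + s * (1 + (1 + t⁻¹) * 2 + (1 + t) * 2))) / s -
      D.K * s * ((1 + (1 + t⁻¹) * 2 + (1 + t) * 2) + 1) ^ 2 / 2 ≤
    (⟪y, D.S (D.alpha (D.alpha f)) x⟫_ℂ).re := by
  have hKpos := E.K_pos
  have hu0 : 0 < t⁻¹ := by positivity
  set A : ℝ := 1 + t⁻¹ with hA
  set Bt : ℝ := 1 + t with hBt
  set B : ℝ := 1 + A * 2 + Bt * 2 with hB
  have hA0 : 0 < A := by positivity
  have hBt0 : 0 < Bt := by positivity
  have hB0 : 0 < B := by positivity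
  let R1 : ℂ → ℂ := fun w => ((-A : ℝ) : ℂ) * D.Ph f w
  let R2 : ℂ → ℂ := fun w => ((-Bt : ℝ) : ℂ) * D.alpha (D.Ph f) w
  have hR1 : D.InP R1 := D.inP_const_mul _ _ E.ph_inP
  have hR2 : D.InP R2 := D.inP_const_mul _ _ E.aph_inP
  let R0 : ℂ → ℂ := fun w => (fun _ => (1 : ℂ)) w + R1 w
  have hR0 : D.InP R0 := D.inP_add _ _ D.inP_one hR1
  let R : ℂ → ℂ := fun w => R0 w + R2 w
  have hR : D.InP R := D.inP_add _ _ hR0 hR2
  have hRb : ∀ w ∈ D.X, ‖R w‖ ≤ B := by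
    intro w hw
    have n1 : ‖R1 w‖ ≤ A * 2 := by
      simp only [R1]
      rw [norm_mul, Complex.norm_real, Real.norm_eq_abs, abs_neg, abs_of_pos hA0]
      exact mul_le_mul_of_nonneg_left (E.ph_bd w hw) hA0.le
    have n2 : ‖R2 w‖ ≤ Bt * 2 := by
      simp only [R2]
      rw [norm_mul, Complex.norm_real, Real.norm_eq_abs, abs_neg, abs_of_pos hBt0]
      exact mul_le_mul_of_nonneg_left (E.aph_bd w hw) hBt0.le
    calc ‖R w‖ ≤ ‖R0 w‖ + ‖R2 w‖ := norm_add_le _ _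
      _ ≤ ‖(1 : ℂ)‖ + ‖R1 w‖ + ‖R2 w‖ := by gcongr; exact norm_add_le _ _
      _ ≤ B := by rw [norm_one, hB]; linarith
  have hRre : ∀ w, (R w).re = 1 - A * (D.Ph f w).re - Bt * (D.alpha (D.Ph f) w).re := by
    intro w
    simp only [R, R0, R1, R2, Complex.add_re, Complex.one_re, Complex.re_ofReal_mul]
    ring
  let f2 : ℂ → ℂ := D.alpha (D.alpha f)
  have hf2 : D.InP f2 := D.inP_alpha _ E.g_inP
  have hf2b : ∀ w ∈ D.X, ‖f2 w‖ ≤ 1 := D.alpha_bound _ 1 E.g_inP E.g_bd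
  let u : ℂ → ℂ := fun w => (fun _ => (1 : ℂ)) w + (s : ℂ) * R w
  have hsR : D.InP (fun w => (s : ℂ) * R w) := D.inP_const_mul _ _ hR
  have hu : D.InP u := D.inP_add _ _ D.inP_one hsR
  have hub : ∀ w ∈ D.X, ‖u w‖ ≤ 1 + s * B := by
    intro w hw
    calc ‖u w‖ ≤ ‖(1 : ℂ)‖ + ‖(s : ℂ) * R w‖ := norm_add_le _ _
      _ ≤ 1 + s * B := by
        rw [norm_one, norm_mul, Complex.norm_real, Real.norm_eq_abs, abs_of_pos hs]
        have := mul_le_mul_of_nonneg_left (hRb w hw) hs.le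
        linarith
  let W : ℂ → ℂ := fun w => f w * u w + ((-s : ℝ) : ℂ) * f2 w
  have hfu : D.InP (fun w => f w * u w) := D.inP_mul _ _ E.inP hu
  have hsf2 : D.InP (fun w => ((-s : ℝ) : ℂ) * f2 w) := D.inP_const_mul _ _ hf2
  have hW : D.InP W := D.inP_add _ _ hfu hsf2
  have hWb : ∀ w ∈ D.X, ‖W w‖ ≤ 1 + s ^ 2 * (B + 1) ^ 2 / 2 := by
    intro w hw
    have hch : (R w).re ≤ (conj (f w) * f2 w).re := by
      rw [hRre]
      exact E.chain ht hw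
    exact fn_pt (E.f_bd w hw) (hf2b w hw) (hRb w hw) hs hs2 hch
  have h1 := D.inner_le hW hWb E.hy E.hx
  have h2 : (⟪y, D.S W x⟫_ℂ).re ≤ D.K * (1 + s ^ 2 * (B + 1) ^ 2 / 2) :=
    (Complex.re_le_norm _).trans h1
  have h3 : D.S W = D.S (fun w => f w * u w) + ((-s : ℝ) : ℂ) • D.S f2 := by
    rw [show W = fun w => (fun w => f w * u w) w + (fun w => ((-s : ℝ) : ℂ) * f2 w) w from rfl,
      D.S_add _ _ hfu hsf2, D.S_const_mul _ _ hf2]
  have h4 : (⟪y, D.S W x⟫_ℂ).re = (⟪y, D.S (fun w => f w * u w) x⟫_ℂ).re -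
      s * (⟪y, D.S f2 x⟫_ℂ).re := by
    rw [h3]
    simp only [_root_.add_apply, _root_.smul_apply, inner_add_right, inner_smul_right,
      Complex.add_re, Complex.re_ofReal_mul]
    ring
  have h5 := E.ld hu hub
  have h6 := (abs_le.mp ((Complex.abs_re_le_norm _).trans h5)).1
  rw [Complex.sub_re, Complex.re_ofReal_mul] at h6
  have h7 : (⟪x, D.S u x⟫_ℂ).re = 1 + s * (1 - A * (⟪x, D.S (D.Ph f) x⟫_ℂ).re -
      Bt * (⟪x, D.S (D.alpha (D.Ph f)) x⟫_ℂ).re) := by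
    have s1 : D.S u = 1 + (s : ℂ) • D.S R := by
      rw [show u = fun w => (fun _ => (1 : ℂ)) w + (fun w => (s : ℂ) * R w) w from rfl,
        D.S_add _ _ D.inP_one hsR, D.S_const_mul _ _ hR, D.S_one]
    have s2 : D.S R = D.S R0 + D.S R2 := D.S_add _ _ hR0 hR2
    have s3 : D.S R0 = 1 + D.S R1 := by
      rw [show R0 = fun w => (fun _ => (1 : ℂ)) w + R1 w from rfl, D.S_add _ _ D.inP_one hR1,
        D.S_one]
    have s4 : D.S R1 = ((-A : ℝ) : ℂ) • D.S (D.Ph f) := D.S_const_mul _ _ E.ph_inP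
    have s5 : D.S R2 = ((-Bt : ℝ) : ℂ) • D.S (D.alpha (D.Ph f)) := D.S_const_mul _ _ E.aph_inP
    rw [s1, s2, s3, s4, s5]
    simp only [_root_.add_apply, _root_.smul_apply, one_apply_eq_self, inner_add_right,
      inner_smul_right, E.L_one, Complex.add_re, Complex.one_re, Complex.re_ofReal_mul]
    ring
  rw [h7] at h6
  have h8 : s * (D.K * (1 - A * (⟪x, D.S (D.Ph f) x⟫_ℂ).re -
      Bt * (⟪x, D.S (D.alpha (D.Ph f)) x⟫_ℂ).re)) - ι * (D.K * (1 + s * B)) -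
      D.K * s ^ 2 * (B + 1) ^ 2 / 2 ≤ s * (⟪y, D.S f2 x⟫_ℂ).re := by
    rw [h4] at h2
    nlinarith
  have h9 : D.K * (1 - A * (⟪x, D.S (D.Ph f) x⟫_ℂ).re -
      Bt * (⟪x, D.S (D.alpha (D.Ph f)) x⟫_ℂ).re) - ι * (D.K * (1 + s * B)) / s -
      D.K * s * (B + 1) ^ 2 / 2 =
      (s * (D.K * (1 - A * (⟪x, D.S (D.Ph f) x⟫_ℂ).re -
      Bt * (⟪x, D.S (D.alpha (D.Ph f)) x⟫_ℂ).re)) - ι * (D.K * (1 + s * B)) -
      D.K * s ^ 2 * (B + 1) ^ 2 / 2) / s := by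
    field_simp
  rw [h9, div_le_iff₀ hs]
  calc _ ≤ _ := h8
    _ = (⟪y, D.S f2 x⟫_ℂ).re * s := by ring


end Main

/-- Pure real arithmetic at the end. -/
lemma final_arith {K a b Dq F LE τ : ℝ} (hτ0 : 0 ≤ τ) (hτ : τ ≤ 1 / 1000) (hK : 117 / 50 ≤ K)
    (h1 : -τ ≤ a) (h2a : 0 ≤ Dq) (h2b : Dq ≤ 2 - K + τ - (a - 1) / K)
    (h3 : LE ≤ 3 / 2 * a + 2 / 3 * b + τ)
    (h4 : b + b / K ≤ (K - 1) * a + LE / K + τ + 1 / 7 * (a + b) + 7 * Dq)
    (h5 : F ≤ (a - 1) * (1 - 1 / K) + (b - 1) + τ + 1 / 6 + 6 * Dq)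
    (h6 : K * (1 - 8 / 3 * a - 8 / 5 * b) - τ ≤ F) : False := by
  have hKpos : 0 < K := by linarith
  have hKne : K ≠ 0 := hKpos.ne'
  -- multiply by `K`
  obtain ⟨D', hD'⟩ : ∃ D', D' = K * Dq := ⟨_, rfl⟩
  have hD0 : 0 ≤ D' := by rw [hD']; positivity
  have h2b' : D' ≤ K * (2 - K) + K * τ - (a - 1) := by
    have e : K * ((a - 1) / K) = a - 1 := by field_simp
    have := mul_le_mul_of_nonneg_left h2b hKpos.le
    rw [hD']
    linarith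
  have h4' : K * b + b ≤ K * (K - 1) * a + LE + K * τ + K * (1 / 7 * (a + b)) + 7 * D' := by
    have e1 : K * (b / K) = b := by field_simp
    have e2 : K * (LE / K) = LE := by field_simp
    have := mul_le_mul_of_nonneg_left h4 hKpos.le
    rw [hD']
    linarith
  have h5' : K * F ≤ (a - 1) * (K - 1) + (b - 1) * K + K * τ + K * (1 / 6) + 6 * D' := by
    have e1 : K * ((a - 1) * (1 - 1 / K)) = (a - 1) * (K - 1) := by field_simp
    have := mul_le_mul_of_nonneg_left h5 hKpos.le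
    rw [hD']
    linarith
  have h6' : K * (K * (1 - 8 / 3 * a - 8 / 5 * b)) - K * τ ≤ K * F := by
    have := mul_le_mul_of_nonneg_left h6 hKpos.le
    linarith
  have Z1 : K ^ 2 + 11 / 6 * K - 1 - 2 * K * τ ≤
      a * (8 / 3 * K ^ 2 + K - 1) + b * (8 / 5 * K ^ 2 + K) + 6 * D' := by
    linarith
  have Z2 : b * (6 / 7 * K + 1 / 3) ≤ a * (K ^ 2 - 6 / 7 * K + 3 / 2) + 7 * D' + (K + 1) * τ := by
    linarith
  have hG : 0 ≤ 6 / 7 * K + 1 / 3 := by positivity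
  have hH : 0 ≤ 8 / 5 * K ^ 2 + K := by positivity
  have key1 := mul_le_mul_of_nonneg_left Z1 hG
  have key2 := mul_le_mul_of_nonneg_left Z2 hH
  have hw : 0 ≤ 6 * (6 / 7 * K + 1 / 3) + 7 * (8 / 5 * K ^ 2 + K) := by positivity
  have key3 := mul_le_mul_of_nonneg_left h2b' hw
  have ham : a ≤ K * (2 - K) + K * τ + 1 := by linarith
  obtain ⟨u, rfl⟩ : ∃ u, K = 117 / 50 + u := ⟨K - 117 / 50, by ring⟩
  have hu : 0 ≤ u := by linarith
  have hCa : 0 ≤ (235481639 / 328125000 : ℝ) + (428252393 / 6562500) * u +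
      (22874093 / 393750) * u ^ 2 + (14779 / 875) * u ^ 3 + (8 / 5) * u ^ 4 := by positivity
  have key4 := mul_le_mul_of_nonneg_left ham hCa
  have hS : 0 ≤ (1445812938921 / 5468750000 : ℝ) + (7290434831 / 16406250) * u +
      (14414443 / 46875) * u ^ 2 + (4347638 / 39375) * u ^ 3 + (3611 / 175) * u ^ 4 +
      (8 / 5) * u ^ 5 := by positivity
  have key5 := mul_le_mul_of_nonneg_left hτ hS
  have hP : 0 < (1047052856317 / 781250000000 : ℝ) + (1498457175427 / 6152343750) * u +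
      (427039044577 / 984375000) * u ^ 2 + (2052853567 / 6562500) * u ^ 3 +
      (179882681 / 1575000) * u ^ 4 + (92648 / 4375) * u ^ 5 + (8 / 5) * u ^ 6 := by positivity
  linarith

/-- A priori bound. -/
lemma K_lt_three {K a Dq τ : ℝ} (hτ0 : 0 ≤ τ) (hτ : τ ≤ 1 / 1000) (hK : 2 < K)
    (h1 : -τ ≤ a) (h2a : 0 ≤ Dq) (h2b : Dq ≤ 2 - K + τ - (a - 1) / K) : K < 3 := by
  have hKpos : 0 < K := by linarith
  by_contra hcon
  push Not at hcon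
  have e : K * ((a - 1) / K) = a - 1 := by field_simp
  have h3 := mul_le_mul_of_nonneg_left (h2a.trans h2b) hKpos.le
  nlinarith

theorem chain_bound_main [CompleteSpace H] : D.K ≤ 117 / 50 := by
  by_contra hcon
  push Not at hcon
  have hK2 : 2 < D.K := by linarith
  obtain ⟨ρ, hρ⟩ : ∃ ρ : ℝ, ρ = 1 / 1000000 := ⟨_, rfl⟩
  have hρ0 : 0 < ρ := by rw [hρ]; norm_num
  have hι0 : 0 < ρ ^ 2 := by positivity
  have hι1 : ρ ^ 2 ≤ 1 := by rw [hρ]; norm_num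
  obtain ⟨f, x, y, v, r, η, E⟩ := D.exists_ext hK2 hι0 hι1
  have h1 := E.omega_lower hρ0
  obtain ⟨h2a, h2b⟩ := E.phi1
  have h3 := E.L_eh_up (s := 3 / 2) (t := ρ) (by norm_num) hρ0
  have h4 := E.cs (l := 1 / 7) (by norm_num)
  have h5 := E.three (l := 1 / 6) (by norm_num)
  have h6 := E.fn (t := 3 / 5) (s := ρ) (by norm_num) hρ0 (by rw [hρ]; norm_num)
  have hη := E.hηι
  have hη0 := E.hη0
  generalize (⟪x, D.S (D.Ph f) x⟫_ℂ).re = a at *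
  generalize (⟪x, D.S (D.alpha (D.Ph f)) x⟫_ℂ).re = b at *
  generalize (⟪x, D.S (Eh D f) x⟫_ℂ).re = LE at *
  generalize (⟪y, D.S (D.alpha (D.alpha f)) x⟫_ℂ).re = F at *
  generalize 2 - (⟪y, D.S f x⟫_ℂ + ⟪D.S (D.alpha f) y, x⟫_ℂ).re = Dq at *
  generalize D.K = K at *
  subst hρ
  norm_num at h1 h3 h6 hη
  norm_num at h4 h5
  have hτ0 : (0 : ℝ) ≤ 1 / 1000 := by norm_num
  have h2b' : Dq ≤ 2 - K + 1 / 1000 - (a - 1) / K := by linarith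
  have hKlt := K_lt_three hτ0 le_rfl hK2 (by linarith) h2a h2b'
  rw [one_div] at h5
  have e7 : Dq / (1 / 7) = 7 * Dq := by ring
  have e6 : Dq / (1 / 6) = 6 * Dq := by ring
  rw [e7] at h4
  rw [e6] at h5
  refine final_arith (a := a) (b := b) (Dq := Dq) (F := F) (LE := LE) hτ0 le_rfl hcon.le
    (by linarith) h2a h2b' (by linarith) ?_ ?_ ?_
  · linarith
  · rw [one_div]
    linarith
  · linarith

end ChainData

/-- The abstract bound: no geometric input. -/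
theorem chain_bound {H : Type*} [NormedAddCommGroup H] [InnerProductSpace ℂ H] [CompleteSpace H]
    (D : ChainData H) : D.K ≤ 117 / 50 :=
  D.chain_bound_main

end Vale.Agent.Lib.P123
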