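import Mathlib

/-!
# Convex polygons with equally rotating normals, visual densities, the operator `alpha`
and the boundary Cauchy integral of the resolvent.
-/

open Complex Polynomial
open scoped ComplexConjugate InnerProductSpace

namespace Vale.Agent.Lib.P123

/-- A convex polygon with `N` sides. Side `j` runs from `v j` to `v (j+1)`, has length `len j`,
and unit outer normal `n j`; its direction is `I * n j` (counterclockwise orientation).
The normals turn by the fixed angle `2π/N` from one side to the next. -/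
structure Pgon (N : ℕ) where
  v : ZMod N → ℂ
  n : ZMod N → ℂ
  len : ZMod N → ℝ
  three_le : 3 ≤ N
  n_norm : ∀ j, ‖n j‖ = 1
  len_pos : ∀ j, 0 < len j
  step : ∀ j, v (j + 1) = v j + (len j : ℂ) * (I * n j)
  rot : ∀ j, n (j + 1) = n j * exp (((2 * Real.pi / N : ℝ) : ℂ) * I)
  /-- every vertex is on the inner side of every side -/
  conv : ∀ j k, 0 ≤ (conj (n j) * (v j - v k)).re
  /-- a strictly interior point -/
  center : ℂ
  center_pos : ∀ j, 0 < (conj (n j) * (v j - center)).re
  /-- different sides have different normals -/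
  n_inj : Function.Injective n

variable {N : ℕ} [NeZero N]

namespace Pgon

variable (P : Pgon N)

/-- signed distance from `z` to the line of side `j`, positive on the inner side -/
noncomputable def dl (j : ZMod N) (z : ℂ) : ℝ := (conj (P.n j) * (P.v j - z)).re

/-- direction of side `j` -/
noncomputable def t (j : ZMod N) : ℂ := I * P.n j

/-- the line of side `j`, parametrised by arclength from `v j` -/
noncomputable def tau (j : ZMod N) (s : ℝ) : ℂ := P.v j + (s : ℂ) * P.t j

/-- the points in open sides -/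
def opn : Set ℂ := {z | ∃ j, ∃ s ∈ Set.Ioo (0 : ℝ) (P.len j), z = P.tau j s}

/-- the closed polygon -/
def Q : Set ℂ := {z | ∀ j, 0 ≤ P.dl j z}

/-- density at the point `P.tau j s` of the visual measure from `z` -/
noncomputable def dens (z : ℂ) (j : ZMod N) (s : ℝ) : ℝ :=
  P.dl j z / (Real.pi * Complex.normSq (P.tau j s - z))

/-- the visual average of `u` from the point `z` -/
noncomputable def V (u : ℂ → ℂ) (z : ℂ) : ℂ :=
  ∑ j : ZMod N, ∫ s in (0 : ℝ)..(P.len j), u (P.tau j s) * (P.dens z j s : ℂ)

/-- the antilinear operator of Crouzeix and Palencia, through its boundary values -/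
noncomputable def alpha (u : ℂ → ℂ) (z : ℂ) : ℂ := conj (P.V u z)

/-- `u` is bounded by `C` on the open sides -/
def Bd (u : ℂ → ℂ) (C : ℝ) : Prop := ∀ z ∈ P.opn, ‖u z‖ ≤ C

/-- `u` is a uniform limit of polynomials on the open sides -/
def InP (u : ℂ → ℂ) : Prop := ∀ ε > 0, ∃ p : ℂ[X], ∀ z ∈ P.opn, ‖u z - p.eval z‖ ≤ ε

section Operator

variable {H : Type*} [NormedAddCommGroup H] [InnerProductSpace ℂ H] [CompleteSpace H]

/-- the resolvent of `A` at `σ` -/
noncomputable def res (A : H →L[ℂ] H) (σ : ℂ) : H →L[ℂ] H :=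
  Ring.inverse (σ • (1 : H →L[ℂ] H) - A)

/-- the boundary Cauchy integral of `u` against the resolvent of `A` -/
noncomputable def S (A : H →L[ℂ] H) (u : ℂ → ℂ) : H →L[ℂ] H :=
  ((2 * Real.pi : ℝ) : ℂ)⁻¹ • ∑ j : ZMod N,
    P.n j • ∫ s in (0 : ℝ)..(P.len j), u (P.tau j s) • res A (P.tau j s)

/-- the numerical range of `A` stays at distance at least `d` inside all sides -/
def Margin (A : H →L[ℂ] H) (d : ℝ) : Prop :=
  ∀ j, ∀ x : H, ‖x‖ = 1 → d ≤ P.dl j (⟪x, A x⟫_ℂ)

end Operator

end Pgon
end Vale.Agent.Lib.P123
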