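import Vale.Agent.Lib.P123.Winding

/-!
The resolvent along the sides of a polygon around the numerical range, and the polynomial
functional calculus through the boundary integral.
-/

open Complex Polynomial
open scoped ComplexConjugate InnerProductSpace

set_option linter.unusedSectionVars false

namespace Vale.Agent.Lib.P123

section General

variable {H : Type*} [NormedAddCommGroup H] [InnerProductSpace ℂ H] [CompleteSpace H]

/-- An operator with a unimodular rotation of positive real part on the unit sphere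
is invertible, with the natural bound. -/
lemma isUnit_of_rotated_accretive {T : H →L[ℂ] H} {c : ℂ} {d : ℝ} (hd : 0 < d)
    (hc : ‖c‖ = 1) (h : ∀ x : H, ‖x‖ = 1 → d ≤ (c * ⟪x, T x⟫_ℂ).re) :
    IsUnit T ∧ ‖Ring.inverse T‖ ≤ 1 / d := by
  have hgen : ∀ x : H, d * ‖x‖ ^ 2 ≤ (c * ⟪x, T x⟫_ℂ).re := by
    intro x
    by_cases hx : x = 0
    · simp [hx]
    have hnx : ‖x‖ ≠ 0 := norm_ne_zero_iff.2 hx
    have hnC : ((‖x‖ : ℝ) : ℂ) ≠ 0 := by exact_mod_cast hnx
    set u : H := ((‖x‖ : ℝ) : ℂ)⁻¹ • x with hu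
    have hu1 : ‖u‖ = 1 := by
      rw [hu, norm_smul, norm_inv, Complex.norm_real, norm_norm]
      field_simp
    have hxu : x = ((‖x‖ : ℝ) : ℂ) • u := by
      rw [hu, smul_smul, mul_inv_cancel₀ hnC, one_smul]
    have h1 := h u hu1
    have h2 : ⟪x, T x⟫_ℂ = ((‖x‖ ^ 2 : ℝ) : ℂ) * ⟪u, T u⟫_ℂ := by
      conv_lhs => rw [hxu]
      rw [map_smul, inner_smul_left, inner_smul_right]
      simp only [Complex.conj_ofReal]
      push_cast
      ring
    have h3 : c * ⟪x, T x⟫_ℂ = ((‖x‖ ^ 2 : ℝ) : ℂ) * (c * ⟪u, T u⟫_ℂ) := by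
      rw [h2]; ring
    rw [h3, Complex.re_ofReal_mul]
    have : 0 ≤ ‖x‖ ^ 2 := by positivity
    nlinarith
  have hlow : ∀ x : H, d * ‖x‖ ≤ ‖T x‖ := by
    intro x
    by_cases hx : x = 0
    · simp [hx]
    have hpos : 0 < ‖x‖ := norm_pos_iff.2 hx
    have h1 := hgen x
    have h2 : (c * ⟪x, T x⟫_ℂ).re ≤ ‖x‖ * ‖T x‖ := by
      refine (Complex.re_le_norm _).trans ?_
      rw [norm_mul, hc, one_mul]
      exact norm_inner_le_norm _ _
    have h3 : d * ‖x‖ * ‖x‖ ≤ ‖T x‖ * ‖x‖ := by nlinarith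
    exact le_of_mul_le_mul_right h3 hpos
  have hunit : IsUnit T := by
    apply ContinuousLinearMap.isUnit_of_forall_le_norm_inner_map T (c := Real.toNNReal d)
      (Real.toNNReal_pos.2 hd)
    intro x
    rw [Real.coe_toNNReal _ hd.le, mul_comm]
    have h1 := hgen x
    refine h1.trans ((Complex.re_le_norm _).trans ?_)
    rw [norm_mul, hc, one_mul, ← inner_conj_symm, Complex.norm_conj]
  refine ⟨hunit, ?_⟩
  obtain ⟨U, rfl⟩ := hunit
  rw [Ring.inverse_unit]
  apply ContinuousLinearMap.opNorm_le_bound _ (by positivity)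
  intro y
  have h1 := hlow (((U⁻¹ : (H →L[ℂ] H)ˣ) : H →L[ℂ] H) y)
  have h2 : (U : H →L[ℂ] H) (((U⁻¹ : (H →L[ℂ] H)ˣ) : H →L[ℂ] H) y) = y := by
    have : ((U : H →L[ℂ] H) * ((U⁻¹ : (H →L[ℂ] H)ˣ) : H →L[ℂ] H)) y = y := by
      rw [Units.mul_inv]; rfl
    exact this
  rw [h2] at h1
  rw [div_mul_eq_mul_div, one_mul, le_div_iff₀ hd]
  linarith

end General


variable {N : ℕ} [NeZero N]

namespace Pgon

variable (P : Pgon N)
variable {H : Type*} [NormedAddCommGroup H] [InnerProductSpace ℂ H] [CompleteSpace H]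

/-- A weaker form of margin: only used for the segment from a scalar to `A`. -/
lemma inner_sub_eq (A : H →L[ℂ] H) (σ : ℂ) {x : H} (hx : ‖x‖ = 1) :
    ⟪x, (σ • (1 : H →L[ℂ] H) - A) x⟫_ℂ = σ - ⟪x, A x⟫_ℂ := by
  simp only [FunLike.coe_sub, FunLike.coe_smul, Pi.sub_apply,
    Pi.smul_apply, one_apply_eq_self, inner_sub_right, inner_smul_right]
  rw [inner_self_eq_norm_sq_to_K, hx]
  simp

/-- on the lines of the sides, the resolvent exists and is bounded -/
lemma isUnit_sub {A : H →L[ℂ] H} {d : ℝ} (hd : 0 < d) (hM : P.Margin A d) (j : ZMod N) (s : ℝ) :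
    IsUnit (P.tau j s • (1 : H →L[ℂ] H) - A) ∧ ‖res A (P.tau j s)‖ ≤ 1 / d := by
  apply isUnit_of_rotated_accretive hd (c := conj (P.n j)) (by rw [Complex.norm_conj, P.n_norm])
  intro x hx
  rw [inner_sub_eq A _ hx, P.re_conj_n_tau]
  exact hM j x hx

lemma sub_mul_res {A : H →L[ℂ] H} {d : ℝ} (hM : P.Margin A d) (hd : 0 < d) (j : ZMod N) (s : ℝ) :
    (P.tau j s • (1 : H →L[ℂ] H) - A) * res A (P.tau j s) = 1 :=
  Ring.mul_inverse_cancel _ (P.isUnit_sub hd hM j s).1

lemma res_mul_sub {A : H →L[ℂ] H} {d : ℝ} (hM : P.Margin A d) (hd : 0 < d) (j : ZMod N) (s : ℝ) :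
    res A (P.tau j s) * (P.tau j s • (1 : H →L[ℂ] H) - A) = 1 :=
  Ring.inverse_mul_cancel _ (P.isUnit_sub hd hM j s).1

lemma continuous_res {A : H →L[ℂ] H} {d : ℝ} (hM : P.Margin A d) (hd : 0 < d) (j : ZMod N) :
    Continuous (fun s : ℝ => res A (P.tau j s)) := by
  rw [continuous_iff_continuousAt]
  intro s
  obtain ⟨U, hU⟩ := (P.isUnit_sub hd hM j s).1
  have h1 : ContinuousAt (Ring.inverse : (H →L[ℂ] H) → (H →L[ℂ] H))
      (P.tau j s • (1 : H →L[ℂ] H) - A) := by
    rw [← hU]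
    exact NormedRing.inverse_continuousAt U
  have h2 : Continuous (fun s : ℝ => P.tau j s • (1 : H →L[ℂ] H) - A) :=
    ((P.continuous_tau j).smul continuous_const).sub continuous_const
  exact ContinuousAt.comp (f := fun s : ℝ => P.tau j s • (1 : H →L[ℂ] H) - A) h1 h2.continuousAt

/-- `res_spec`: invertibility and the norm bound of the resolvent along the sides. -/
theorem res_spec {A : H →L[ℂ] H} {d : ℝ} (hA : P.Margin A d) (hd : 0 < d) (j : ZMod N) (s : ℝ) :
    IsUnit ((P.tau j s) • (1 : H →L[ℂ] H) - A) ∧ ‖res A (P.tau j s)‖ ≤ 1 / d :=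
  P.isUnit_sub hd hA j s

/-- the side integrability of `u • res` -/
lemma integrable_smul_res {A : H →L[ℂ] H} {d : ℝ} (hM : P.Margin A d) (hd : 0 < d) {u : ℂ → ℂ}
    {j : ZMod N} (hu : IntervalIntegrable (fun s : ℝ => u (P.tau j s)) MeasureTheory.volume 0 (P.len j)) :
    IntervalIntegrable (fun s : ℝ => u (P.tau j s) • res A (P.tau j s)) MeasureTheory.volume 0 (P.len j) :=
  hu.smul_continuousOn (P.continuous_res hM hd j).continuousOn

/-- `S` is additive on functions integrable on the sides -/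
theorem S_add {A : H →L[ℂ] H} {d : ℝ} (hM : P.Margin A d) (hd : 0 < d) {u v : ℂ → ℂ}
    (hu : ∀ j, IntervalIntegrable (fun s : ℝ => u (P.tau j s)) MeasureTheory.volume 0 (P.len j))
    (hv : ∀ j, IntervalIntegrable (fun s : ℝ => v (P.tau j s)) MeasureTheory.volume 0 (P.len j)) :
    P.S A (fun z => u z + v z) = P.S A u + P.S A v := by
  unfold S
  rw [← smul_add, ← Finset.sum_add_distrib]
  congr 1
  apply Finset.sum_congr rfl
  intro j _
  rw [← smul_add, ← intervalIntegral.integral_add (P.integrable_smul_res hM hd (hu j))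
    (P.integrable_smul_res hM hd (hv j))]
  simp only [add_smul]

/-- `S` is homogeneous (no integrability needed) -/
theorem S_const_mul (A : H →L[ℂ] H) (c : ℂ) (u : ℂ → ℂ) :
    P.S A (fun z => c * u z) = c • P.S A u := by
  unfold S
  have h : ∀ j : ZMod N, P.n j • ∫ s in (0 : ℝ)..(P.len j), (c * u (P.tau j s)) • res A (P.tau j s)
      = c • (P.n j • ∫ s in (0 : ℝ)..(P.len j), u (P.tau j s) • res A (P.tau j s)) := by
    intro j
    rw [smul_comm c, ← intervalIntegral.integral_smul c]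
    simp only [mul_smul]
  simp_rw [h]
  rw [← Finset.smul_sum, smul_comm]

/-- `S` commutes with subtraction -/
theorem S_sub {A : H →L[ℂ] H} {d : ℝ} (hM : P.Margin A d) (hd : 0 < d) {u v : ℂ → ℂ}
    (hu : ∀ j, IntervalIntegrable (fun s : ℝ => u (P.tau j s)) MeasureTheory.volume 0 (P.len j))
    (hv : ∀ j, IntervalIntegrable (fun s : ℝ => v (P.tau j s)) MeasureTheory.volume 0 (P.len j)) :
    P.S A (fun z => u z - v z) = P.S A u - P.S A v := by
  unfold S
  rw [← smul_sub, ← Finset.sum_sub_distrib]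
  congr 1
  apply Finset.sum_congr rfl
  intro j _
  rw [← smul_sub, ← intervalIntegral.integral_sub (P.integrable_smul_res hM hd (hu j))
    (P.integrable_smul_res hM hd (hv j))]
  simp only [sub_smul]

lemma opn_ae (j : ZMod N) {u : ℂ → ℂ} {C : ℝ} (hC : ∀ z ∈ P.opn, ‖u z‖ ≤ C) :
    ∀ᵐ s : ℝ, s ∈ Set.uIoc (0 : ℝ) (P.len j) → ‖u (P.tau j s)‖ ≤ C := by
  have hl := P.len_pos j
  have h : ∀ᵐ s : ℝ, s ≠ P.len j := by
    simp [MeasureTheory.ae_iff, MeasureTheory.measure_singleton]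
  filter_upwards [h] with s hs hs2
  rw [Set.uIoc_of_le hl.le] at hs2
  exact hC _ ⟨j, s, ⟨hs2.1, lt_of_le_of_ne hs2.2 hs⟩, rfl⟩

lemma C_nonneg {u : ℂ → ℂ} {C : ℝ} (hC : ∀ z ∈ P.opn, ‖u z‖ ≤ C) : 0 ≤ C := by
  have hl := P.len_pos (0 : ZMod N)
  have := hC (P.tau 0 (P.len 0 / 2)) ⟨0, _, ⟨by positivity, by linarith⟩, rfl⟩
  exact (norm_nonneg _).trans this

/-- the norm bound of `S` -/
theorem S_norm_le' {A : H →L[ℂ] H} {d : ℝ} (hA : P.Margin A d) (hd : 0 < d) {u : ℂ → ℂ}
    {C : ℝ} (hC : ∀ z ∈ P.opn, ‖u z‖ ≤ C) :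
    ‖P.S A u‖ ≤ (∑ j : ZMod N, P.len j) / (2 * Real.pi * d) * C := by
  have hC0 := P.C_nonneg hC
  have hp := Real.pi_pos
  have key : ∀ j : ZMod N, ‖P.n j • ∫ s in (0 : ℝ)..(P.len j), u (P.tau j s) • res A (P.tau j s)‖
      ≤ C * (1 / d) * P.len j := by
    intro j
    rw [norm_smul, P.n_norm, one_mul]
    have hl := P.len_pos j
    have := intervalIntegral.norm_integral_le_of_norm_le_const_ae (a := 0) (b := P.len j)
      (C := C * (1 / d)) (f := fun s : ℝ => u (P.tau j s) • res A (P.tau j s)) ?_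
    · simpa [abs_of_pos hl] using this
    · filter_upwards [P.opn_ae j hC] with s hs hs2
      rw [norm_smul]
      exact mul_le_mul (hs hs2) (P.isUnit_sub hd hA j s).2 (norm_nonneg _) hC0
  unfold S
  rw [norm_smul]
  have h1 : ‖((2 * Real.pi : ℝ) : ℂ)⁻¹‖ = (2 * Real.pi)⁻¹ := by
    rw [norm_inv, Complex.norm_real, Real.norm_of_nonneg (by positivity)]
  rw [h1]
  have h2 := norm_sum_le (Finset.univ : Finset (ZMod N))
    (fun j => P.n j • ∫ s in (0 : ℝ)..(P.len j), u (P.tau j s) • res A (P.tau j s))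
  have h3 := Finset.sum_le_sum (fun (j : ZMod N) (_ : j ∈ Finset.univ) => key j)
  rw [← Finset.mul_sum] at h3
  have h4 : ‖∑ j : ZMod N, P.n j • ∫ s in (0 : ℝ)..(P.len j), u (P.tau j s) • res A (P.tau j s)‖
      ≤ C * (1 / d) * ∑ j : ZMod N, P.len j := h2.trans h3
  have h5 : (2 * Real.pi)⁻¹ * ‖∑ j : ZMod N, P.n j • ∫ s in (0 : ℝ)..(P.len j), u (P.tau j s) • res A (P.tau j s)‖
      ≤ (2 * Real.pi)⁻¹ * (C * (1 / d) * ∑ j : ZMod N, P.len j) :=
    mul_le_mul_of_nonneg_left h4 (by positivity)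
  refine h5.trans (le_of_eq ?_)
  field_simp

/-- A function with a quadratic bound on its increments is constant. -/
lemma eq_of_quadratic {E : Type*} [NormedAddCommGroup E] (J : ℝ → E) (C : ℝ)
    (h : ∀ t t', 0 ≤ t → t ≤ 1 → 0 ≤ t' → t' ≤ 1 → ‖J t' - J t‖ ≤ C * (t' - t) ^ 2) :
    J 1 = J 0 := by
  by_contra hne
  have hpos : 0 < ‖J 1 - J 0‖ := norm_pos_iff.2 (sub_ne_zero.2 hne)
  have hC0 : 0 ≤ C := by
    have := h 0 1 le_rfl zero_le_one zero_le_one le_rfl
    norm_num at this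
    exact hpos.le.trans this
  obtain ⟨m, hm⟩ := exists_nat_gt (C / ‖J 1 - J 0‖)
  have hm0 : (0 : ℝ) < (m : ℝ) + 1 := by positivity
  have hm1 : C < ((m : ℝ) + 1) * ‖J 1 - J 0‖ := by
    rw [div_lt_iff₀ hpos] at hm
    nlinarith
  have htele : ∑ k ∈ Finset.range (m + 1), (J (((k + 1 : ℕ) : ℝ) / (m + 1)) - J ((k : ℝ) / (m + 1)))
      = J 1 - J 0 := by
    rw [Finset.sum_range_sub (fun k : ℕ => J ((k : ℝ) / ((m : ℝ) + 1)))]
    simp only [Nat.cast_add, Nat.cast_one, Nat.cast_zero, zero_div]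
    rw [div_self hm0.ne']
  have hb : ∀ k ∈ Finset.range (m + 1),
      ‖J (((k + 1 : ℕ) : ℝ) / (m + 1)) - J ((k : ℝ) / (m + 1))‖ ≤ C * (1 / ((m : ℝ) + 1)) ^ 2 := by
    intro k hk
    have hk' : (k : ℝ) + 1 ≤ (m : ℝ) + 1 := by
      exact_mod_cast (Finset.mem_range.1 hk)
    have h1 := h ((k : ℝ) / (m + 1)) (((k + 1 : ℕ) : ℝ) / (m + 1)) (by positivity)
      (by rw [div_le_one hm0]; linarith) (by positivity)
      (by rw [div_le_one hm0]; push_cast; linarith)
    have e : ((k + 1 : ℕ) : ℝ) / (m + 1) - (k : ℝ) / (m + 1) = 1 / ((m : ℝ) + 1) := by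
      push_cast; field_simp; ring
    rwa [e] at h1
  have h2 := norm_sum_le_of_le (Finset.range (m + 1)) hb
  rw [htele, Finset.sum_const, Finset.card_range, nsmul_eq_mul] at h2
  have h3 : ((m + 1 : ℕ) : ℝ) * (C * (1 / ((m : ℝ) + 1)) ^ 2) = C / ((m : ℝ) + 1) := by
    push_cast; field_simp
  rw [h3] at h2
  have h4 : ‖J 1 - J 0‖ * ((m : ℝ) + 1) ≤ C := by
    rwa [le_div_iff₀ hm0] at h2
  nlinarith

/-- the homotopy from a scalar to `A` -/
noncomputable def htp (A : H →L[ℂ] H) (c : ℂ) (t : ℝ) : H →L[ℂ] H :=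
  c • (1 : H →L[ℂ] H) + (t : ℂ) • (A - c • (1 : H →L[ℂ] H))

lemma inner_htp (A : H →L[ℂ] H) (c : ℂ) (t : ℝ) {x : H} (hx : ‖x‖ = 1) :
    ⟪x, htp A c t x⟫_ℂ = c + (t : ℂ) * (⟪x, A x⟫_ℂ - c) := by
  have h1 : ⟪x, x⟫_ℂ = 1 := by
    rw [inner_self_eq_norm_sq_to_K, hx]; simp
  simp only [htp, FunLike.coe_add, FunLike.coe_sub, FunLike.coe_smul, Pi.add_apply, Pi.sub_apply,
    Pi.smul_apply, one_apply_eq_self, inner_add_right, inner_sub_right, inner_smul_right, h1]
  ring

/-- The margin along the homotopy. -/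
lemma margin_htp {A : H →L[ℂ] H} {d d₀ : ℝ} (hM : P.Margin A d) (h1 : d₀ ≤ d)
    (h2 : ∀ j, d₀ ≤ P.dl j P.center) {t : ℝ} (ht0 : 0 ≤ t) (ht1 : t ≤ 1) :
    P.Margin (htp A P.center t) d₀ := by
  intro j x hx
  rw [inner_htp A _ t hx]
  have e : P.dl j (P.center + (t : ℂ) * (⟪x, A x⟫_ℂ - P.center)) =
      (1 - t) * P.dl j P.center + t * P.dl j (⟪x, A x⟫_ℂ) := by
    simp only [dl]
    have : conj (P.n j) * (P.v j - (P.center + (t : ℂ) * (⟪x, A x⟫_ℂ - P.center))) =
        ((1 - t : ℝ) : ℂ) * (conj (P.n j) * (P.v j - P.center)) +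
          (t : ℂ) * (conj (P.n j) * (P.v j - ⟪x, A x⟫_ℂ)) := by
      push_cast; ring
    rw [this, Complex.add_re, Complex.re_ofReal_mul, Complex.re_ofReal_mul]
  rw [e]
  have a := h2 j
  have b := hM j x hx
  have b' : d₀ ≤ P.dl j (⟪x, A x⟫_ℂ) := h1.trans b
  have ht1' : 0 ≤ 1 - t := by linarith
  nlinarith

/-- Derivative of the resolvent along a side. -/
lemma hasDerivAt_res {B : H →L[ℂ] H} {d : ℝ} (hM : P.Margin B d) (hd : 0 < d) (j : ZMod N) (s : ℝ) :
    HasDerivAt (fun x : ℝ => res B (P.tau j x))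
      (-(P.t j • (res B (P.tau j s) * res B (P.tau j s)))) s := by
  obtain ⟨U, hU⟩ := (P.isUnit_sub hd hM j s).1
  have h1 : HasFDerivAt (𝕜 := ℂ) Ring.inverse _ ((U : H →L[ℂ] H)) := hasFDerivAt_ringInverse (𝕜 := ℂ) U
  rw [hU] at h1
  have h2 : HasDerivAt (fun x : ℝ => P.tau j x • (1 : H →L[ℂ] H) - B) (P.t j • (1 : H →L[ℂ] H)) s := by
    have := ((P.hasDerivAt_tau j s).smul_const (1 : H →L[ℂ] H)).sub_const B
    exact this
  have h3 := (h1.restrictScalars ℝ).comp_hasDerivAt s h2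
  have hinv : ((U⁻¹ : (H →L[ℂ] H)ˣ) : H →L[ℂ] H) = res B (P.tau j s) := by
    unfold res
    rw [← hU, Ring.inverse_unit]
  rw [hinv] at h3
  have e : (ContinuousLinearMap.restrictScalars ℝ
      (-((ContinuousLinearMap.mulLeftRight ℂ (H →L[ℂ] H)) (res B (P.tau j s))) (res B (P.tau j s))))
      (P.t j • (1 : H →L[ℂ] H)) = -(P.t j • (res B (P.tau j s) * res B (P.tau j s))) := by
    simp [ContinuousLinearMap.mulLeftRight_apply]
  rw [e] at h3
  exact h3

/-- the closed integral of the square of the resolvent vanishes -/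
lemma sum_integral_res_sq {B : H →L[ℂ] H} {d : ℝ} (hM : P.Margin B d) (hd : 0 < d) :
    ∑ j : ZMod N, P.n j • ∫ s in (0 : ℝ)..(P.len j), res B (P.tau j s) * res B (P.tau j s) = 0 := by
  have key : ∀ j : ZMod N, P.n j • ∫ s in (0 : ℝ)..(P.len j), res B (P.tau j s) * res B (P.tau j s)
      = I • (res B (P.v (j + 1)) - res B (P.v j)) := by
    intro j
    have hc : Continuous (fun s : ℝ => res B (P.tau j s) * res B (P.tau j s)) :=
      (P.continuous_res hM hd j).mul (P.continuous_res hM hd j)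
    have hc' : Continuous (fun s : ℝ => -(P.t j • (res B (P.tau j s) * res B (P.tau j s)))) :=
      by fun_prop
    have h := intervalIntegral.integral_eq_sub_of_hasDerivAt (a := 0) (b := P.len j)
      (fun s _ => P.hasDerivAt_res hM hd j s) (hc'.intervalIntegrable _ _)
    rw [P.tau_zero, P.tau_len] at h
    rw [← h, intervalIntegral.integral_neg, intervalIntegral.integral_smul]
    rw [smul_neg, smul_smul]
    have e : I * P.t j = - P.n j := by
      simp only [t]
      rw [← mul_assoc, Complex.I_mul_I]; ring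
    rw [e, neg_smul, neg_neg]
  simp_rw [key]
  rw [← Finset.smul_sum, sum_succ_sub (fun j => res B (P.v j)), smul_zero]

/-- the second order resolvent identity, for a commuting perturbation -/
lemma res_second_order {𝔸 : Type*} [Ring 𝔸] [Algebra ℂ 𝔸] {R R' X X' E : 𝔸} {a : ℂ}
    (h1 : R * X = 1) (h2 : X' * R' = 1) (hE : X - X' = a • E) (hc : R * E = E * R) :
    R' - R = a • (E * (R * R)) + a ^ 2 • (R * E * R * E * R') := by
  have e1 : R' - R = a • (R * E * R') := by
    have : R * (X - X') * R' = R' - R := by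
      rw [mul_sub, sub_mul, h1, one_mul, mul_assoc, h2, mul_one]
    rw [← this, hE, mul_smul_comm, smul_mul_assoc]
  have e2 : R' = R + a • (R * E * R') := by rw [← e1]; abel
  calc R' - R = a • (R * E * R') := e1
    _ = a • (R * E * (R + a • (R * E * R'))) := by rw [← e2]
    _ = _ := by
      rw [mul_add, mul_smul_comm, smul_add, smul_smul, ← sq]
      congr 2
      · rw [hc, mul_assoc]
      · simp only [mul_assoc]

lemma comm_of_inverse {𝔸 : Type*} [Ring 𝔸] {R X E : 𝔸} (h1 : R * X = 1) (h2 : X * R = 1)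
    (h : X * E = E * X) : R * E = E * R := by
  calc R * E = R * E * (X * R) := by rw [h2, mul_one]
    _ = R * (E * X) * R := by simp only [mul_assoc]
    _ = R * (X * E) * R := by rw [h]
    _ = (R * X) * E * R := by simp only [mul_assoc]
    _ = E * R := by rw [h1, one_mul]

lemma S_one_eq (B : H →L[ℂ] H) : P.S B (fun _ => 1) =
    ((2 * Real.pi : ℝ) : ℂ)⁻¹ • ∑ j : ZMod N, P.n j • ∫ s in (0 : ℝ)..(P.len j), res B (P.tau j s) := by
  unfold S
  simp only [one_smul]

/-- The increment of the boundary integral of the resolvent along the homotopy is of second order. -/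
lemma S_increment {A : H →L[ℂ] H} (c : ℂ) {d₀ t t' : ℝ} (hd₀ : 0 < d₀)
    (h1 : P.Margin (htp A c t) d₀) (h2 : P.Margin (htp A c t') d₀) :
    ‖P.S (htp A c t') (fun _ => 1) - P.S (htp A c t) (fun _ => 1)‖ ≤
      ((2 * Real.pi)⁻¹ * ∑ j : ZMod N, ‖A - c • (1 : H →L[ℂ] H)‖ ^ 2 * (1 / d₀) ^ 3 * P.len j)
        * (t' - t) ^ 2 := by
  set E : H →L[ℂ] H := A - c • (1 : H →L[ℂ] H) with hE
  set a : ℂ := ((t' - t : ℝ) : ℂ) with ha
  set R : ZMod N → ℝ → (H →L[ℂ] H) := fun j s => res (htp A c t) (P.tau j s) with hR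
  set R' : ZMod N → ℝ → (H →L[ℂ] H) := fun j s => res (htp A c t') (P.tau j s) with hR'
  have cR : ∀ j, Continuous (R j) := fun j => P.continuous_res h1 hd₀ j
  have cR' : ∀ j, Continuous (R' j) := fun j => P.continuous_res h2 hd₀ j
  have bR : ∀ j s, ‖R j s‖ ≤ 1 / d₀ := fun j s => (P.isUnit_sub hd₀ h1 j s).2
  have bR' : ∀ j s, ‖R' j s‖ ≤ 1 / d₀ := fun j s => (P.isUnit_sub hd₀ h2 j s).2
  have pointwise : ∀ j s, R' j s - R j s =
      a • (E * (R j s * R j s)) + a ^ 2 • (R j s * E * R j s * E * R' j s) := by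
    intro j s
    apply res_second_order (X := P.tau j s • (1 : H →L[ℂ] H) - htp A c t)
      (X' := P.tau j s • (1 : H →L[ℂ] H) - htp A c t') (P.res_mul_sub h1 hd₀ j s)
      (P.sub_mul_res h2 hd₀ j s)
    · simp only [htp, ha, ← hE]
      push_cast
      rw [sub_smul]
      abel
    · apply comm_of_inverse (X := P.tau j s • (1 : H →L[ℂ] H) - htp A c t)
        (P.res_mul_sub h1 hd₀ j s) (P.sub_mul_res h1 hd₀ j s)
      simp only [htp, ← hE, sub_mul, mul_sub, add_mul, mul_add, smul_mul_assoc, mul_smul_comm,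
        one_mul, mul_one]
  have cE : ∀ j, Continuous (fun s => E * (R j s * R j s)) := fun j =>
    continuous_const.mul ((cR j).mul (cR j))
  have cW : ∀ j, Continuous (fun s => R j s * E * R j s * E * R' j s) := fun j =>
    (((cR j).mul continuous_const).mul (cR j)).mul continuous_const |>.mul (cR' j)
  have integral_eq : ∀ j, (∫ s in (0 : ℝ)..(P.len j), R' j s) - ∫ s in (0 : ℝ)..(P.len j), R j s =
      a • (E * ∫ s in (0 : ℝ)..(P.len j), R j s * R j s) +
        a ^ 2 • ∫ s in (0 : ℝ)..(P.len j), R j s * E * R j s * E * R' j s := by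
    intro j
    rw [← intervalIntegral.integral_sub ((cR' j).intervalIntegrable _ _) ((cR j).intervalIntegrable _ _)]
    simp_rw [pointwise]
    have c1 : Continuous (fun s => a • (E * (R j s * R j s))) := (cE j).const_smul a
    have c2 : Continuous (fun s => a ^ 2 • (R j s * E * R j s * E * R' j s)) :=
      (cW j).const_smul (a ^ 2)
    rw [intervalIntegral.integral_add (c1.intervalIntegrable _ _)
      (c2.intervalIntegrable _ _), intervalIntegral.integral_smul,
      intervalIntegral.integral_smul]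
    congr 2
    exact (ContinuousLinearMap.mul ℂ (H →L[ℂ] H) E).intervalIntegral_comp_comm
      (((cR j).mul (cR j)).intervalIntegrable _ _)
  have hsum := P.sum_integral_res_sq h1 hd₀
  rw [P.S_one_eq, P.S_one_eq, ← smul_sub, ← Finset.sum_sub_distrib]
  have h3 : ∑ j : ZMod N, (P.n j • (∫ s in (0 : ℝ)..(P.len j), R' j s) -
        P.n j • ∫ s in (0 : ℝ)..(P.len j), R j s) =
      a ^ 2 • ∑ j : ZMod N, P.n j • ∫ s in (0 : ℝ)..(P.len j), R j s * E * R j s * E * R' j s := by
    have : ∀ j : ZMod N, (P.n j • (∫ s in (0 : ℝ)..(P.len j), R' j s) -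
        P.n j • ∫ s in (0 : ℝ)..(P.len j), R j s) =
        (a • E) * (P.n j • ∫ s in (0 : ℝ)..(P.len j), R j s * R j s) +
        a ^ 2 • (P.n j • ∫ s in (0 : ℝ)..(P.len j), R j s * E * R j s * E * R' j s) := by
      intro j
      rw [← smul_sub, integral_eq j, smul_add, smul_mul_assoc, mul_smul_comm, smul_comm _ a,
        smul_comm _ (a ^ 2)]
    simp_rw [this]
    rw [Finset.sum_add_distrib, ← Finset.mul_sum, ← Finset.smul_sum]
    simp only [hR] at hsum ⊢
    rw [hsum, mul_zero, zero_add]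
  rw [h3, norm_smul, norm_smul]
  have hp := Real.pi_pos
  have h4 : ‖((2 * Real.pi : ℝ) : ℂ)⁻¹‖ = (2 * Real.pi)⁻¹ := by
    rw [norm_inv, Complex.norm_real, Real.norm_of_nonneg (by positivity)]
  have h5 : ‖a ^ 2‖ = (t' - t) ^ 2 := by
    rw [norm_pow, ha, Complex.norm_real, Real.norm_eq_abs, sq_abs]
  rw [h4, h5]
  have hbound : ∀ j : ZMod N, ‖P.n j • ∫ s in (0 : ℝ)..(P.len j), R j s * E * R j s * E * R' j s‖ ≤
      ‖E‖ ^ 2 * (1 / d₀) ^ 3 * P.len j := by
    intro j
    rw [norm_smul, P.n_norm, one_mul]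
    have hl := P.len_pos j
    have := intervalIntegral.norm_integral_le_of_norm_le_const (a := 0) (b := P.len j)
      (C := ‖E‖ ^ 2 * (1 / d₀) ^ 3) (f := fun s => R j s * E * R j s * E * R' j s) ?_
    · simpa [abs_of_pos hl] using this
    · intro s _
      have hd : 0 ≤ 1 / d₀ := by positivity
      have hEn := norm_nonneg E
      calc ‖R j s * E * R j s * E * R' j s‖ ≤ ‖R j s‖ * ‖E‖ * ‖R j s‖ * ‖E‖ * ‖R' j s‖ := by
            refine (norm_mul_le _ _).trans ?_
            gcongr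
            refine (norm_mul_le _ _).trans ?_
            gcongr
            refine (norm_mul_le _ _).trans ?_
            gcongr
            exact norm_mul_le _ _
        _ ≤ (1 / d₀) * ‖E‖ * (1 / d₀) * ‖E‖ * (1 / d₀) := by
            have := bR j s
            have := bR' j s
            have := norm_nonneg (R j s)
            have := norm_nonneg (R' j s)
            gcongr
        _ = _ := by ring
  have h6 := (norm_sum_le (Finset.univ : Finset (ZMod N))
    (fun j => P.n j • ∫ s in (0 : ℝ)..(P.len j), R j s * E * R j s * E * R' j s)).trans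
    (Finset.sum_le_sum (fun j _ => hbound j))
  have h7 : 0 ≤ (t' - t) ^ 2 := sq_nonneg _
  have h8 : 0 ≤ (2 * Real.pi)⁻¹ := by positivity
  calc (2 * Real.pi)⁻¹ * ((t' - t) ^ 2 * ‖∑ j : ZMod N, P.n j • ∫ s in (0 : ℝ)..(P.len j), R j s * E * R j s * E * R' j s‖)
      ≤ (2 * Real.pi)⁻¹ * ((t' - t) ^ 2 * ∑ j : ZMod N, ‖E‖ ^ 2 * (1 / d₀) ^ 3 * P.len j) := by
        gcongr
    _ = _ := by ring

/-- `S 1 = 1` for a scalar operator. -/
lemma S_one_scalar (c : ℂ) (hc : ∀ k, 0 < P.dl k c) :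
    P.S (c • (1 : H →L[ℂ] H)) (fun _ => 1) = 1 := by
  rw [P.S_one_eq]
  have h1 : ∀ j s, res (c • (1 : H →L[ℂ] H)) (P.tau j s) =
      (1 / (P.tau j s - c)) • (1 : H →L[ℂ] H) := by
    intro j s
    have hne : P.tau j s - c ≠ 0 := P.tau_sub_ne_of_dl_ne (hc j).ne' s
    have hu : P.tau j s • (1 : H →L[ℂ] H) - c • (1 : H →L[ℂ] H) =
        (P.tau j s - c) • (1 : H →L[ℂ] H) := by rw [sub_smul]
    unfold res
    rw [hu]
    let U : (H →L[ℂ] H)ˣ := ⟨(P.tau j s - c) • (1 : H →L[ℂ] H), (1 / (P.tau j s - c)) • (1 : H →L[ℂ] H),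
      by rw [smul_mul_smul_comm, one_mul, mul_one_div_cancel hne, one_smul],
      by rw [smul_mul_smul_comm, one_mul, one_div_mul_cancel hne, one_smul]⟩
    exact Ring.inverse_unit U
  simp_rw [h1]
  simp_rw [intervalIntegral.integral_smul_const, smul_smul]
  rw [← Finset.sum_smul, smul_smul]
  have h2 := P.winding_one hc
  unfold oint at h2
  have h3 : ∑ j : ZMod N, P.n j * ∫ s in (0 : ℝ)..(P.len j), 1 / (P.tau j s - c) =
      2 * Real.pi := by
    have hI : (I : ℂ) ≠ 0 := Complex.I_ne_zero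
    have : I * ∑ j : ZMod N, P.n j * ∫ s in (0 : ℝ)..(P.len j), 1 / (P.tau j s - c) =
        I * (2 * Real.pi) := by
      rw [Finset.mul_sum]
      calc ∑ j : ZMod N, I * (P.n j * ∫ s in (0 : ℝ)..(P.len j), 1 / (P.tau j s - c))
          = ∑ j : ZMod N, P.t j * ∫ s in (0 : ℝ)..(P.len j), 1 / (P.tau j s - c) := by
            apply Finset.sum_congr rfl
            intro j _
            simp only [t]; ring
        _ = _ := by rw [h2]; ring
    exact mul_left_cancel₀ hI this
  rw [h3]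
  have h4 : ((2 * Real.pi : ℝ) : ℂ)⁻¹ * (2 * Real.pi) = 1 := by
    push_cast
    have : (Real.pi : ℂ) ≠ 0 := by exact_mod_cast Real.pi_ne_zero
    field_simp
  rw [h4, one_smul]

/-- `S 1 = 1`. -/
theorem S_one {A : H →L[ℂ] H} {d : ℝ} (hA : P.Margin A d) (hd : 0 < d) :
    P.S A (fun _ => 1) = 1 := by
  obtain ⟨j₀, hj₀⟩ := Finite.exists_min (fun j : ZMod N => P.dl j P.center)
  set d₀ := min d (P.dl j₀ P.center) with hd₀
  have hd₀pos : 0 < d₀ := lt_min hd (P.center_pos j₀)
  have h1 : d₀ ≤ d := min_le_left _ _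
  have h2 : ∀ j, d₀ ≤ P.dl j P.center := fun j => (min_le_right _ _).trans (hj₀ j)
  have hm : ∀ t : ℝ, 0 ≤ t → t ≤ 1 → P.Margin (htp A P.center t) d₀ := fun t h0 h1' =>
    P.margin_htp hA h1 h2 h0 h1'
  have key := eq_of_quadratic (fun t : ℝ => P.S (htp A P.center t) (fun _ => 1))
    ((2 * Real.pi)⁻¹ * ∑ j : ZMod N, ‖A - P.center • (1 : H →L[ℂ] H)‖ ^ 2 * (1 / d₀) ^ 3 * P.len j)
    (fun t t' h0 h1' h0' h1'' => P.S_increment P.center hd₀pos (hm t h0 h1') (hm t' h0' h1''))
  have e1 : htp A P.center 1 = A := by simp [htp]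
  have e0 : htp A P.center 0 = P.center • (1 : H →L[ℂ] H) := by simp [htp]
  simp only [e1, e0] at key
  rw [key, P.S_one_scalar _ P.center_pos]

lemma continuous_eval_tau (p : ℂ[X]) (j : ZMod N) : Continuous (fun s : ℝ => p.eval (P.tau j s)) :=
  p.continuous.comp (P.continuous_tau j)

lemma integrable_eval_tau (p : ℂ[X]) (j : ZMod N) :
    IntervalIntegrable (fun s : ℝ => p.eval (P.tau j s)) MeasureTheory.volume 0 (P.len j) :=
  (P.continuous_eval_tau p j).intervalIntegrable _ _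

/-- multiplication by the variable -/
theorem S_mul_id {A : H →L[ℂ] H} {d : ℝ} (hA : P.Margin A d) (hd : 0 < d) (p : ℂ[X]) :
    P.S A (fun z => z * p.eval z) = A * P.S A (fun z => p.eval z) := by
  have hpt : ∀ j s, (P.tau j s * p.eval (P.tau j s)) • res A (P.tau j s) =
      (p.eval (P.tau j s)) • (1 : H →L[ℂ] H) + A * (p.eval (P.tau j s) • res A (P.tau j s)) := by
    intro j s
    have h := P.sub_mul_res hA hd j s
    rw [sub_mul, smul_mul_assoc, one_mul, sub_eq_iff_eq_add] at h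
    rw [mul_comm, mul_smul, h, smul_add, mul_smul_comm]
  have hside : ∀ j : ZMod N, (∫ s in (0 : ℝ)..(P.len j), (P.tau j s * p.eval (P.tau j s)) • res A (P.tau j s)) =
      (∫ s in (0 : ℝ)..(P.len j), p.eval (P.tau j s)) • (1 : H →L[ℂ] H) +
        A * ∫ s in (0 : ℝ)..(P.len j), p.eval (P.tau j s) • res A (P.tau j s) := by
    intro j
    simp_rw [hpt]
    have c0 := P.continuous_eval_tau p j
    have cr := P.continuous_res hA hd j
    have c1 : Continuous (fun s : ℝ => p.eval (P.tau j s) • (1 : H →L[ℂ] H)) :=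
      c0.smul continuous_const
    have c2 : Continuous (fun s : ℝ => p.eval (P.tau j s) • res A (P.tau j s)) := c0.smul cr
    have c3 : Continuous (fun s : ℝ => A * (p.eval (P.tau j s) • res A (P.tau j s))) :=
      continuous_const.mul c2
    rw [intervalIntegral.integral_add (c1.intervalIntegrable _ _) (c3.intervalIntegrable _ _),
      intervalIntegral.integral_smul_const]
    congr 1
    exact (ContinuousLinearMap.mul ℂ (H →L[ℂ] H) A).intervalIntegral_comp_comm
      (c2.intervalIntegrable _ _)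
  have h0 := P.oint_poly p
  unfold oint at h0
  have h1 : ∑ j : ZMod N, P.n j * ∫ s in (0 : ℝ)..(P.len j), p.eval (P.tau j s) = 0 := by
    have hI : (I : ℂ) ≠ 0 := Complex.I_ne_zero
    apply mul_left_cancel₀ hI
    rw [mul_zero, Finset.mul_sum, ← h0]
    apply Finset.sum_congr rfl
    intro j _
    simp only [t]; ring
  unfold S
  have h2 : ∑ j : ZMod N, P.n j • (∫ s in (0 : ℝ)..(P.len j), p.eval (P.tau j s)) • (1 : H →L[ℂ] H) = 0 := by
    simp_rw [smul_smul]
    rw [← Finset.sum_smul, h1, zero_smul]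
  simp_rw [hside, smul_add]
  rw [Finset.sum_add_distrib, h2, zero_add, mul_smul_comm, Finset.mul_sum]
  simp_rw [mul_smul_comm]

lemma S_congr (A : H →L[ℂ] H) {u v : ℂ → ℂ} (h : ∀ z, u z = v z) : P.S A u = P.S A v := by
  have : u = v := funext h
  rw [this]

/-- The boundary integral is the polynomial functional calculus. -/
theorem S_poly {A : H →L[ℂ] H} {d : ℝ} (hA : P.Margin A d) (hd : 0 < d) (p : ℂ[X]) :
    P.S A (fun z => p.eval z) = aeval A p := by
  induction p using Polynomial.induction_on' with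
  | add p q hp hq =>
    have : (fun z => (p + q).eval z) = fun z => p.eval z + q.eval z := by
      funext z; simp
    rw [this, P.S_add hA hd (fun j => P.integrable_eval_tau p j)
      (fun j => P.integrable_eval_tau q j), hp, hq, map_add]
  | monomial n c =>
    induction n with
    | zero =>
      have : (fun z => (monomial 0 c : ℂ[X]).eval z) = fun _ => c * 1 := by
        funext z; simp
      rw [this, P.S_const_mul A c (fun _ => 1), P.S_one hA hd]
      simp [Algebra.algebraMap_eq_smul_one]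
    | succ n ih =>
      have : (fun z => (monomial (n + 1) c : ℂ[X]).eval z) =
          fun z => z * (monomial n c : ℂ[X]).eval z := by
        funext z; simp [pow_succ]; ring
      rw [this, P.S_mul_id hA hd, ih]
      simp only [aeval_monomial, pow_succ, Algebra.algebraMap_eq_smul_one, smul_mul_assoc, one_mul,
        mul_smul_comm]
      congr 1
      exact (pow_succ' A n).symm.trans (pow_succ A n)

/-- the norm bound of `S`, in the form of the blueprint -/
theorem S_norm_le {A : H →L[ℂ] H} {d : ℝ} (hA : P.Margin A d) (hd : 0 < d) {u : ℂ → ℂ}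
    (_hu : ∀ j, IntervalIntegrable (fun s : ℝ => u (P.tau j s)) MeasureTheory.volume 0 (P.len j))
    {C : ℝ} (hC : ∀ z ∈ P.opn, ‖u z‖ ≤ C) :
    ‖P.S A u‖ ≤ (∑ j : ZMod N, P.len j) / (2 * Real.pi * d) * C :=
  P.S_norm_le' hA hd hC

end Pgon

end Vale.Agent.Lib.P123
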