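import Vale.Agent.Lib.P123.Basic

open Complex Polynomial
open scoped ComplexConjugate InnerProductSpace

set_option linter.unusedSectionVars false

namespace Vale.Agent.Lib.P123

variable {N : ℕ} [NeZero N]

namespace Pgon

variable (P : Pgon N)

/-- the closed boundary integral `∮ u dτ` -/
noncomputable def oint (u : ℂ → ℂ) : ℂ :=
  ∑ j : ZMod N, P.t j * ∫ s in (0 : ℝ)..(P.len j), u (P.tau j s)

lemma slit_of_re_nonneg {w : ℂ} (h0 : w ≠ 0) (h : 0 ≤ w.re) : w ∈ slitPlane := by
  rw [mem_slitPlane_iff]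
  rcases h.lt_or_eq with h1 | h1
  · exact Or.inl h1
  · right
    intro him
    exact h0 (Complex.ext h1.symm him)

lemma re_conj_n_tau (j : ZMod N) (s : ℝ) (z : ℂ) :
    (conj (P.n j) * (P.tau j s - z)).re = P.dl j z := by
  have := P.dl_sub j z (P.tau j s)
  rw [P.dl_tau_self, sub_zero] at this
  exact this.symm

lemma hasDerivAt_side_log (j : ZMod N) (m a : ℂ) (s : ℝ)
    (h : m * (P.tau j s - a) ∈ slitPlane) :
    HasDerivAt (fun x : ℝ => log (m * (P.tau j x - a))) (P.t j / (P.tau j s - a)) s := by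
  have h0 : m * (P.tau j s - a) ≠ 0 := slitPlane_ne_zero h
  have hm : m ≠ 0 := left_ne_zero_of_mul h0
  have ha : P.tau j s - a ≠ 0 := right_ne_zero_of_mul h0
  have hd : HasDerivAt (fun x : ℝ => m * (P.tau j x - a)) (m * P.t j) s :=
    ((P.hasDerivAt_tau j s).sub_const a).const_mul m
  have := hd.clog_real h
  convert this using 1
  field_simp

/-- integral over a side of `t/(τ-a)` through a branch of the logarithm on that side -/
lemma integral_side_log (j : ZMod N) (m a : ℂ)
    (h : ∀ s ∈ Set.Icc (0 : ℝ) (P.len j), m * (P.tau j s - a) ∈ slitPlane) :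
    P.t j * ∫ s in (0 : ℝ)..(P.len j), (1 / (P.tau j s - a)) =
      log (m * (P.v (j + 1) - a)) - log (m * (P.v j - a)) := by
  have hl := (P.len_pos j).le
  have hne : ∀ s ∈ Set.Icc (0 : ℝ) (P.len j), P.tau j s - a ≠ 0 := fun s hs =>
    right_ne_zero_of_mul (slitPlane_ne_zero (h s hs))
  have hcont : ContinuousOn (fun s : ℝ => P.t j / (P.tau j s - a)) (Set.Icc 0 (P.len j)) := by
    apply ContinuousOn.div continuousOn_const _ hne
    exact ((P.continuous_tau j).sub continuous_const).continuousOn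
  have hint : IntervalIntegrable (fun s : ℝ => P.t j / (P.tau j s - a)) MeasureTheory.volume
      0 (P.len j) := by
    apply ContinuousOn.intervalIntegrable
    rwa [Set.uIcc_of_le hl]
  have key := intervalIntegral.integral_eq_sub_of_hasDerivAt
    (f := fun x : ℝ => log (m * (P.tau j x - a)))
    (f' := fun s : ℝ => P.t j / (P.tau j s - a)) (a := 0) (b := P.len j)
    (fun s hs => P.hasDerivAt_side_log j m a s (h s (by rwa [Set.uIcc_of_le hl] at hs))) hint
  rw [P.tau_zero, P.tau_len] at key
  rw [← key, ← intervalIntegral.integral_const_mul]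
  congr 1
  funext s
  ring

/-- the logarithm at the start of side `j`, in the branch of side `j` -/
noncomputable def Lm (j : ZMod N) (z : ℂ) : ℂ := log (conj (P.n j) * (P.v j - z))

/-- the logarithm at the end of side `j`, in the branch of side `j` -/
noncomputable def Lp (j : ZMod N) (z : ℂ) : ℂ := log (conj (P.n j) * (P.v (j + 1) - z))

/-- the turning angle -/
noncomputable def delta (_P : Pgon N) : ℝ := 2 * Real.pi / N

lemma N_pos (P : Pgon N) : (3 : ℝ) ≤ N := by exact_mod_cast P.three_le

lemma delta_pos : 0 < P.delta := by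
  have := P.N_pos
  unfold delta
  positivity

lemma delta_lt_pi : P.delta < Real.pi := by
  have := P.N_pos
  have hp := Real.pi_pos
  unfold delta
  rw [div_lt_iff₀ (by linarith)]
  nlinarith

lemma log_rot {Δ : ℝ} (h0 : 0 < Δ) (h1 : Δ < Real.pi) {w : ℂ} (hw : w ≠ 0) (hre : 0 ≤ w.re)
    (hre' : 0 ≤ (exp ((Δ : ℂ) * I) * w).re) :
    log (exp ((Δ : ℂ) * I) * w) = (Δ : ℂ) * I + log w := by
  have he : exp ((Δ : ℂ) * I) ≠ 0 := exp_ne_zero _
  have harg : arg (exp ((Δ : ℂ) * I)) = Δ := by
    rw [Complex.arg_exp_mul_I]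
    rw [toIocMod_eq_self] 
    · constructor <;> linarith [Real.pi_pos]
  have habs : |arg w| ≤ Real.pi / 2 := Complex.abs_arg_le_pi_div_two_iff.2 hre
  have habs2 := abs_le.1 habs
  have hcond : arg (exp ((Δ : ℂ) * I)) + arg w ∈ Set.Ioc (-Real.pi) Real.pi := by
    rw [harg]
    constructor
    · linarith [Real.pi_pos]
    · by_contra hcon
      push Not at hcon
      -- the argument of the rotated point would be in the left half plane
      have hnorm : 0 < ‖w‖ := norm_pos_iff.2 hw
      have hexp : exp ((Δ : ℂ) * I) * w = (‖w‖ : ℂ) * exp (((Δ + arg w : ℝ) : ℂ) * I) := by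
        conv_lhs => rw [← Complex.norm_mul_exp_arg_mul_I w]
        push_cast
        rw [add_mul, Complex.exp_add]
        ring
      have hcos : (exp ((Δ : ℂ) * I) * w).re = ‖w‖ * Real.cos (Δ + arg w) := by
        rw [hexp, Complex.re_ofReal_mul, Complex.exp_ofReal_mul_I_re]
      have hneg : Real.cos (Δ + arg w) < 0 := by
        apply Real.cos_neg_of_pi_div_two_lt_of_lt
        · linarith [Real.pi_pos]
        · linarith [Real.pi_pos]
      rw [hcos] at hre'
      nlinarith
  rw [(Complex.log_mul_eq_add_log_iff he hw).2 hcond, Complex.log_exp]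
  · simp
    linarith [Real.pi_pos]
  · simp
    exact h1.le

lemma rot_conj (j : ZMod N) :
    conj (P.n j) = exp ((P.delta : ℂ) * I) * conj (P.n (j + 1)) := by
  rw [P.rot j, map_mul, ← Complex.exp_conj]
  have : conj (((2 * Real.pi / N : ℝ) : ℂ) * I) = -((P.delta : ℂ) * I) := by
    rw [map_mul, Complex.conj_ofReal, Complex.conj_I]
    simp [delta]
  rw [this]
  have h2 : exp ((P.delta : ℂ) * I) * exp (-((P.delta : ℂ) * I)) = 1 := by
    rw [← Complex.exp_add]; simp
  calc conj (P.n j) = (exp ((P.delta : ℂ) * I) * exp (-((P.delta : ℂ) * I))) * conj (P.n j) := by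
        rw [h2, one_mul]
    _ = _ := by ring

/-- The two branches at a vertex differ by the turning angle. -/
lemma Lp_eq {j : ZMod N} {z : ℂ} (hz : z ∈ P.Q) (hne : P.v (j + 1) ≠ z) :
    P.Lp j z = P.Lm (j + 1) z + (P.delta : ℂ) * I := by
  unfold Lp Lm
  set w := conj (P.n (j + 1)) * (P.v (j + 1) - z) with hw
  have hw0 : w ≠ 0 := by
    rw [hw]
    apply mul_ne_zero
    · simpa using P.n_ne_zero (j + 1)
    · exact sub_ne_zero.2 hne
  have hre : 0 ≤ w.re := hz (j + 1)
  have e : conj (P.n j) * (P.v (j + 1) - z) = exp ((P.delta : ℂ) * I) * w := by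
    rw [P.rot_conj j, hw]; ring
  have hre' : 0 ≤ (exp ((P.delta : ℂ) * I) * w).re := by
    rw [← e]
    have := P.dl_sub j z (P.v (j + 1))
    rw [P.dl_vertex_succ, sub_zero] at this
    rw [← this]
    exact hz j
  rw [e, log_rot P.delta_pos P.delta_lt_pi hw0 hre hre', add_comm]

/-- the side integral for a point strictly inside the line of the side -/
lemma side_eq_log {j : ZMod N} {z : ℂ} (hz : 0 < P.dl j z) :
    P.t j * ∫ s in (0 : ℝ)..(P.len j), (1 / (P.tau j s - z)) = P.Lp j z - P.Lm j z := by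
  apply P.integral_side_log j (conj (P.n j)) z
  intro s _
  rw [mem_slitPlane_iff]
  left
  rw [P.re_conj_n_tau]
  exact hz

lemma sum_const_N (c : ℂ) : ∑ _j : ZMod N, c = (N : ℂ) * c := by
  rw [Finset.sum_const, Finset.card_univ, ZMod.card, nsmul_eq_mul]

lemma N_mul_delta : (N : ℂ) * ((P.delta : ℂ) * I) = 2 * Real.pi * I := by
  have h : (N : ℂ) ≠ 0 := by
    exact_mod_cast NeZero.ne N
  simp only [delta]
  push_cast
  field_simp

/-- sum over all sides of the logarithmic differences -/
lemma sum_Lp_sub_Lm {z : ℂ} (hz : z ∈ P.Q) (hne : ∀ j, P.v j ≠ z) :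
    ∑ j : ZMod N, (P.Lp j z - P.Lm j z) = 2 * Real.pi * I := by
  have : ∀ j : ZMod N, P.Lp j z - P.Lm j z =
      (P.Lm (j + 1) z - P.Lm j z) + (P.delta : ℂ) * I := by
    intro j
    rw [P.Lp_eq hz (hne (j + 1))]
    ring
  simp_rw [this]
  rw [Finset.sum_add_distrib, sum_succ_sub (fun j => P.Lm j z), zero_add, sum_const_N, P.N_mul_delta]

/-- winding number one -/
theorem winding_one {z : ℂ} (hz : ∀ k, 0 < P.dl k z) :
    P.oint (fun τ => 1 / (τ - z)) = 2 * Real.pi * I := by
  unfold oint
  have : ∀ j : ZMod N, P.t j * ∫ s in (0 : ℝ)..(P.len j), (1 / (P.tau j s - z)) =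
      P.Lp j z - P.Lm j z := fun j => P.side_eq_log (hz j)
  simp_rw [this]
  apply P.sum_Lp_sub_Lm (fun k => (hz k).le)
  intro j h
  have := hz j
  rw [← h, P.dl_vertex_self] at this
  exact lt_irrefl _ this

/-- winding number zero -/
theorem winding_zero {a : ℂ} {k : ZMod N} (ha : P.dl k a < 0) :
    P.oint (fun τ => 1 / (τ - a)) = 0 := by
  unfold oint
  have : ∀ j : ZMod N, P.t j * ∫ s in (0 : ℝ)..(P.len j), (1 / (P.tau j s - a)) =
      log (-conj (P.n k) * (P.v (j + 1) - a)) - log (-conj (P.n k) * (P.v j - a)) := by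
    intro j
    apply P.integral_side_log j (-conj (P.n k)) a
    intro s hs
    rw [mem_slitPlane_iff]
    left
    have h1 := P.tau_mem_Q j hs k
    have h2 := P.dl_sub k (P.tau j s) a
    have e : (-conj (P.n k) * (P.tau j s - a)) = conj (P.n k) * (a - P.tau j s) := by ring
    rw [e, ← h2]
    linarith
  simp_rw [this]
  exact sum_succ_sub (fun j => log (-conj (P.n k) * (P.v j - a)))

lemma exists_antideriv (p : ℂ[X]) : ∃ F : ℂ[X], derivative F = p := by
  induction p using Polynomial.induction_on' with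
  | add p q hp hq =>
    obtain ⟨a, ha⟩ := hp
    obtain ⟨b, hb⟩ := hq
    exact ⟨a + b, by simp [ha, hb]⟩
  | monomial n c =>
    refine ⟨monomial (n + 1) (c / ((n : ℂ) + 1)), ?_⟩
    rw [derivative_monomial]
    have : ((n : ℂ) + 1) ≠ 0 := by exact_mod_cast Nat.succ_ne_zero n
    simp [this]

/-- closed integrals of polynomials vanish -/
theorem oint_poly (p : ℂ[X]) : P.oint (fun τ => p.eval τ) = 0 := by
  unfold oint
  have key : ∀ (j : ZMod N) (F : ℂ[X]), (derivative F = p) →
      P.t j * ∫ s in (0 : ℝ)..(P.len j), p.eval (P.tau j s) =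
        F.eval (P.v (j + 1)) - F.eval (P.v j) := by
    intro j F hF
    have hl := (P.len_pos j).le
    have hd : ∀ s ∈ Set.uIcc (0 : ℝ) (P.len j),
        HasDerivAt (fun x : ℝ => F.eval (P.tau j x)) (P.t j * p.eval (P.tau j s)) s := by
      intro s _
      have h1 := (F.hasDerivAt (P.tau j s)).scomp s (P.hasDerivAt_tau j s)
      simpa [hF, mul_comm, Function.comp_def] using h1
    have hc : Continuous (fun s : ℝ => P.t j * p.eval (P.tau j s)) :=
      continuous_const.mul (p.continuous.comp (P.continuous_tau j))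
    have := intervalIntegral.integral_eq_sub_of_hasDerivAt hd (hc.intervalIntegrable _ _)
    rw [P.tau_zero, P.tau_len] at this
    rw [← this, intervalIntegral.integral_const_mul]
  obtain ⟨F, hF⟩ := exists_antideriv p
  simp_rw [fun j => key j F hF]
  exact sum_succ_sub (fun j => F.eval (P.v j))

/-- divided differences -/
lemma exists_divided (F : ℂ[X]) (z : ℂ) : ∃ r : ℂ[X], ∀ τ, F.eval τ - F.eval z = (τ - z) * r.eval τ := by
  obtain ⟨r, hr⟩ := Polynomial.X_sub_C_dvd_sub_C_eval (a := z) (p := F)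
  refine ⟨r, fun τ => ?_⟩
  have := congrArg (Polynomial.eval τ) hr
  simpa using this

/-- splitting the Cauchy integrand -/
lemma oint_kernel (F : ℂ[X]) {z : ℂ} (hne : ∀ j s, P.tau j s ≠ z ∨ s ∉ Set.Icc (0 : ℝ) (P.len j))
    (hcont : ∀ j, ContinuousOn (fun s : ℝ => 1 / (P.tau j s - z)) (Set.Icc 0 (P.len j))) :
    P.oint (fun τ => F.eval τ * (1 / (τ - z))) = F.eval z * P.oint (fun τ => 1 / (τ - z)) := by
  obtain ⟨r, hr⟩ := exists_divided F z
  have h0 := P.oint_poly r
  unfold oint at h0 ⊢
  rw [Finset.mul_sum, ← sub_eq_zero, ← Finset.sum_sub_distrib]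
  rw [← h0]
  apply Finset.sum_congr rfl
  intro j _
  have hl := (P.len_pos j).le
  have h1 : IntervalIntegrable (fun s : ℝ => 1 / (P.tau j s - z)) MeasureTheory.volume 0 (P.len j) := by
    apply ContinuousOn.intervalIntegrable
    rw [Set.uIcc_of_le hl]
    exact hcont j
  have h2 : Continuous (fun s : ℝ => r.eval (P.tau j s)) := r.continuous.comp (P.continuous_tau j)
  have e : ∫ s in (0 : ℝ)..(P.len j), F.eval (P.tau j s) * (1 / (P.tau j s - z)) =
      F.eval z * (∫ s in (0 : ℝ)..(P.len j), 1 / (P.tau j s - z)) +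
        ∫ s in (0 : ℝ)..(P.len j), r.eval (P.tau j s) := by
    rw [← intervalIntegral.integral_const_mul, ← intervalIntegral.integral_add
      (h1.const_mul _) (h2.intervalIntegrable _ _)]
    apply intervalIntegral.integral_congr
    intro s hs
    rw [Set.uIcc_of_le hl] at hs
    have hs' : P.tau j s - z ≠ 0 := by
      rcases hne j s with h | h
      · exact sub_ne_zero.2 h
      · exact absurd hs h
    have := hr (P.tau j s)
    simp only
    field_simp
    linear_combination this
  rw [e]
  ring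

lemma tau_ne_of_dl_pos {z : ℂ} {j : ZMod N} (h : P.dl j z ≠ 0) (s : ℝ) : P.tau j s ≠ z := by
  intro h0
  exact P.tau_sub_ne_of_dl_ne h s (sub_eq_zero.2 h0)

/-- Cauchy formula for polynomials at interior points. -/
theorem cauchy_inner (F : ℂ[X]) {z : ℂ} (hz : ∀ k, 0 < P.dl k z) :
    P.oint (fun τ => F.eval τ * (1 / (τ - z))) = 2 * Real.pi * I * F.eval z := by
  have hne : ∀ j s, P.tau j s ≠ z := fun j s => P.tau_ne_of_dl_pos (hz j).ne' s
  rw [P.oint_kernel F (fun j s => Or.inl (hne j s)), P.winding_one hz]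
  · ring
  · intro j
    apply ContinuousOn.div continuousOn_const
    · exact ((P.continuous_tau j).sub continuous_const).continuousOn
    · exact fun s _ => sub_ne_zero.2 (hne j s)

/-- Cauchy formula for polynomials at exterior points. -/
theorem cauchy_outer (F : ℂ[X]) {a : ℂ} {k : ZMod N} (ha : P.dl k a < 0) :
    P.oint (fun τ => F.eval τ * (1 / (τ - a))) = 0 := by
  have hne : ∀ j, ∀ s ∈ Set.Icc (0 : ℝ) (P.len j), P.tau j s ≠ a := by
    intro j s hs h
    have := P.tau_mem_Q j hs k
    rw [h] at this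
    linarith
  rw [P.oint_kernel F, P.winding_zero ha, mul_zero]
  · intro j s
    by_cases hs : s ∈ Set.Icc (0 : ℝ) (P.len j)
    · exact Or.inl (hne j s hs)
    · exact Or.inr hs
  · intro j
    apply ContinuousOn.div continuousOn_const
    · exact ((P.continuous_tau j).sub continuous_const).continuousOn
    · exact fun s hs => sub_ne_zero.2 (hne j s hs)

end Pgon
end Vale.Agent.Lib.P123
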